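import Vale.Agent.P146.H785.Transp
import Vale.Agent.P146.H425.Ut

/-!
Second derivatives of the layer functional `W x s F`: if `F` is `C^2` with gradient `D` and Hessian
`HF`, then `DW x s F D` has the derivative `HW = E_x HF + x Cov_x (D, D)`.
-/

open MeasureTheory ProbabilityTheory
open scoped ENNReal Matrix

namespace Vale.Agent.P146.H785

open Vale.Agent.P157.Lv Vale.Agent.P146.H425

set_option linter.unusedSectionVars false

variable {κ : Type} [Fintype κ] {F : (κ → ℝ) → ℝ} {D : κ → (κ → ℝ) → ℝ}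
  {HF : κ → κ → (κ → ℝ) → ℝ} {B L B2 x s : ℝ}

/-- The linear form with the coefficients `a`. -/
noncomputable def lf (a : κ → ℝ) : (κ → ℝ) →L[ℝ] ℝ :=
  ∑ i, a i • (ContinuousLinearMap.proj i : (κ → ℝ) →L[ℝ] ℝ)

lemma lf_apply (a w : κ → ℝ) : lf a w = ∑ i, a i * w i := by
  unfold lf
  simp

lemma norm_lf_le {a : κ → ℝ} {C : ℝ} (hC : 0 ≤ C) (h : ∀ i, |a i| ≤ C) :
    ‖lf a‖ ≤ Fintype.card κ * C := by
  refine ContinuousLinearMap.opNorm_le_bound _ (by positivity) fun w => ?_
  rw [lf_apply, Real.norm_eq_abs]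
  refine (Finset.abs_sum_le_sum_abs _ _).trans ?_
  calc ∑ i, |a i * w i| ≤ ∑ _i : κ, C * ‖w‖ := by
        refine Finset.sum_le_sum fun i _ => ?_
        rw [abs_mul]
        have h2 := norm_le_pi_norm w i
        rw [Real.norm_eq_abs] at h2
        gcongr
        exact h i
    _ = Fintype.card κ * C * ‖w‖ := by
        rw [Finset.sum_const, Finset.card_univ, nsmul_eq_mul]; ring

lemma C11.hasFDerivAt (h : C11 F D B L) (y : κ → ℝ) :
    HasFDerivAt F (lf fun e => D e y) y := by
  rw [hasFDerivAt_iff_isLittleO_nhds_zero]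
  have h1 : ∀ w : κ → ℝ, ‖F (y + w) - F y - lf (fun e => D e y) w‖ ≤ L * ‖w‖ ^ 2 := by
    intro w
    rw [lf_apply, Real.norm_eq_abs]
    exact h.quad y w
  have h2 : (fun w : κ → ℝ => F (y + w) - F y - lf (fun e => D e y) w) =O[nhds 0]
      fun w => ‖w‖ ^ 2 := by
    refine Asymptotics.IsBigO.of_bound L (Filter.Eventually.of_forall fun w => ?_)
    rw [Real.norm_eq_abs (‖w‖ ^ 2), abs_of_nonneg (by positivity)]
    exact h1 w
  refine h2.trans_isLittleO ?_
  have h3 : (fun w : κ → ℝ => ‖w‖ ^ 2) =o[nhds 0] fun w => ‖w‖ ^ 1 :=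
    Asymptotics.IsLittleO.comp_tendsto (f := fun t : ℝ => t ^ 2) (g := fun t : ℝ => t ^ 1)
      (l := nhds 0) (Asymptotics.isLittleO_pow_pow (by norm_num)) (by
        have := (continuous_norm (E := κ → ℝ)).tendsto 0
        rwa [norm_zero] at this)
  refine h3.trans_isBigO ?_
  simp only [pow_one]
  exact Asymptotics.isBigO_refl _ _ |>.norm_left

/-- Differentiation of a Gaussian average. -/
lemma fd_gauss {G : (κ → ℝ) → ℝ} {G' : κ → (κ → ℝ) → ℝ} (hG : EG G) (hG' : ∀ f, EG (G' f))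
    (hd : ∀ y, HasFDerivAt G (lf fun f => G' f y) y) (s : ℝ) (y : κ → ℝ) :
    HasFDerivAt (fun y => ∫ z, G (y + s • z) ∂(gI κ))
      (lf fun f => ∫ z, G' f (y + s • z) ∂(gI κ)) y := by
  classical
  choose C a hC ha hb using fun f => (hG' f).bdd
  set C0 : ℝ := ∑ f, C f with hC0
  set a0 : ℝ := ∑ f, a f with ha0
  have hC0n : 0 ≤ C0 := Finset.sum_nonneg fun f _ => hC f
  have ha0n : 0 ≤ a0 := Finset.sum_nonneg fun f _ => ha f
  have hb0 : ∀ f u, |G' f u| ≤ C0 * Real.exp (a0 * ‖u‖) := by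
    intro f u
    refine (hb f u).trans ?_
    have h1 : C f ≤ C0 := Finset.single_le_sum (fun f _ => hC f) (Finset.mem_univ f)
    have h2 : a f ≤ a0 := Finset.single_le_sum (fun f _ => ha f) (Finset.mem_univ f)
    gcongr
  set bd : (κ → ℝ) → ℝ := fun z =>
    Fintype.card κ * (C0 * Real.exp (a0 * (‖y‖ + 1))) * Real.exp (a0 * |s| * ‖z‖) with hbd
  have hint : Integrable bd (gI κ) := (integrable_exp_norm _).const_mul _
  have hm : ∀ (u : κ → ℝ), Measurable fun z : κ → ℝ => u + s • z := fun u => by fun_prop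
  have key := hasFDerivAt_integral_of_dominated_of_fderiv_le (𝕜 := ℝ) (μ := gI κ)
    (F := fun y z => G (y + s • z)) (F' := fun y z => lf fun f => G' f (y + s • z)) (x₀ := y)
    (bound := bd) (Metric.ball_mem_nhds y one_pos)
    (Filter.Eventually.of_forall fun u => (hG.meas.comp (hm u)).aestronglyMeasurable)
    (EG.add_smul hG y s).integrable
    (by
      unfold lf
      refine Finset.aestronglyMeasurable_fun_sum _ fun f _ => ?_
      exact (((hG' f).meas.comp (hm y)).aestronglyMeasurable).smul_const _)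
    (Filter.Eventually.of_forall fun z u hu => by
      refine (norm_lf_le (C := C0 * Real.exp (a0 * (‖y‖ + 1)) * Real.exp (a0 * |s| * ‖z‖))
        (by positivity) fun f => ?_).trans (le_of_eq (by rw [hbd]; ring))
      refine (hb0 f _).trans ?_
      rw [mul_assoc, ← Real.exp_add]
      refine mul_le_mul_of_nonneg_left (Real.exp_le_exp.2 ?_) hC0n
      have h1 : ‖u + s • z‖ ≤ ‖y‖ + 1 + |s| * ‖z‖ := by
        refine (norm_add_le _ _).trans ?_
        rw [norm_smul, Real.norm_eq_abs]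
        have h2 : ‖u‖ ≤ ‖y‖ + 1 := by
          have h3 := mem_ball_iff_norm.1 hu
          have h4 := norm_add_le (u - y) y
          rw [sub_add_cancel] at h4
          linarith
        linarith
      have := mul_le_mul_of_nonneg_left h1 ha0n
      linarith)
    hint
    (Filter.Eventually.of_forall fun z u _ => by
      have h1 : HasFDerivAt (fun u : κ → ℝ => u + s • z) (ContinuousLinearMap.id ℝ (κ → ℝ)) u :=
        (hasFDerivAt_id u).add_const _
      have h2 := (hd (u + s • z)).comp u h1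
      simpa [Function.comp_def] using h2)
  refine key.congr_fderiv ?_
  have hi : ∀ f, Integrable (fun z => G' f (y + s • z)) (gI κ) := fun f =>
    (EG.add_smul (hG' f) y s).integrable
  unfold lf
  rw [integral_finsetSum _ fun f _ => (hi f).smul_const _]
  refine Finset.sum_congr rfl fun f _ => ?_
  rw [integral_smul_const]

/-- The data of a `C^2` convex function with bounded derivatives. -/
structure C2 (F : (κ → ℝ) → ℝ) (D : κ → (κ → ℝ) → ℝ) (HF : κ → κ → (κ → ℝ) → ℝ)
    (B L B2 : ℝ) : Prop where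
  c1 : C11 F D B L
  dv : Dv D HF
  meas : ∀ e f, Measurable (HF e f)
  bd : ∀ e f z, |HF e f z| ≤ B2
  sym : ∀ e f z, HF e f z = HF f e z
  ps : Ps HF

/-- The tilted average `E_x φ` seen from `y`. -/
noncomputable def Ax (x s : ℝ) (F φ : (κ → ℝ) → ℝ) (y : κ → ℝ) : ℝ :=
  (∫ z, Real.exp (x * F (y + s • z)) * φ (y + s • z) ∂(gI κ)) /
      ∫ z, Real.exp (x * F (y + s • z)) ∂(gI κ)

/-- The Hessian of the layer functional. -/
noncomputable def HW (x s : ℝ) (F : (κ → ℝ) → ℝ) (D : κ → (κ → ℝ) → ℝ)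
    (HF : κ → κ → (κ → ℝ) → ℝ) (e f : κ) (y : κ → ℝ) : ℝ :=
  Ax x s F (HF e f) y + x * (Ax x s F (fun u => D e u * D f u) y - DW x s F D e y * DW x s F D f y)

lemma DW_eq (e : κ) (y : κ → ℝ) : DW x s F D e y = Ax x s F (D e) y := rfl

/-- A general differentiation formula for tilted averages. -/
lemma fd_Ax (h : C11 F D B L) {φ : (κ → ℝ) → ℝ} {φ' : κ → (κ → ℝ) → ℝ} (hφ : EG φ)
    (hφ' : ∀ f, EG (φ' f)) (hd : ∀ y, HasFDerivAt φ (lf fun f => φ' f y) y) (x s : ℝ)
    (y : κ → ℝ) : HasFDerivAt (Ax x s F φ)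
      (lf fun f => Ax x s F (φ' f) y + x * (Ax x s F (fun u => φ u * D f u) y -
        Ax x s F φ y * Ax x s F (D f) y)) y := by
  have hl := h.lip.lip h.B0
  have he : EG fun u => Real.exp (x * F u) := hl.exp_eg x
  have hD : ∀ f, EG (D f) := fun f => EG.of_bdd (h.meas f) (h.bd f)
  have hexp : ∀ y, HasFDerivAt (fun u => Real.exp (x * F u))
      (lf fun f => Real.exp (x * F y) * (x * D f y)) y := by
    intro y
    have h1 := ((C11.hasFDerivAt h y).const_mul x).exp
    refine h1.congr_fderiv ?_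
    ext w
    simp only [smul_apply, lf_apply, smul_eq_mul, Finset.mul_sum]
    exact Finset.sum_congr rfl fun i _ => by ring
  have hZ := fd_gauss he (fun f => he.mul ((hD f).const_mul x)) hexp s y
  have hN := fd_gauss (he.mul hφ)
    (G' := fun f u => Real.exp (x * F u) * (x * D f u * φ u + φ' f u))
    (fun f => he.mul ((((hD f).const_mul x).mul hφ).add (hφ' f)))
    (fun y => by
      have h1 := (hexp y).mul (hd y)
      refine h1.congr_fderiv ?_
      ext w
      simp only [add_apply, smul_apply, lf_apply, smul_eq_mul, Finset.mul_sum,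
        ← Finset.sum_add_distrib]
      exact Finset.sum_congr rfl fun i _ => by ring) s y
  have hpos : 0 < ∫ z, Real.exp (x * F (y + s • z)) ∂(gI κ) := h.lip.pos h.B0 y s x
  have hinv := (hasDerivAt_inv hpos.ne').comp_hasFDerivAt y hZ
  have h2 := hN.mul hinv
  have e1 : Ax x s F φ = fun y => (∫ z, Real.exp (x * F (y + s • z)) * φ (y + s • z) ∂(gI κ)) *
      (Inv.inv ∘ fun y => ∫ z, Real.exp (x * F (y + s • z)) ∂(gI κ)) y := by
    funext y
    unfold Ax
    rw [div_eq_mul_inv]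
    rfl
  rw [e1]
  refine h2.congr_fderiv ?_
  have i1 : ∀ f, Integrable (fun z => Real.exp (x * F (y + s • z)) * φ' f (y + s • z)) (gI κ) :=
    fun f => (EG.add_smul (he.mul (hφ' f)) y s).integrable
  have i2 : ∀ f, Integrable (fun z => Real.exp (x * F (y + s • z)) *
      (φ (y + s • z) * D f (y + s • z))) (gI κ) :=
    fun f => (EG.add_smul (he.mul (hφ.mul (hD f))) y s).integrable
  have e2 : ∀ f, ∫ z, Real.exp (x * F (y + s • z)) * (x * D f (y + s • z) * φ (y + s • z) +
      φ' f (y + s • z)) ∂(gI κ) = x * (∫ z, Real.exp (x * F (y + s • z)) *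
      (φ (y + s • z) * D f (y + s • z)) ∂(gI κ)) +
      ∫ z, Real.exp (x * F (y + s • z)) * φ' f (y + s • z) ∂(gI κ) := by
    intro f
    rw [← integral_const_mul, ← integral_add ((i2 f).const_mul x) (i1 f)]
    refine integral_congr_ae (Filter.Eventually.of_forall fun z => ?_)
    simp only
    ring
  have e3 : ∀ f, ∫ z, Real.exp (x * F (y + s • z)) * (x * D f (y + s • z)) ∂(gI κ) =
      x * ∫ z, Real.exp (x * F (y + s • z)) * D f (y + s • z) ∂(gI κ) := by
    intro f
    rw [← integral_const_mul]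
    refine integral_congr_ae (Filter.Eventually.of_forall fun z => ?_)
    simp only
    ring
  ext w
  simp only [add_apply, smul_apply, lf_apply, smul_eq_mul, Finset.mul_sum,
    ← Finset.sum_add_distrib, Function.comp_apply]
  refine Finset.sum_congr rfl fun f _ => ?_
  rw [e2, e3]
  unfold Ax
  set Z := ∫ z, Real.exp (x * F (y + s • z)) ∂(gI κ) with hZd
  field_simp
  ring

/-! ### tilted averages -/

section Ax

variable {φ ψ : (κ → ℝ) → ℝ}

lemma Ax_int (h : LipB F B) (hB : 0 ≤ B) (hφ : EG φ) (x s : ℝ) (y : κ → ℝ) :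
    Integrable (fun z => Real.exp (x * F (y + s • z)) * φ (y + s • z)) (gI κ) :=
  (EG.add_smul (((h.lip hB).exp_eg x).mul hφ) y s).integrable

lemma Ax_add (h : LipB F B) (hB : 0 ≤ B) (hφ : EG φ) (hψ : EG ψ) (x s : ℝ) (y : κ → ℝ) :
    Ax x s F (fun u => φ u + ψ u) y = Ax x s F φ y + Ax x s F ψ y := by
  unfold Ax
  rw [← add_div, ← integral_add (Ax_int h hB hφ x s y) (Ax_int h hB hψ x s y)]
  congr 1
  refine integral_congr_ae (Filter.Eventually.of_forall fun z => ?_)
  simp only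
  ring

lemma Ax_const_mul (c : ℝ) (φ : (κ → ℝ) → ℝ) (x s : ℝ) (y : κ → ℝ) :
    Ax x s F (fun u => c * φ u) y = c * Ax x s F φ y := by
  unfold Ax
  rw [← mul_div_assoc, ← integral_const_mul]
  congr 1
  refine integral_congr_ae (Filter.Eventually.of_forall fun z => ?_)
  simp only
  ring

lemma Ax_sum (h : LipB F B) (hB : 0 ≤ B) {ι : Type*} (S : Finset ι) {φ : ι → (κ → ℝ) → ℝ}
    (hφ : ∀ i ∈ S, EG (φ i)) (x s : ℝ) (y : κ → ℝ) :
    Ax x s F (fun u => ∑ i ∈ S, φ i u) y = ∑ i ∈ S, Ax x s F (φ i) y := by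
  unfold Ax
  rw [← Finset.sum_div, ← integral_finsetSum _ fun i hi => Ax_int h hB (hφ i hi) x s y]
  congr 1
  refine integral_congr_ae (Filter.Eventually.of_forall fun z => ?_)
  simp only [Finset.mul_sum]

lemma Ax_const (h : LipB F B) (hB : 0 ≤ B) (c : ℝ) (x s : ℝ) (y : κ → ℝ) :
    Ax x s F (fun _ => c) y = c := by
  unfold Ax
  rw [integral_mul_const, mul_comm, mul_div_assoc, div_self (h.pos hB y s x).ne', mul_one]

lemma Ax_mono (h : LipB F B) (hB : 0 ≤ B) (hφ : EG φ) (hψ : EG ψ) (hle : ∀ u, φ u ≤ ψ u)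
    (x s : ℝ) (y : κ → ℝ) : Ax x s F φ y ≤ Ax x s F ψ y := by
  unfold Ax
  refine div_le_div_of_nonneg_right ?_ (h.pos hB y s x).le
  exact integral_mono (Ax_int h hB hφ x s y) (Ax_int h hB hψ x s y) fun z =>
    mul_le_mul_of_nonneg_left (hle _) (Real.exp_pos _).le

lemma Ax_abs_le (h : LipB F B) (hB : 0 ≤ B) (hm : Measurable φ) {C : ℝ} (hle : ∀ u, |φ u| ≤ C)
    (x s : ℝ) (y : κ → ℝ) : |Ax x s F φ y| ≤ C := by
  have hφ : EG φ := EG.of_bdd hm hle
  rw [abs_le]
  constructor
  · rw [← Ax_const h hB (-C) x s y]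
    exact Ax_mono h hB (EG.const _) hφ (fun u => (abs_le.1 (hle u)).1) x s y
  · rw [← Ax_const h hB C x s y]
    exact Ax_mono h hB hφ (EG.const _) (fun u => (abs_le.1 (hle u)).2) x s y

lemma Ax_sq_le (h : LipB F B) (hB : 0 ≤ B) (hφ : EG φ) (x s : ℝ) (y : κ → ℝ) :
    Ax x s F φ y ^ 2 ≤ Ax x s F (fun u => φ u * φ u) y := by
  set a := Ax x s F φ y with ha
  have h1 : Ax x s F (fun _ => (0 : ℝ)) y ≤ Ax x s F (fun u => φ u * φ u + ((-2 * a) * φ u + a ^ 2)) y :=
    Ax_mono h hB (EG.const _) ((hφ.mul hφ).add ((hφ.const_mul _).add (EG.const _)))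
      (fun u => by nlinarith [sq_nonneg (φ u - a)]) x s y
  rw [Ax_const h hB, Ax_add h hB (hφ.mul hφ) ((hφ.const_mul _).add (EG.const _)),
    Ax_add h hB (hφ.const_mul _) (EG.const _), Ax_const_mul, Ax_const h hB, ← ha] at h1
  nlinarith

lemma Ax_meas (h : LipB F B) (hB : 0 ≤ B) (hφ : EG φ) (x s : ℝ) : Measurable (Ax x s F φ) := by
  unfold Ax
  exact (EG.conv (((h.lip hB).exp_eg x).mul hφ) s).meas.div
    (EG.conv ((h.lip hB).exp_eg x) s).meas

end Ax

/-! ### the Hessian of the layer functional -/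

variable {HF : κ → κ → (κ → ℝ) → ℝ}

lemma C2.egD (h : C2 F D HF B L B2) (e : κ) : EG (D e) := EG.of_bdd (h.c1.meas e) (h.c1.bd e)

lemma C2.egH (h : C2 F D HF B L B2) (e f : κ) : EG (HF e f) := EG.of_bdd (h.meas e f) (h.bd e f)

lemma HW_dv (h : C2 F D HF B L B2) (x s : ℝ) : Dv (DW x s F D) (HW x s F D HF) := by
  intro e y
  exact fd_Ax h.c1 (h.egD e) (fun f => h.egH e f) (h.dv e) x s y

lemma HW_sym (h : C2 F D HF B L B2) (x s : ℝ) (e f : κ) (y : κ → ℝ) :
    HW x s F D HF e f y = HW x s F D HF f e y := by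
  unfold HW
  have h1 : HF e f = HF f e := by funext z; exact h.sym e f z
  have h2 : (fun u => D e u * D f u) = fun u => D f u * D e u := by funext u; ring
  rw [h1, h2]
  ring

lemma HW_bd (h : C2 F D HF B L B2) (hx : 0 ≤ x) (s : ℝ) (e f : κ) (y : κ → ℝ) :
    |HW x s F D HF e f y| ≤ B2 + 2 * x * B ^ 2 := by
  have hl := h.c1.lip
  have hB := h.c1.B0
  have h1 := Ax_abs_le hl hB (h.meas e f) (h.bd e f) x s y
  have h2 := Ax_abs_le hl hB (φ := fun u => D e u * D f u) ((h.c1.meas e).mul (h.c1.meas f))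
    (C := B ^ 2) (fun u => by
      rw [abs_mul, sq]
      exact mul_le_mul (h.c1.bd e u) (h.c1.bd f u) (abs_nonneg _) hB) x s y
  have h3 := Ax_abs_le hl hB (h.c1.meas e) (h.c1.bd e) x s y
  have h4 := Ax_abs_le hl hB (h.c1.meas f) (h.c1.bd f) x s y
  have h5 : |DW x s F D e y * DW x s F D f y| ≤ B ^ 2 := by
    rw [abs_mul, sq]
    exact mul_le_mul h3 h4 (abs_nonneg _) hB
  unfold HW
  have h6 : |x * (Ax x s F (fun u => D e u * D f u) y - DW x s F D e y * DW x s F D f y)| ≤
      x * (2 * B ^ 2) := by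
    rw [abs_mul, abs_of_nonneg hx]
    refine mul_le_mul_of_nonneg_left ?_ hx
    exact (abs_sub _ _).trans (by linarith)
  refine (abs_add_le _ _).trans ?_
  linarith

lemma HW_meas (h : C2 F D HF B L B2) (x s : ℝ) (e f : κ) : Measurable (HW x s F D HF e f) := by
  have hl := h.c1.lip
  have hB := h.c1.B0
  unfold HW
  exact (Ax_meas hl hB (h.egH e f) x s).add ((((Ax_meas hl hB ((h.egD e).mul (h.egD f)) x s)).sub
    ((Ax_meas hl hB (h.egD e) x s).mul (Ax_meas hl hB (h.egD f) x s))).const_mul x)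

lemma HW_ps (h : C2 F D HF B L B2) (hx : 0 ≤ x) (s : ℝ) : Ps (HW x s F D HF) := by
  intro y v
  have hl := h.c1.lip
  have hB := h.c1.B0
  have hV : EG fun u => ∑ e, D e u * v e := EG.sum _ fun e _ => by
    simpa [mul_comm] using (h.egD e).const_mul (v e)
  have e1 : Ax x s F (fun u => ∑ e, ∑ f, HF e f u * v e * v f) y =
      ∑ e, ∑ f, Ax x s F (HF e f) y * v e * v f := by
    rw [Ax_sum hl hB _ fun e _ => EG.sum _ fun f _ => by
      have := (h.egH e f).const_mul (v e * v f)
      refine (EG.mono this ?_ fun y => ?_)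
      · exact ((h.meas e f).mul_const _).mul_const _
      · exact le_of_eq (by congr 1; ring)]
    refine Finset.sum_congr rfl fun e _ => ?_
    rw [Ax_sum hl hB _ fun f _ => by
      have := (h.egH e f).const_mul (v e * v f)
      refine (EG.mono this ?_ fun y => ?_)
      · exact ((h.meas e f).mul_const _).mul_const _
      · exact le_of_eq (by congr 1; ring)]
    refine Finset.sum_congr rfl fun f _ => ?_
    have : (fun u => HF e f u * v e * v f) = fun u => (v e * v f) * HF e f u := by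
      funext u; ring
    rw [this, Ax_const_mul]
    ring
  have e2 : Ax x s F (fun u => (∑ e, D e u * v e) * ∑ e, D e u * v e) y =
      ∑ e, ∑ f, Ax x s F (fun u => D e u * D f u) y * v e * v f := by
    have h1 : (fun u => (∑ e, D e u * v e) * ∑ e, D e u * v e) =
        fun u => ∑ e, ∑ f, (v e * v f) * (D e u * D f u) := by
      funext u
      rw [Finset.sum_mul_sum]
      exact Finset.sum_congr rfl fun e _ => Finset.sum_congr rfl fun f _ => by ring
    rw [h1, Ax_sum hl hB _ fun e _ => EG.sum _ fun f _ => ((h.egD e).mul (h.egD f)).const_mul _]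
    refine Finset.sum_congr rfl fun e _ => ?_
    rw [Ax_sum hl hB _ fun f _ => ((h.egD e).mul (h.egD f)).const_mul _]
    refine Finset.sum_congr rfl fun f _ => ?_
    rw [Ax_const_mul]
    ring
  have e3 : Ax x s F (fun u => ∑ e, D e u * v e) y = ∑ e, DW x s F D e y * v e := by
    rw [Ax_sum hl hB _ fun e _ => by simpa [mul_comm] using (h.egD e).const_mul (v e)]
    refine Finset.sum_congr rfl fun e _ => ?_
    have : (fun u => D e u * v e) = fun u => v e * D e u := by funext u; ring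
    rw [this, Ax_const_mul, DW_eq]
    ring
  have h0 : 0 ≤ Ax x s F (fun u => ∑ e, ∑ f, HF e f u * v e * v f) y := by
    rw [← Ax_const hl hB 0 x s y]
    refine Ax_mono hl hB (EG.const _) ?_ (fun u => h.ps u v) x s y
    refine EG.sum _ fun e _ => EG.sum _ fun f _ => ?_
    have := (h.egH e f).const_mul (v e * v f)
    refine (EG.mono this ?_ fun y => ?_)
    · exact ((h.meas e f).mul_const _).mul_const _
    · exact le_of_eq (by congr 1; ring)
  have h1 := Ax_sq_le hl hB hV x s y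
  rw [e2, e3] at h1
  rw [e1] at h0
  have e4 : ∑ e, ∑ f, HW x s F D HF e f y * v e * v f =
      ∑ e, ∑ f, Ax x s F (HF e f) y * v e * v f +
      x * (∑ e, ∑ f, Ax x s F (fun u => D e u * D f u) y * v e * v f -
        (∑ e, DW x s F D e y * v e) ^ 2) := by
    rw [sq, Finset.sum_mul_sum, ← Finset.sum_sub_distrib, Finset.mul_sum, ← Finset.sum_add_distrib]
    refine Finset.sum_congr rfl fun e _ => ?_
    rw [← Finset.sum_sub_distrib, Finset.mul_sum, ← Finset.sum_add_distrib]
    refine Finset.sum_congr rfl fun f _ => ?_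
    unfold HW
    ring
  rw [e4]
  nlinarith [mul_nonneg hx (sub_nonneg.2 h1)]

/-- The layer functional is `C^2`. -/
theorem C2.W (h : C2 F D HF B L B2) (hx : 0 < x) (s : ℝ) :
    C2 (W x s F) (DW x s F D) (HW x s F D HF) B (L + 2 * x * (Fintype.card κ * B) ^ 2)
      (B2 + 2 * x * B ^ 2) :=
  ⟨h.c1.W' hx s, HW_dv h x s, fun e f => HW_meas h x s e f, fun e f y => HW_bd h hx.le s e f y,
    fun e f y => HW_sym h x s e f y, HW_ps h hx.le s⟩

end Vale.Agent.P146.H785
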