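import Vale.Agent.P146.H785.Hes

/-!
The transport inequality along a weighted family of positions: the Gaussian vector is indexed by
`J`, the position is `po bs cf y e = ∑_{bs j = e} cf j y j`, and the shift of the position by
`c D (position)` is realised by the shift `(cf j / s) D` of the coordinates.
-/

open MeasureTheory ProbabilityTheory
open scoped ENNReal Matrix

namespace Vale.Agent.P146.H785

open Vale.Agent.P157.Lv Vale.Agent.P146.H425

set_option linter.unusedSectionVars false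

variable {κ J : Type} [Fintype κ] [Fintype J] [DecidableEq κ] [DecidableEq J]
  {D : κ → (κ → ℝ) → ℝ} {H : κ → κ → (κ → ℝ) → ℝ} {B c s : ℝ} {bs : J → κ} {cf : J → ℝ}

/-- The position. -/
noncomputable def po (bs : J → κ) (cf : J → ℝ) (y : J → ℝ) : κ → ℝ :=
  fun e => ∑ j, if bs j = e then cf j * y j else 0

/-- Fibre sums. -/
def FS (bs : J → κ) (a : J → ℝ) (t : ℝ) : Prop := ∀ e, (∑ j, if bs j = e then a j else 0) = t

lemma sum_fib (bs : J → κ) (a : J → ℝ) (g : κ → ℝ) :
    ∑ e, g e * (∑ j, if bs j = e then a j else 0) = ∑ j, a j * g (bs j) := by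
  simp_rw [Finset.mul_sum]
  rw [Finset.sum_comm]
  refine Finset.sum_congr rfl fun j _ => ?_
  rw [Finset.sum_eq_single (bs j)]
  · simp [mul_comm]
  · intro e _ he
    rw [if_neg (Ne.symm he), mul_zero]
  · simp

lemma sum_po (y : J → ℝ) (g : κ → ℝ) :
    ∑ e, g e * po bs cf y e = ∑ j, cf j * y j * g (bs j) := by
  unfold po
  exact sum_fib bs (fun j => cf j * y j) g

lemma FS.sum {a : J → ℝ} {t : ℝ} (h : FS bs a t) (g : κ → ℝ) :
    ∑ j, a j * g (bs j) = t * ∑ e, g e := by
  rw [← sum_fib bs a g, Finset.mul_sum]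
  refine Finset.sum_congr rfl fun e _ => ?_
  rw [h e, mul_comm]

/-- The displacement field. -/
noncomputable def tD (s : ℝ) (bs : J → κ) (cf : J → ℝ) (D : κ → (κ → ℝ) → ℝ) (j : J)
    (y : J → ℝ) : ℝ := cf j / s * D (bs j) (po bs cf y)

/-- Its derivative. -/
noncomputable def tH (s : ℝ) (bs : J → κ) (cf : J → ℝ) (H : κ → κ → (κ → ℝ) → ℝ) (j j' : J)
    (y : J → ℝ) : ℝ := cf j * cf j' / s * H (bs j) (bs j') (po bs cf y)

/-- The position as a linear map. -/
noncomputable def poL (bs : J → κ) (cf : J → ℝ) : (J → ℝ) →ₗ[ℝ] (κ → ℝ) where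
  toFun := po bs cf
  map_add' y z := by
    funext e
    simp only [po, Pi.add_apply]
    rw [← Finset.sum_add_distrib]
    refine Finset.sum_congr rfl fun j _ => ?_
    split_ifs <;> ring
  map_smul' r y := by
    funext e
    simp only [po, Pi.smul_apply, smul_eq_mul, RingHom.id_apply]
    rw [Finset.mul_sum]
    refine Finset.sum_congr rfl fun j _ => ?_
    split_ifs <;> ring

lemma po_fd (y : J → ℝ) :
    HasFDerivAt (po bs cf) (LinearMap.toContinuousLinearMap (poL bs cf)) y :=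
  (LinearMap.toContinuousLinearMap (poL bs cf)).hasFDerivAt

lemma po_cont : Continuous (po bs cf) :=
  (LinearMap.toContinuousLinearMap (poL bs cf)).continuous

/-- Composition with the position. -/
lemma fd_po {G : (κ → ℝ) → ℝ} {G' : κ → (κ → ℝ) → ℝ} (h : ∀ u, HasFDerivAt G (lf fun e => G' e u) u)
    (y : J → ℝ) : HasFDerivAt (fun y => G (po bs cf y))
      (lf fun j => cf j * G' (bs j) (po bs cf y)) y := by
  have h1 := (h (po bs cf y)).comp y (po_fd y)
  refine h1.congr_fderiv ?_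
  ext w
  simp only [ContinuousLinearMap.comp_apply, LinearMap.coe_toContinuousLinearMap', lf_apply]
  change ∑ i, G' i (po bs cf y) * po bs cf w i = _
  rw [sum_po]
  exact Finset.sum_congr rfl fun j _ => by ring

lemma tD_dv (h : Dv D H) : Dv (tD s bs cf D) (tH s bs cf H) := by
  intro j y
  have h1 := (fd_po (bs := bs) (cf := cf) (h (bs j)) y).const_mul (cf j / s)
  refine h1.congr_fderiv ?_
  change _ = lf fun j' => tH s bs cf H j j' y
  ext w
  simp only [smul_apply, lf_apply, smul_eq_mul, Finset.mul_sum, tH]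
  exact Finset.sum_congr rfl fun j' _ => by ring

lemma tH_sym (h : ∀ e i z, H e i z = H i e z) (j j' : J) (y : J → ℝ) :
    tH s bs cf H j j' y = tH s bs cf H j' j y := by
  unfold tH
  rw [h (bs j) (bs j')]
  ring

lemma tH_ps (h : Ps H) (hs : 0 < s) : Ps (tH s bs cf H) := by
  intro y v
  have h1 := h (po bs cf y) (po bs cf v)
  have h2 : ∑ j, ∑ j', tH s bs cf H j j' y * v j * v j' =
      1 / s * ∑ e, ∑ i, H e i (po bs cf y) * po bs cf v e * po bs cf v i := by
    have e1 : ∀ e, ∑ i, H e i (po bs cf y) * po bs cf v e * po bs cf v i =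
        (∑ j', cf j' * v j' * H e (bs j') (po bs cf y)) * po bs cf v e := by
      intro e
      rw [← sum_po (y := v) (g := fun i => H e i (po bs cf y)), Finset.sum_mul]
      exact Finset.sum_congr rfl fun i _ => by ring
    simp_rw [e1]
    rw [sum_po (y := v) (g := fun e => ∑ j', cf j' * v j' * H e (bs j') (po bs cf y)),
      Finset.mul_sum]
    refine Finset.sum_congr rfl fun j _ => ?_
    rw [Finset.mul_sum, Finset.mul_sum]
    refine Finset.sum_congr rfl fun j' _ => ?_
    unfold tH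
    field_simp
  rw [h2]
  positivity

lemma po_tm (hf : FS bs (fun j => cf j ^ 2) s) (hs : s ≠ 0) (y : J → ℝ) :
    po bs cf (tm c (tD s bs cf D) y) = tm c D (po bs cf y) := by
  funext e
  simp only [po, tm, tD]
  have h1 : ∑ j, (if bs j = e then cf j * (y j + c * (cf j / s * D (bs j) (po bs cf y))) else 0) =
      ∑ j, (if bs j = e then cf j * y j else 0) +
      c / s * D e (po bs cf y) * ∑ j, (if bs j = e then cf j ^ 2 else 0) := by
    rw [Finset.mul_sum, ← Finset.sum_add_distrib]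
    refine Finset.sum_congr rfl fun j _ => ?_
    split_ifs with hj
    · rw [hj]; ring
    · ring
  change ∑ j, (if bs j = e then cf j * (y j + c * (cf j / s * D (bs j) (po bs cf y))) else 0) =
    ∑ j, (if bs j = e then cf j * y j else 0) + c * D e (po bs cf y)
  rw [h1, hf e]
  field_simp

lemma tx_po (hf : FS bs (fun j => cf j ^ 2) s) (hs : s ≠ 0) (y : J → ℝ) :
    tx c (tD s bs cf D) (tH s bs cf H) y =
      c * ∑ j, (y j * tD s bs cf D j y - tH s bs cf H j j y) +
      c ^ 2 / 2 * ((∑ e, D e (po bs cf y) ^ 2) / s + ∑ e, ∑ i, H e i (po bs cf y) ^ 2) := by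
  unfold tx
  congr 2
  have e1 : ∑ j, tD s bs cf D j y ^ 2 = (∑ e, D e (po bs cf y) ^ 2) / s := by
    have : ∀ j, tD s bs cf D j y ^ 2 = 1 / s ^ 2 * (cf j ^ 2 * D (bs j) (po bs cf y) ^ 2) := by
      intro j; unfold tD; field_simp
    simp_rw [this]
    rw [← Finset.mul_sum, hf.sum fun e => D e (po bs cf y) ^ 2]
    field_simp
  have e2 : ∑ j, ∑ j', tH s bs cf H j j' y ^ 2 = ∑ e, ∑ i, H e i (po bs cf y) ^ 2 := by
    have : ∀ j j', tH s bs cf H j j' y ^ 2 =
        1 / s ^ 2 * (cf j ^ 2 * (cf j' ^ 2 * H (bs j) (bs j') (po bs cf y) ^ 2)) := by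
      intro j j'; unfold tH; field_simp
    simp_rw [this]
    have e3 : ∀ j, ∑ j', 1 / s ^ 2 * (cf j ^ 2 * (cf j' ^ 2 * H (bs j) (bs j') (po bs cf y) ^ 2)) =
        1 / s ^ 2 * (cf j ^ 2 * (s * ∑ i, H (bs j) i (po bs cf y) ^ 2)) := by
      intro j
      rw [← Finset.mul_sum, ← Finset.mul_sum, hf.sum fun i => H (bs j) i (po bs cf y) ^ 2]
    simp_rw [e3]
    rw [← Finset.mul_sum, hf.sum fun e => s * ∑ i, H e i (po bs cf y) ^ 2, ← Finset.mul_sum]
    field_simp
  rw [e1, e2]

/-! ### integration by parts and convexity -/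

lemma pd_of_fd {G : (J → ℝ) → ℝ} {G' : J → (J → ℝ) → ℝ}
    (h : ∀ u, HasFDerivAt G (lf fun e => G' e u) u) (e : J) : PD e G (G' e) := by
  intro y x
  have h1 := (h (Function.update y e x)).comp_hasDerivAt x (hasDerivAt_update y e x)
  refine h1.congr_deriv ?_
  rw [lf_apply, Finset.sum_eq_single e]
  · simp
  · intro i _ hi
    rw [Pi.single_apply, if_neg hi, mul_zero]
  · simp

lemma grad_ineq {U : (κ → ℝ) → ℝ} {L B2 : ℝ} (h : C2 U D H B L B2) (p v : κ → ℝ) :
    U p + ∑ e, D e p * v e ≤ U (p + v) := by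
  set g : ℝ → ℝ := fun t => U (p + t • v) - t * ∑ e, D e p * v e with hg
  have hd : ∀ t, HasDerivAt g (∑ e, D e (p + t • v) * v e - ∑ e, D e p * v e) t := by
    intro t
    have h1 : HasDerivAt (fun t : ℝ => p + t • v) v t := by
      simpa using ((hasDerivAt_id t).smul_const v).const_add p
    have h2 := (C11.hasFDerivAt h.c1 (p + t • v)).comp_hasDerivAt t h1
    rw [lf_apply] at h2
    have h3 := h2.sub ((hasDerivAt_id t).mul_const (∑ e, D e p * v e))
    refine h3.congr_deriv ?_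
    ring
  have hm : MonotoneOn g (Set.Icc 0 1) := by
    refine monotoneOn_of_deriv_nonneg (convex_Icc 0 1)
      (fun t _ => (hd t).continuousAt.continuousWithinAt)
      (fun t _ => (hd t).differentiableAt.differentiableWithinAt) fun t ht => ?_
    rw [interior_Icc] at ht
    rw [(hd t).deriv]
    have h1 := mono_of h.dv h.ps p (p + t • v)
    have h2 : ∑ e, (D e (p + t • v) - D e p) * ((p + t • v) e - p e) =
        t * (∑ e, D e (p + t • v) * v e - ∑ e, D e p * v e) := by
      rw [← Finset.sum_sub_distrib, Finset.mul_sum]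
      refine Finset.sum_congr rfl fun e _ => ?_
      simp only [Pi.add_apply, Pi.smul_apply, smul_eq_mul]
      ring
    rw [h2] at h1
    exact nonneg_of_mul_nonneg_right h1 ht.1
  have h1 := hm (Set.left_mem_Icc.2 zero_le_one) (Set.right_mem_Icc.2 zero_le_one) zero_le_one
  simp only [hg, zero_smul, add_zero, zero_mul, sub_zero, one_smul, one_mul] at h1
  linarith

lemma eg_po {G : (κ → ℝ) → ℝ} (hG : EG G) : EG fun y => G (po bs cf y) := by
  obtain ⟨C, a, hC, ha, h⟩ := hG.bdd
  set K : ℝ := ∑ j, |cf j| with hK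
  refine ⟨hG.meas.comp po_cont.measurable, C, a * K, hC, by positivity, fun y => ?_⟩
  refine (h _).trans ?_
  refine mul_le_mul_of_nonneg_left (Real.exp_le_exp.2 ?_) hC
  rw [mul_assoc]
  refine mul_le_mul_of_nonneg_left ?_ ha
  rw [pi_norm_le_iff_of_nonneg (by positivity)]
  intro e
  rw [Real.norm_eq_abs]
  refine (Finset.abs_sum_le_sum_abs _ _).trans ?_
  rw [hK, Finset.sum_mul]
  refine Finset.sum_le_sum fun j _ => ?_
  have h2 := norm_le_pi_norm y j
  rw [Real.norm_eq_abs] at h2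
  split_ifs
  · rw [abs_mul]
    exact mul_le_mul_of_nonneg_left h2 (abs_nonneg _)
  · rw [abs_zero]; positivity

/-- Integration by parts for the displacement field. -/
lemma ibp_po {U : (κ → ℝ) → ℝ} {L B2 : ℝ} (h : C2 U D H B L B2) {ω : (J → ℝ) → ℝ}
    {ω' : J → (J → ℝ) → ℝ} (hω : ∀ y, HasFDerivAt ω (lf fun j => ω' j y) y)
    (hω' : ∀ j, EG (ω' j)) (hωe : EG fun y => Real.exp (ω y)) :
    ∫ y, Real.exp (ω y) * ∑ j, (y j * tD s bs cf D j y - tH s bs cf H j j y) ∂(gI J) =
      ∫ y, Real.exp (ω y) * ∑ j, ω' j y * tD s bs cf D j y ∂(gI J) := by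
  have hD : ∀ j, EG (tD s bs cf D j) := fun j => (eg_po (h.egD (bs j))).const_mul _
  have hH : ∀ j, EG (tH s bs cf H j j) := fun j => (eg_po (h.egH (bs j) (bs j))).const_mul _
  have h1 : ∀ j, ∫ y, y j * (Real.exp (ω y) * tD s bs cf D j y) ∂(gI J) =
      ∫ y, (Real.exp (ω y) * (ω' j y * tD s bs cf D j y) +
        Real.exp (ω y) * tH s bs cf H j j y) ∂(gI J) := by
    intro j
    refine PD.stein (e := j) ?_ (hωe.mul (hD j))
      ((hωe.mul ((hω' j).mul (hD j))).add (hωe.mul (hH j)))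
    have p1 : PD j (fun y => Real.exp (ω y)) (fun y => Real.exp (ω y) * ω' j y) :=
      (pd_of_fd hω j).exp
    have p2 : PD j (tD s bs cf D j) (tH s bs cf H j j) := pd_of_fd (tD_dv h.dv j) j
    exact (p1.mul p2).congr fun y => by ring
  have i1 : ∀ j, Integrable (fun y => y j * (Real.exp (ω y) * tD s bs cf D j y)) (gI J) :=
    fun j => ((EG.coord j).mul (hωe.mul (hD j))).integrable
  have i2 : ∀ j, Integrable (fun y => Real.exp (ω y) * tH s bs cf H j j y) (gI J) :=
    fun j => (hωe.mul (hH j)).integrable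
  have i3 : ∀ j, Integrable (fun y => Real.exp (ω y) * (ω' j y * tD s bs cf D j y)) (gI J) :=
    fun j => (hωe.mul ((hω' j).mul (hD j))).integrable
  have e1 : ∀ y, Real.exp (ω y) * ∑ j, (y j * tD s bs cf D j y - tH s bs cf H j j y) =
      ∑ j, (y j * (Real.exp (ω y) * tD s bs cf D j y) -
        Real.exp (ω y) * tH s bs cf H j j y) := by
    intro y
    rw [Finset.mul_sum]
    exact Finset.sum_congr rfl fun j _ => by ring
  have e2 : ∀ y, Real.exp (ω y) * ∑ j, ω' j y * tD s bs cf D j y =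
      ∑ j, Real.exp (ω y) * (ω' j y * tD s bs cf D j y) := by
    intro y
    rw [Finset.mul_sum]
  have i4 : ∀ j, Integrable (fun y => y j * (Real.exp (ω y) * tD s bs cf D j y) -
      Real.exp (ω y) * tH s bs cf H j j y) (gI J) := fun j => (i1 j).sub (i2 j)
  simp_rw [e1, e2]
  rw [integral_finsetSum _ fun j _ => i4 j, integral_finsetSum _ fun j _ => i3 j]
  refine Finset.sum_congr rfl fun j _ => ?_
  rw [integral_sub (i1 j) (i2 j), h1 j, integral_add (i3 j) (i2 j)]
  ring

/-- **Transport along the position.** -/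
theorem tr_po {U : (κ → ℝ) → ℝ} {L B2 : ℝ} (h : C2 U D H B L B2) {ω : (J → ℝ) → ℝ}
    {ω' : J → (J → ℝ) → ℝ} (hω : ∀ y, HasFDerivAt ω (lf fun j => ω' j y) y)
    (hω' : ∀ j, EG (ω' j)) (hωg : EG ω) (hωe : EG fun y => Real.exp (ω y))
    (h1 : ∫ y, Real.exp (ω y) ∂(gI J) = 1) (hf : FS bs (fun j => cf j ^ 2) s) (hs : 0 < s)
    (hc : 0 ≤ c) {k : ℝ} (hk : 0 ≤ k) :
    ∫ y, Real.exp (ω y) * (k * (U (po bs cf y) + c * ∑ e, D e (po bs cf y) ^ 2) - ω y -
      c * ∑ j, ω' j y * tD s bs cf D j y -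
      c ^ 2 / 2 * ((∑ e, D e (po bs cf y) ^ 2) / s + ∑ e, ∑ i, H e i (po bs cf y) ^ 2)) ∂(gI J) ≤
      Real.log (∫ y, Real.exp (k * U (po bs cf y)) ∂(gI J)) := by
  classical
  have hB := h.c1.B0
  have hUl := h.c1.lip.lip hB
  set Bt : ℝ := (∑ j, |cf j| / s) * B + (∑ j, ∑ j', |cf j| * |cf j'| / s) * |B2| with hBt
  have hBt0 : 0 ≤ Bt := by positivity
  have bD : ∀ j y, |tD s bs cf D j y| ≤ Bt := by
    intro j y
    unfold tD
    rw [abs_mul, abs_div, abs_of_pos hs]
    have h2 : |cf j| / s ≤ ∑ j, |cf j| / s :=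
      Finset.single_le_sum (f := fun j => |cf j| / s) (fun j _ => by positivity)
        (Finset.mem_univ j)
    have h3 : 0 ≤ (∑ j, ∑ j', |cf j| * |cf j'| / s) * |B2| := by positivity
    have h4 : |cf j| / s * |D (bs j) (po bs cf y)| ≤ (∑ j, |cf j| / s) * B :=
      mul_le_mul h2 (h.c1.bd _ _) (abs_nonneg _) (by positivity)
    rw [hBt]
    linarith
  have bH : ∀ j j' y, |tH s bs cf H j j' y| ≤ Bt := by
    intro j j' y
    unfold tH
    rw [abs_mul, abs_div, abs_mul, abs_of_pos hs]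
    have h2 : |cf j| * |cf j'| / s ≤ ∑ j', |cf j| * |cf j'| / s :=
      Finset.single_le_sum (f := fun j' => |cf j| * |cf j'| / s) (fun j _ => by positivity)
        (Finset.mem_univ j')
    have h2' : ∑ j', |cf j| * |cf j'| / s ≤ ∑ j, ∑ j', |cf j| * |cf j'| / s :=
      Finset.single_le_sum (f := fun j => ∑ j', |cf j| * |cf j'| / s)
        (fun j _ => by positivity) (Finset.mem_univ j)
    have h3 : 0 ≤ (∑ j, |cf j| / s) * B := by positivity
    have h4 : |cf j| * |cf j'| / s * |H (bs j) (bs j') (po bs cf y)| ≤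
        (∑ j, ∑ j', |cf j| * |cf j'| / s) * |B2| :=
      mul_le_mul (h2.trans h2') ((h.bd _ _ _).trans (le_abs_self _)) (abs_nonneg _)
        (by positivity)
    rw [hBt]
    linarith
  have hΦ : EG fun y => k * U (po bs cf y) := (eg_po hUl.eg).const_mul k
  have hΦe : EG fun y => Real.exp (k * U (po bs cf y)) := eg_po (hUl.exp_eg k)
  have key := var_tm (c := c) hBt0 (tD_dv (s := s) (bs := bs) (cf := cf) h.dv) (tH_sym h.sym)
    (tH_ps h.ps hs) hc bD
    (fun j j' => ((eg_po (h.egH (bs j) (bs j'))).const_mul _).meas) bH hΦ hΦe hωg hωe h1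
  refine le_trans ?_ key
  have hsq : EG fun u => ∑ e, D e u ^ 2 := EG.sum _ fun e _ => (h.egD e).pow 2
  have hHq : EG fun u => ∑ e, ∑ i, H e i u ^ 2 :=
    EG.sum _ fun e _ => EG.sum _ fun i _ => (h.egH e i).pow 2
  have hDj : ∀ j, EG (tD s bs cf D j) := fun j => (eg_po (h.egD (bs j))).const_mul _
  have hHj : ∀ j, EG (tH s bs cf H j j) := fun j => (eg_po (h.egH (bs j) (bs j))).const_mul _
  set A : (J → ℝ) → ℝ := fun y => k * (U (po bs cf y) + c * ∑ e, D e (po bs cf y) ^ 2) - ω y -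
      c ^ 2 / 2 * ((∑ e, D e (po bs cf y) ^ 2) / s + ∑ e, ∑ i, H e i (po bs cf y) ^ 2) with hA
  have gA : EG A := by
    refine EG.sub (EG.sub (EG.const_mul k (EG.add (eg_po hUl.eg) ((eg_po hsq).const_mul c))) hωg)
      (EG.const_mul _ (EG.add ?_ (eg_po hHq)))
    simpa [div_eq_inv_mul] using (eg_po (bs := bs) (cf := cf) hsq).const_mul s⁻¹
  have g1 : EG fun y => ∑ j, ω' j y * tD s bs cf D j y :=
    EG.sum _ fun j _ => (hω' j).mul (hDj j)
  have g2 : EG fun y => ∑ j, (y j * tD s bs cf D j y - tH s bs cf H j j y) :=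
    EG.sum _ fun j _ => ((EG.coord j).mul (hDj j)).sub (hHj j)
  have e1 : ∫ y, Real.exp (ω y) * (k * (U (po bs cf y) + c * ∑ e, D e (po bs cf y) ^ 2) - ω y -
      c * ∑ j, ω' j y * tD s bs cf D j y -
      c ^ 2 / 2 * ((∑ e, D e (po bs cf y) ^ 2) / s + ∑ e, ∑ i, H e i (po bs cf y) ^ 2)) ∂(gI J) =
      ∫ y, Real.exp (ω y) * (A y - c * ∑ j, (y j * tD s bs cf D j y - tH s bs cf H j j y))
        ∂(gI J) := by
    have h3 : ∫ y, Real.exp (ω y) * (k * (U (po bs cf y) + c * ∑ e, D e (po bs cf y) ^ 2) - ω y -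
      c * ∑ j, ω' j y * tD s bs cf D j y -
      c ^ 2 / 2 * ((∑ e, D e (po bs cf y) ^ 2) / s + ∑ e, ∑ i, H e i (po bs cf y) ^ 2)) ∂(gI J) =
      ∫ y, (Real.exp (ω y) * A y - c * (Real.exp (ω y) * ∑ j, ω' j y * tD s bs cf D j y))
        ∂(gI J) := by
      refine integral_congr_ae (Filter.Eventually.of_forall fun y => ?_)
      simp only [hA]
      ring
    have h4 : ∫ y, Real.exp (ω y) * (A y - c * ∑ j, (y j * tD s bs cf D j y -
        tH s bs cf H j j y)) ∂(gI J) = ∫ y, (Real.exp (ω y) * A y - c * (Real.exp (ω y) *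
        ∑ j, (y j * tD s bs cf D j y - tH s bs cf H j j y))) ∂(gI J) := by
      refine integral_congr_ae (Filter.Eventually.of_forall fun y => ?_)
      simp only
      ring
    rw [h3, h4, integral_sub (hωe.mul gA).integrable ((hωe.mul g1).integrable.const_mul c),
      integral_sub (hωe.mul gA).integrable ((hωe.mul g2).integrable.const_mul c),
      integral_const_mul, integral_const_mul, ibp_po h hω hω' hωe]
  rw [e1]
  have g3 : EG fun y => k * U (po bs cf (tm c (tD s bs cf D) y)) -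
      tx c (tD s bs cf D) (tH s bs cf H) y - ω y :=
    ((eg_comp_tm hBt0 (tD_dv (s := s) (bs := bs) (cf := cf) h.dv) bD hc hΦ).sub
      (eg_tx (tD_dv (s := s) (bs := bs) (cf := cf) h.dv) bD
        (fun j j' => ((eg_po (h.egH (bs j) (bs j'))).const_mul _).meas) bH)).sub hωg
  refine integral_mono (hωe.mul (gA.sub (g2.const_mul c))).integrable (hωe.mul g3).integrable
    fun y => ?_
  simp only
  refine mul_le_mul_of_nonneg_left ?_ (Real.exp_pos _).le
  rw [po_tm hf hs.ne', tx_po hf hs.ne']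
  have h5 := grad_ineq h (po bs cf y) (fun e => c * D e (po bs cf y))
  have h6 : po bs cf y + (fun e => c * D e (po bs cf y)) = tm c D (po bs cf y) := by
    funext e; rfl
  rw [h6] at h5
  have h7 : ∑ e, D e (po bs cf y) * (c * D e (po bs cf y)) = c * ∑ e, D e (po bs cf y) ^ 2 := by
    rw [Finset.mul_sum]
    exact Finset.sum_congr rfl fun e _ => by ring
  rw [h7] at h5
  have h8 := mul_le_mul_of_nonneg_left h5 hk
  simp only [hA]
  linarith

end Vale.Agent.P146.H785
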