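import Vale.Agent.P146.H713.DeepDef

/-!
The mean of a function of two configurations which share the outer layers and have the `i` inner
layers separate.
-/

namespace Vale.Agent.P146.R1

open Vale.Agent.P157.Lv Vale.Agent.P146.H425

variable {κ : Type} [Fintype κ] {X : Type} [Fintype X]

/-- The Gibbs weights `μ`, the layers `m σ` (layer `0` innermost, `J` of them): the mean of `ψ`
over two configurations with the `i` inner layers separate, at the position `z`. -/
noncomputable def pairD (F : (κ → ℝ) → ℝ) (μ : X → (κ → ℝ) → ℝ) (m σ : ℕ → ℝ) (J i : ℕ)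
    (ψ : X → X → ℝ) (z : κ → ℝ) : ℝ :=
  TD (FD F m σ i) (fun j => m (i + j)) (fun j => σ (i + j))
    (fun z' => ∑ x, ∑ x', TD F m σ (μ x) i z' * TD F m σ (μ x') i z' * ψ x x') (J - i) z

end Vale.Agent.P146.R1
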