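import Vale.Agent.P146.H785.Grid
import Vale.Agent.P146.H785.PairD
import Vale.Agent.P146.H713.Deep
import Vale.Agent.P146.H713.SkC2
import Vale.Agent.P146.H706.D4Def

/-!
Self-averaging of the squared gradient of a layer of the deep functional under the law of the
outer layers, with the second difference in the exponent of the layer on the right side.
-/

open MeasureTheory ProbabilityTheory

namespace Vale.Agent.P146.H785

open Vale.Agent.P157.Lv Vale.Agent.P146.H425 Vale.Agent.P146.R1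

set_option linter.unusedSectionVars false

section gen

variable {κ : Type} [Fintype κ] {F φ : (κ → ℝ) → ℝ} {D : κ → (κ → ℝ) → ℝ}
  {B L a h Bd : ℝ} {m σ : ℕ → ℝ} {i l J : ℕ}

/-! ### one exponent changed -/

lemma FD_update_le (F : (κ → ℝ) → ℝ) (m σ : ℕ → ℝ) (l : ℕ) (μ : ℝ) (i : ℕ) (hi : i ≤ l) :
    FD F (Function.update m l μ) σ i = FD F m σ i := by
  induction i with
  | zero => rfl
  | succ i ih =>
    rw [FD_succ, FD_succ, ih (by omega), Function.update_of_ne (by omega)]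

lemma FD_update (F : (κ → ℝ) → ℝ) (m σ : ℕ → ℝ) (μ : ℝ) (hl : l < J) :
    FD F (Function.update m l μ) σ J = FD (W μ (σ l) (FD F m σ l)) (fun t => m (l + 1 + t))
      (fun t => σ (l + 1 + t)) (J - (l + 1)) := by
  obtain ⟨i, rfl⟩ := Nat.exists_eq_add_of_le (show l + 1 ≤ J by omega)
  rw [Nat.add_sub_cancel_left, FD_shift, FD_succ, FD_update_le _ _ _ _ _ _ le_rfl,
    Function.update_self]
  congr 1
  funext t
  rw [Function.update_of_ne (by omega)]

lemma FD_update' (F : (κ → ℝ) → ℝ) (m σ : ℕ → ℝ) (hl : l < J) :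
    FD F m σ J = FD (W (m l) (σ l) (FD F m σ l)) (fun t => m (l + 1 + t))
      (fun t => σ (l + 1 + t)) (J - (l + 1)) := by
  have := FD_update F m σ (m l) hl
  rwa [Function.update_eq_self] at this

lemma ups_sub (F : (κ → ℝ) → ℝ) (m σ : ℕ → ℝ) (h : ℝ) (hl : l < J) (y : κ → ℝ) :
    FD F (ups m l h) σ J y - FD F m σ J y = In (m l) h (σ l) (FD F m σ l)
      (fun t => m (l + 1 + t)) (fun t => σ (l + 1 + t)) (J - (l + 1)) y := by
  unfold ups In
  rw [FD_update F m σ (m l + h) hl, ← FD_update' F m σ hl]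

lemma ups_neg_sub (F : (κ → ℝ) → ℝ) (m σ : ℕ → ℝ) (h : ℝ) (hl : l < J) (y : κ → ℝ) :
    FD F m σ J y - FD F (ups m l (-h)) σ J y = In (m l - h) h (σ l) (FD F m σ l)
      (fun t => m (l + 1 + t)) (fun t => σ (l + 1 + t)) (J - (l + 1)) y := by
  unfold ups In
  rw [FD_update F m σ (m l + -h) hl, sub_add_cancel, ← FD_update' F m σ hl, ← sub_eq_add_neg]

lemma dsec_eq (F : (κ → ℝ) → ℝ) (m σ : ℕ → ℝ) (h : ℝ) (hl : l < J) (y : κ → ℝ) :
    dsec F m σ J l h y =
      In (m l) h (σ l) (FD F m σ l) (fun t => m (l + 1 + t)) (fun t => σ (l + 1 + t))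
        (J - (l + 1)) y -
      In (m l - h) h (σ l) (FD F m σ l) (fun t => m (l + 1 + t)) (fun t => σ (l + 1 + t))
        (J - (l + 1)) y := by
  rw [← ups_sub F m σ h hl, ← ups_neg_sub F m σ h hl]
  unfold dsec
  ring

/-! ### the squared gradient -/

lemma sumsq_TD (h1 : C11 F D B L) (hBd : ∀ z, ∑ e, D e z ^ 2 ≤ Bd) : ∀ i, (∀ j < i, 0 < m j) →
    ∀ z, ∑ e, TD F m σ (D e) i z ^ 2 ≤ Bd
  | 0, _ => hBd
  | i + 1, hm => by
    have hm' : ∀ j < i, 0 < m j := fun j hj => hm j (hj.trans (Nat.lt_succ_self i))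
    have hc := c11_FD (σ := σ) h1 i hm'
    intro z
    have hg : ∀ e, EG (TD F m σ (D e) i) := fun e => eg_TD h1 (C11.egD h1 e) i hm'
    calc ∑ e, TD F m σ (D e) (i + 1) z ^ 2
        ≤ ∑ e, Ax (m i) (σ i) (FD F m σ i)
          (fun u => TD F m σ (D e) i u * TD F m σ (D e) i u) z :=
          Finset.sum_le_sum fun e _ => Ax_sq_le hc.lip hc.B0 (hg e) _ _ z
      _ = Ax (m i) (σ i) (FD F m σ i)
          (fun u => ∑ e, TD F m σ (D e) i u * TD F m σ (D e) i u) z :=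
          (Ax_sum hc.lip hc.B0 Finset.univ (fun e _ => (hg e).mul (hg e)) _ _ z).symm
      _ ≤ Ax (m i) (σ i) (FD F m σ i) (fun _ => Bd) z := by
          refine Ax_mono hc.lip hc.B0 (EG.sum Finset.univ fun e _ => (hg e).mul (hg e))
            (EG.const Bd) (fun u => ?_) _ _ z
          refine le_trans (le_of_eq ?_) (sumsq_TD h1 hBd i hm' u)
          exact Finset.sum_congr rfl fun e _ => by rw [pow_two]
      _ = Bd := Ax_const hc.lip hc.B0 Bd _ _ z

/-- The squared gradient at the level `i`. -/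
noncomputable def gD (F : (κ → ℝ) → ℝ) (D : κ → (κ → ℝ) → ℝ) (m σ : ℕ → ℝ) (i : ℕ)
    (z : κ → ℝ) : ℝ := ∑ e, TD F m σ (D e) i z ^ 2

/-- The mean over the layers outside the level `i`. -/
noncomputable def oD (F : (κ → ℝ) → ℝ) (m σ : ℕ → ℝ) (J i : ℕ) (φ : (κ → ℝ) → ℝ) : (κ → ℝ) → ℝ :=
  TD (FD F m σ i) (fun j => m (i + j)) (fun j => σ (i + j)) φ (J - i)

lemma bm_gD (h1 : C11 F D B L) (hm : ∀ j < i, 0 < m j) : Bm (gD F D m σ i) :=
  bm_sumsq (c11_FD (σ := σ) h1 i hm)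

lemma oD_succ (F : (κ → ℝ) → ℝ) (m σ : ℕ → ℝ) (φ : (κ → ℝ) → ℝ) (hl : l < J) :
    oD F m σ J l φ = oD F m σ J (l + 1) (Ax (m l) (σ l) (FD F m σ l) φ) := by
  obtain ⟨i, rfl⟩ := Nat.exists_eq_add_of_le (show l + 1 ≤ J by omega)
  unfold oD
  have e : l + 1 + i - l = 1 + i := by omega
  rw [Nat.add_sub_cancel_left, e, TD_shift]
  show TD (W (m (l + 0)) (σ (l + 0)) (FD F m σ l)) _ _
    (Ax (m (l + 0)) (σ (l + 0)) (FD F m σ l) φ) i = _
  rw [Nat.add_zero]
  simp only [← Nat.add_assoc]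
  rfl

section d3

variable (h1 : C11 F D B L) (hcv : Cv F) (hm : ∀ j < J, 0 < m j) (hl : l < J) (hh : 0 ≤ h)
include h1 hcv hm hl hh

/-- The functional increases with the exponent, by at most `h/2 σ² Bd`. -/
theorem ups_bd (hBd : ∀ z, ∑ e, D e z ^ 2 ≤ Bd) (hk : h / 2 * (σ l ^ 2 * Bd) ≤ 1) (ha : 0 < a)
    (ha1 : a ≤ 1) (hma : ∀ j, l < j → j < J → a ≤ m j) (y : κ → ℝ) :
    0 ≤ FD F (ups m l h) σ J y - FD F m σ J y ∧
      FD F (ups m l h) σ J y - FD F m σ J y ≤ h / 2 * (σ l ^ 2 * Bd) := by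
  have hml : ∀ j < l, 0 < m j := fun j hj => hm j (hj.trans hl)
  have hV := c11_FD (σ := σ) h1 l hml
  have hc := cv_FD (σ := σ) h1 hcv l hml
  rw [ups_sub F m σ h hl]
  exact ⟨In_nonneg hV hc (hm l hl) hh (sumsq_TD h1 hBd l hml) hk ha ha1
      (fun j hj => hma _ (by omega) (by omega)) y,
    In_le hV hc (hm l hl) hh (sumsq_TD h1 hBd l hml) (fun j hj => hm _ (by omega)) y⟩

/-- The second difference is nonnegative. -/
theorem dsec_nonneg (hlh : h < m l) (hBd : ∀ z, ∑ e, D e z ^ 2 ≤ Bd)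
    (hk : h / 2 * (σ l ^ 2 * Bd) ≤ 1) (ha : 0 < a) (ha1 : a ≤ 1)
    (hma : ∀ j, l < j → j < J → a ≤ m j) (y : κ → ℝ) : 0 ≤ dsec F m σ J l h y := by
  have hml : ∀ j < l, 0 < m j := fun j hj => hm j (hj.trans hl)
  have hV := c11_FD (σ := σ) h1 l hml
  have hc := cv_FD (σ := σ) h1 hcv l hml
  rw [dsec_eq F m σ h hl]
  have h2 := In_mono (σ := fun t => σ (l + 1 + t)) (m := fun t => m (l + 1 + t))
    (i := J - (l + 1)) hV hc (sub_pos.2 hlh) hh (sumsq_TD h1 hBd l hml) hk ha ha1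
    (fun j hj => hma _ (by omega) (by omega)) y
  rw [sub_add_cancel] at h2
  linarith

/-- **(D3), variance of the increment.** -/
theorem d3D_var (hlh : h < m l) (hBd : ∀ z, ∑ e, D e z ^ 2 ≤ Bd)
    (hk : h / 2 * (σ l ^ 2 * Bd) ≤ 1) (ha : 0 < a) (ha1 : a ≤ 1)
    (hma : ∀ j, l < j → j < J → a ≤ m j) (y : κ → ℝ) :
    a / 5 * vD (FD F m σ (l + 1)) (fun t => m (l + 1 + t)) (fun t => σ (l + 1 + t))
      (Xi (m l) h (σ l) (FD F m σ l)) (J - (l + 1)) y ≤ dsec F m σ J l h y := by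
  have hml : ∀ j < l, 0 < m j := fun j hj => hm j (hj.trans hl)
  have hV := c11_FD (σ := σ) h1 l hml
  have hc := cv_FD (σ := σ) h1 hcv l hml
  have h2 := d3_var (σ := fun t => σ (l + 1 + t)) (m := fun t => m (l + 1 + t))
    (i := J - (l + 1)) hV hc (sub_pos.2 hlh) hh (sumsq_TD h1 hBd l hml) hk ha ha1
    (fun j hj => hma _ (by omega) (by omega)) y
  rw [sub_add_cancel] at h2
  rw [dsec_eq F m σ h hl]
  exact h2

/-- **(D3)**: the squared gradient at the level `l + 1` is close to a constant under the law of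
the outer layers. -/
theorem d3D (hlh : h < m l) (hBd : ∀ z, ∑ e, D e z ^ 2 ≤ Bd)
    (hk : h / 2 * (σ l ^ 2 * Bd) ≤ 1) (ha : 0 < a) (ha1 : a ≤ 1)
    (hma : ∀ j, l < j → j < J → a ≤ m j) (y : κ → ℝ) :
    oD F m σ J (l + 1) (fun z => |h / 2 * (σ l ^ 2 * gD F D m σ (l + 1) z) -
        oD F m σ J (l + 1) (Xi (m l) h (σ l) (FD F m σ l)) y|) y ≤
      dsec F m σ J l h y + h / 2 * (σ l ^ 2 * (oD F m σ J l (gD F D m σ l) y -
        oD F m σ J (l + 1) (gD F D m σ (l + 1)) y)) + √(5 / a * dsec F m σ J l h y) := by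
  have hml : ∀ j < l, 0 < m j := fun j hj => hm j (hj.trans hl)
  have hml' : ∀ j < l + 1, 0 < m j := fun j hj => hm j (by omega)
  have hmo : ∀ j < J - (l + 1), 0 < m (l + 1 + j) := fun j hj => hm _ (by omega)
  have hV := c11_FD (σ := σ) h1 l hml
  have hU := c11_FD (σ := σ) h1 (l + 1) hml'
  have hc := cv_FD (σ := σ) h1 hcv l hml
  have h2 := d3 (σ := fun t => σ (l + 1 + t)) (m := fun t => m (l + 1 + t))
    (i := J - (l + 1)) hV hc (sub_pos.2 hlh) hh (sumsq_TD h1 hBd l hml) hk ha ha1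
    (fun j hj => hma _ (by omega) (by omega)) y
  rw [sub_add_cancel, ← dsec_eq F m σ h hl] at h2
  have e1 : ∀ z, gL (m l) h (σ l) (FD F m σ l) (fun e => TD F m σ (D e) l) z =
      h / 2 * (σ l ^ 2 * gD F D m σ (l + 1) z) := fun z => rfl
  have e2 : ∀ z, gU (m l) h (σ l) (FD F m σ l) (fun e => TD F m σ (D e) l) z =
      h / 2 * (σ l ^ 2 * Ax (m l) (σ l) (FD F m σ l) (gD F D m σ l) z) := fun z => rfl
  simp only [e1, e2] at h2
  have e3 : TD (FD F m σ (l + 1)) (fun t => m (l + 1 + t)) (fun t => σ (l + 1 + t))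
      (fun z => h / 2 * (σ l ^ 2 * Ax (m l) (σ l) (FD F m σ l) (gD F D m σ l) z) -
        h / 2 * (σ l ^ 2 * gD F D m σ (l + 1) z)) (J - (l + 1)) y =
      h / 2 * (σ l ^ 2 * (oD F m σ J l (gD F D m σ l) y -
        oD F m σ J (l + 1) (gD F D m σ (l + 1)) y)) := by
    rw [oD_succ F m σ _ hl]
    unfold oD
    rw [TD_sub' hU.lip hU.B0 hmo
      ((((bm_gD h1 hml).Ax hV.lip hV.B0 _ _).const_mul _).const_mul _)
      (((bm_gD h1 hml').const_mul _).const_mul _), TD_const_mul', TD_const_mul',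
      TD_const_mul', TD_const_mul']
    ring
  have e4 : TD (W (m l) (σ l) (FD F m σ l)) (fun t => m (l + 1 + t)) (fun t => σ (l + 1 + t)) =
    TD (FD F m σ (l + 1)) (fun t => m (l + 1 + t)) (fun t => σ (l + 1 + t)) := rfl
  rw [e4, e3] at h2
  exact h2

/-- **(D3)** around the mean: the squared gradient itself. -/
theorem d3D_mean (hlh : h < m l) (hBd : ∀ z, ∑ e, D e z ^ 2 ≤ Bd)
    (hk : h / 2 * (σ l ^ 2 * Bd) ≤ 1) (ha : 0 < a) (ha1 : a ≤ 1)
    (hma : ∀ j, l < j → j < J → a ≤ m j) (y : κ → ℝ) :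
    h / 2 * σ l ^ 2 * oD F m σ J (l + 1) (fun z => |gD F D m σ (l + 1) z -
        oD F m σ J (l + 1) (gD F D m σ (l + 1)) y|) y ≤
      2 * (dsec F m σ J l h y + h / 2 * (σ l ^ 2 * (oD F m σ J l (gD F D m σ l) y -
        oD F m σ J (l + 1) (gD F D m σ (l + 1)) y)) + √(5 / a * dsec F m σ J l h y)) := by
  have hml' : ∀ j < l + 1, 0 < m j := fun j hj => hm j (by omega)
  have hmo : ∀ j < J - (l + 1), 0 < m (l + 1 + j) := fun j hj => hm _ (by omega)
  have hU := c11_FD (σ := σ) h1 (l + 1) hml'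
  have h2 := d3D h1 hcv hm hl hh hlh hBd hk ha ha1 hma y
  set q := oD F m σ J (l + 1) (Xi (m l) h (σ l) (FD F m σ l)) y with hq
  set b := oD F m σ J (l + 1) (gD F D m σ (l + 1)) y with hb
  have bg : Bm (gD F D m σ (l + 1)) := bm_gD h1 hml'
  have bq : Bm fun z => h / 2 * (σ l ^ 2 * gD F D m σ (l + 1) z) - q :=
    (((bg.const_mul _).const_mul _).sub (Bm.const q))
  -- the mean is close to the constant
  have h3 : |h / 2 * (σ l ^ 2 * b) - q| ≤
      oD F m σ J (l + 1) (fun z => |h / 2 * (σ l ^ 2 * gD F D m σ (l + 1) z) - q|) y := by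
    have e1 : h / 2 * (σ l ^ 2 * b) - q =
        oD F m σ J (l + 1) (fun z => h / 2 * (σ l ^ 2 * gD F D m σ (l + 1) z) - q) y := by
      unfold oD
      rw [TD_sub' hU.lip hU.B0 hmo ((bg.const_mul _).const_mul _) (Bm.const q),
        TD_const_mul', TD_const_mul', TD_const' hU.lip hU.B0 hmo]
      rfl
    rw [e1, abs_le]
    constructor
    · have h4 := TD_mono' (σ := fun t => σ (l + 1 + t)) hU.lip hU.B0 hmo
        (bq.abs.const_mul (-1)) bq (fun z => by linarith [neg_abs_le (h / 2 *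
          (σ l ^ 2 * gD F D m σ (l + 1) z) - q)]) y
      rw [TD_const_mul'] at h4
      unfold oD
      linarith
    · exact TD_mono' (σ := fun t => σ (l + 1 + t)) hU.lip hU.B0 hmo bq bq.abs
        (fun z => le_abs_self _) y
  have h5 : h / 2 * σ l ^ 2 * oD F m σ J (l + 1) (fun z => |gD F D m σ (l + 1) z - b|) y ≤
      oD F m σ J (l + 1) (fun z => |h / 2 * (σ l ^ 2 * gD F D m σ (l + 1) z) - q| +
        |h / 2 * (σ l ^ 2 * b) - q|) y := by
    unfold oD
    rw [← TD_const_mul']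
    refine TD_mono' (σ := fun t => σ (l + 1 + t)) hU.lip hU.B0 hmo
      ((bg.sub (Bm.const b)).abs.const_mul _) (bq.abs.add (Bm.const _)) (fun z => ?_) y
    have h6 : h / 2 * σ l ^ 2 * |gD F D m σ (l + 1) z - b| =
        |(h / 2 * (σ l ^ 2 * gD F D m σ (l + 1) z) - q) - (h / 2 * (σ l ^ 2 * b) - q)| := by
      have h8 : h / 2 * σ l ^ 2 * |gD F D m σ (l + 1) z - b| =
          |h / 2 * σ l ^ 2 * (gD F D m σ (l + 1) z - b)| := by
        rw [abs_mul, abs_of_nonneg (show 0 ≤ h / 2 * σ l ^ 2 by positivity)]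
      rw [h8]
      congr 1
      ring
    rw [h6]
    exact abs_sub _ _
  have h7 : oD F m σ J (l + 1) (fun z => |h / 2 * (σ l ^ 2 * gD F D m σ (l + 1) z) - q| +
        |h / 2 * (σ l ^ 2 * b) - q|) y = oD F m σ J (l + 1) (fun z =>
          |h / 2 * (σ l ^ 2 * gD F D m σ (l + 1) z) - q|) y + |h / 2 * (σ l ^ 2 * b) - q| := by
    unfold oD
    rw [TD_add' hU.lip hU.B0 hmo bq.abs (Bm.const _), TD_const' hU.lip hU.B0 hmo]
  linarith

end d3

end gen

/-! ### Gibbs measures -/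

section sk

open Vale.Agent.P146.H325 Vale.Agent.P146.H332

variable {ι : Type} [Fintype ι] [DecidableEq ι] {X : Type} [Fintype X] [Nonempty X]
variable (k : ℝ) (S : ι → X → ℝ)

/-- The Gibbs weight of a configuration. -/
noncomputable def gw (x : X) (u : ι → ℝ) : ℝ := ez k S u x / Zp k S u

lemma gw_ite [DecidableEq X] (x : X) :
    gw k S x = av k S (fun τ => if τ = x then 1 else 0) := by
  funext u
  unfold gw av
  simp

lemma av_gw (g : X → ℝ) (u : ι → ℝ) : av k S g u = ∑ x, g x * gw k S x u := by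
  unfold gw av
  rw [Finset.sum_div]
  exact Finset.sum_congr rfl fun x _ => by ring

lemma gw_nonneg (x : X) (u : ι → ℝ) : 0 ≤ gw k S x u :=
  div_nonneg (ez_pos k S u x).le (Zp_pos k S u).le

lemma sum_gw (u : ι → ℝ) : ∑ x, gw k S x u = 1 := by
  have := av_gw k S (fun _ => 1) u
  rw [av_one] at this
  simpa using this.symm

lemma gw_le_one (x : X) (u : ι → ℝ) : gw k S x u ≤ 1 := by
  rw [← sum_gw k S u]
  exact Finset.single_le_sum (f := fun x => gw k S x u) (fun x _ => gw_nonneg k S x u)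
    (Finset.mem_univ x)

lemma bm_gw (x : X) : Bm (gw k S x) := by
  classical
  refine ⟨?_, 1, fun u => ?_⟩
  · rw [gw_ite]
    exact (eg_av k S _).meas
  · rw [abs_of_nonneg (gw_nonneg k S x u)]
    exact gw_le_one k S x u

variable {m σ : ℕ → ℝ} {i l J : ℕ} {ψ : X → X → ℝ} {a h c c0 Bd : ℝ}

/-- The Gibbs weights seen from the level `i`. -/
noncomputable def gT (m σ : ℕ → ℝ) (i : ℕ) (x : X) : (ι → ℝ) → ℝ := TD (lz k S) m σ (gw k S x) i

lemma bm_gT (hm : ∀ j < i, 0 < m j) (x : X) : Bm (gT k S m σ i x) :=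
  (bm_gw k S x).TD (c11_lz k S).lip (c11_lz k S).B0 hm

lemma TD_av (hm : ∀ j < i, 0 < m j) (g : X → ℝ) (z : ι → ℝ) :
    TD (lz k S) m σ (av k S g) i z = ∑ x, g x * gT k S m σ i x z := by
  have e : av k S g = fun u => ∑ x ∈ Finset.univ, g x * gw k S x u := funext (av_gw k S g)
  rw [e, TD_lin (c11_lz k S) Finset.univ g (fun x _ => (bm_gw k S x).eg) i hm]
  rfl

lemma sum_gT (hm : ∀ j < i, 0 < m j) (z : ι → ℝ) : ∑ x, gT k S m σ i x z = 1 := by
  have h1 := TD_av (σ := σ) k S hm (fun _ => 1) z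
  have e : av k S (fun _ => (1 : ℝ)) = fun _ => 1 := funext (av_one k S)
  rw [e, TD_const (c11_lz k S) 1 i hm] at h1
  simpa using h1.symm

lemma gT_nonneg (hm : ∀ j < i, 0 < m j) (x : X) (z : ι → ℝ) : 0 ≤ gT k S m σ i x z :=
  TD_nonneg' (c11_lz k S).lip (c11_lz k S).B0 hm (bm_gw k S x) (gw_nonneg k S x) z

/-- The mean over two configurations given the level `i`. -/
noncomputable def qD (m σ : ℕ → ℝ) (i : ℕ) (ψ : X → X → ℝ) (z : ι → ℝ) : ℝ :=
  ∑ x, ∑ x', gT k S m σ i x z * gT k S m σ i x' z * ψ x x'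

lemma pairD_eq (ψ : X → X → ℝ) (z : ι → ℝ) :
    pairD (lz k S) (gw k S) m σ J i ψ z = oD (lz k S) m σ J i (qD k S m σ i ψ) z := rfl

lemma Bm.sum {κ : Type} [Fintype κ] {Y : Type*} (s : Finset Y) {f : Y → (κ → ℝ) → ℝ}
    (hf : ∀ x, Bm (f x)) : Bm fun z => ∑ x ∈ s, f x z := by
  classical
  induction s using Finset.induction_on with
  | empty => simpa using Bm.const (κ := κ) 0
  | insert b s hb ih =>
    simp only [Finset.sum_insert hb]
    exact (hf b).add ih

lemma bm_qD (hm : ∀ j < i, 0 < m j) (ψ : X → X → ℝ) : Bm (qD k S m σ i ψ) := by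
  refine Bm.sum _ fun x => Bm.sum _ fun x' => ?_
  have h1 := ((bm_gT (σ := σ) k S hm x).mul (bm_gT (σ := σ) k S hm x')).const_mul (ψ x x')
  have e : (fun z => gT k S m σ i x z * gT k S m σ i x' z * ψ x x') =
      fun z => ψ x x' * (gT k S m σ i x z * gT k S m σ i x' z) := by
    funext z
    ring
  rw [e]
  exact h1

/-- The squared gradient as a mean over two configurations. -/
lemma gD_lz (hm : ∀ j < i, 0 < m j) (hψ : ∀ x x', ∑ e, S e x * S e x' = c * ψ x x' - c0)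
    (z : ι → ℝ) : gD (lz k S) (Dz k S) m σ i z = k ^ 2 * (c * qD k S m σ i ψ z - c0) := by
  have e1 : ∀ e, TD (lz k S) m σ (Dz k S e) i z = k * ∑ x, S e x * gT k S m σ i x z := by
    intro e
    have : Dz k S e = fun u => k * av k S (S e) u := rfl
    rw [this, TD_const_mul', TD_av k S hm]
  have e2 : ∑ e, (∑ x, S e x * gT k S m σ i x z) ^ 2 =
      ∑ x, ∑ x', gT k S m σ i x z * gT k S m σ i x' z * ∑ e, S e x * S e x' := by
    calc ∑ e, (∑ x, S e x * gT k S m σ i x z) ^ 2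
        = ∑ e, ∑ x, ∑ x', gT k S m σ i x z * gT k S m σ i x' z * (S e x * S e x') := by
          refine Finset.sum_congr rfl fun e _ => ?_
          rw [pow_two, Finset.sum_mul_sum]
          exact Finset.sum_congr rfl fun x _ => Finset.sum_congr rfl fun x' _ => by ring
      _ = ∑ x, ∑ x', ∑ e, gT k S m σ i x z * gT k S m σ i x' z * (S e x * S e x') := by
          rw [Finset.sum_comm]
          exact Finset.sum_congr rfl fun x _ => Finset.sum_comm
      _ = _ := by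
          refine Finset.sum_congr rfl fun x _ => Finset.sum_congr rfl fun x' _ => ?_
          rw [Finset.mul_sum]
  have e3 : ∑ x, ∑ x', gT k S m σ i x z * gT k S m σ i x' z = 1 := by
    rw [← Finset.sum_mul_sum, sum_gT k S hm, one_mul]
  unfold gD qD
  simp only [e1, mul_pow]
  rw [← Finset.mul_sum, e2]
  congr 1
  simp only [hψ, mul_sub]
  simp only [Finset.sum_sub_distrib, ← Finset.sum_mul]
  rw [e3, one_mul, Finset.mul_sum]
  congr 1
  refine Finset.sum_congr rfl fun x _ => ?_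
  rw [Finset.mul_sum]
  exact Finset.sum_congr rfl fun x' _ => by ring

lemma oD_gD (hm : ∀ j < J, 0 < m j) (hi : i ≤ J)
    (hψ : ∀ x x', ∑ e, S e x * S e x' = c * ψ x x' - c0) (y : ι → ℝ) :
    oD (lz k S) m σ J i (gD (lz k S) (Dz k S) m σ i) y =
      k ^ 2 * (c * pairD (lz k S) (gw k S) m σ J i ψ y - c0) := by
  have hmi : ∀ j < i, 0 < m j := fun j hj => hm j (hj.trans_le hi)
  have hmo : ∀ j < J - i, 0 < m (i + j) := fun j hj => hm _ (by omega)
  have hU := c11_FD (σ := σ) (c11_lz k S) i hmi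
  rw [pairD_eq]
  have e : gD (lz k S) (Dz k S) m σ i = fun z => k ^ 2 * (c * qD k S m σ i ψ z - c0) :=
    funext (gD_lz k S hmi hψ)
  rw [e]
  unfold oD
  rw [TD_const_mul', TD_sub' hU.lip hU.B0 hmo ((bm_qD k S hmi ψ).const_mul c) (Bm.const c0),
    TD_const_mul', TD_const' hU.lip hU.B0 hmo]

lemma bd_lz (hS : ∀ e x, |S e x| ≤ 1) (z : ι → ℝ) :
    ∑ e, Dz k S e z ^ 2 ≤ k ^ 2 * Fintype.card ι := by
  calc ∑ e, Dz k S e z ^ 2 ≤ ∑ _e : ι, k ^ 2 := by
        refine Finset.sum_le_sum fun e _ => ?_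
        unfold Dz
        have h1 := abs_av_le k S (hS e) z
        rw [mul_pow]
        have h2 : av k S (S e) z ^ 2 ≤ 1 := by
          rw [← sq_abs]
          nlinarith [abs_nonneg (av k S (S e) z)]
        nlinarith [sq_nonneg k]
    _ = _ := by
        rw [Finset.sum_const, nsmul_eq_mul, Finset.card_univ, mul_comm]

/-- **(D3) for a Gibbs measure**: the mean over two configurations given the level `l + 1` is
close to its mean under the law of the outer layers, for every position `y`. -/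
theorem d3P (hm : ∀ j < J, 0 < m j) (hl : l < J) (hh : 0 ≤ h)
    (hlh : h < m l) (hBd : ∀ z, ∑ e, Dz k S e z ^ 2 ≤ Bd) (hk : h / 2 * (σ l ^ 2 * Bd) ≤ 1)
    (ha : 0 < a) (ha1 : a ≤ 1) (hma : ∀ j, l < j → j < J → a ≤ m j) (hc : 0 ≤ c)
    (hψ : ∀ x x', ∑ e, S e x * S e x' = c * ψ x x' - c0) (y : ι → ℝ) :
    h / 2 * σ l ^ 2 * (k ^ 2 * c) * oD (lz k S) m σ J (l + 1) (fun z =>
        |qD k S m σ (l + 1) ψ z - pairD (lz k S) (gw k S) m σ J (l + 1) ψ y|) y ≤
      2 * (dsec (lz k S) m σ J l h y +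
        h / 2 * σ l ^ 2 * (k ^ 2 * c) * (pairD (lz k S) (gw k S) m σ J l ψ y -
          pairD (lz k S) (gw k S) m σ J (l + 1) ψ y) +
        √(5 / a * dsec (lz k S) m σ J l h y)) := by
  have hm1 : ∀ j < l + 1, 0 < m j := fun j hj => hm j (by omega)
  have hmo : ∀ j < J - (l + 1), 0 < m (l + 1 + j) := fun j hj => hm _ (by omega)
  have hU := c11_FD (σ := σ) (c11_lz k S) (l + 1) hm1
  have h11 : C11 (lz k S) (Dz k S) (Kb k S) (3 * Kb k S ^ 2) := c11_lz k S
  have h1 := d3D_mean h11 (cv_lz k S) hm hl hh hlh hBd hk ha ha1 hma y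
  rw [oD_gD k S hm (show l + 1 ≤ J from hl) hψ, oD_gD k S hm hl.le hψ] at h1
  have e : oD (lz k S) m σ J (l + 1) (fun z => |gD (lz k S) (Dz k S) m σ (l + 1) z -
      k ^ 2 * (c * pairD (lz k S) (gw k S) m σ J (l + 1) ψ y - c0)|) y =
      k ^ 2 * c * oD (lz k S) m σ J (l + 1) (fun z =>
        |qD k S m σ (l + 1) ψ z - pairD (lz k S) (gw k S) m σ J (l + 1) ψ y|) y := by
    unfold oD
    rw [← TD_const_mul']
    congr 1
    funext z
    rw [gD_lz k S hm1 hψ]
    have : k ^ 2 * (c * qD k S m σ (l + 1) ψ z - c0) -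
        k ^ 2 * (c * pairD (lz k S) (gw k S) m σ J (l + 1) ψ y - c0) =
        k ^ 2 * c * (qD k S m σ (l + 1) ψ z -
          pairD (lz k S) (gw k S) m σ J (l + 1) ψ y) := by ring
    rw [this, abs_mul, abs_of_nonneg (show 0 ≤ k ^ 2 * c by positivity)]
  rw [e] at h1
  refine le_trans (le_of_eq (by ring)) (h1.trans (le_of_eq ?_))
  ring

end sk

end Vale.Agent.P146.H785
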