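import Vale.Agent.P146.H713.DeepDef
import Vale.Agent.P146.H425.Ut

/-!
Self-averaging of the squared gradient of a layer at every position, for most exponents of a grid:
the increment of the layer functional between consecutive exponents has small variance under the
law of the outer layers.
-/

open MeasureTheory ProbabilityTheory

namespace Vale.Agent.P146.H785

open Vale.Agent.P157.Lv Vale.Agent.P146.H425 Vale.Agent.P146.R1

set_option linter.unusedSectionVars false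

variable {κ : Type} [Fintype κ] {F G U X V φ ψ : (κ → ℝ) → ℝ} {D : κ → (κ → ℝ) → ℝ}
  {B B' C L x s a : ℝ} {m σ : ℕ → ℝ} {i : ℕ}

/-! ### bounded observables of the outer layers -/

/-- Bounded measurable observables. -/
def Bm (φ : (κ → ℝ) → ℝ) : Prop := Measurable φ ∧ ∃ C, ∀ y, |φ y| ≤ C

lemma Bm.eg (h : Bm φ) : EG φ := by
  obtain ⟨hm, C, hC⟩ := h
  exact EG.of_bdd hm hC

lemma Bm.const (c : ℝ) : Bm fun _ : κ → ℝ => c := ⟨measurable_const, |c|, fun _ => le_rfl⟩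

lemma Bm.add (h : Bm φ) (h' : Bm ψ) : Bm fun y => φ y + ψ y := by
  obtain ⟨hm, C, hC⟩ := h
  obtain ⟨hm', C', hC'⟩ := h'
  exact ⟨hm.add hm', C + C', fun y => (abs_add_le _ _).trans (add_le_add (hC y) (hC' y))⟩

lemma Bm.const_mul (c : ℝ) (h : Bm φ) : Bm fun y => c * φ y := by
  obtain ⟨hm, C, hC⟩ := h
  refine ⟨hm.const_mul c, |c| * C, fun y => ?_⟩
  rw [abs_mul]
  exact mul_le_mul_of_nonneg_left (hC y) (abs_nonneg _)

lemma Bm.sub (h : Bm φ) (h' : Bm ψ) : Bm fun y => φ y - ψ y := by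
  obtain ⟨hm, C, hC⟩ := h
  obtain ⟨hm', C', hC'⟩ := h'
  exact ⟨hm.sub hm', C + C', fun y => (abs_sub _ _).trans (add_le_add (hC y) (hC' y))⟩

lemma Bm.mul (h : Bm φ) (h' : Bm ψ) : Bm fun y => φ y * ψ y := by
  obtain ⟨hm, C, hC⟩ := h
  obtain ⟨hm', C', hC'⟩ := h'
  refine ⟨hm.mul hm', C * C', fun y => ?_⟩
  rw [abs_mul]
  exact mul_le_mul (hC y) (hC' y) (abs_nonneg _) ((abs_nonneg _).trans (hC y))

lemma Bm.abs (h : Bm φ) : Bm fun y => |φ y| := by
  obtain ⟨hm, C, hC⟩ := h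
  exact ⟨hm.abs, C, fun y => by rw [abs_abs]; exact hC y⟩

lemma Bm.exp (h : Bm φ) : Bm fun y => Real.exp (φ y) := by
  obtain ⟨hm, C, hC⟩ := h
  refine ⟨hm.exp, Real.exp C, fun y => ?_⟩
  rw [abs_of_pos (Real.exp_pos _)]
  exact Real.exp_le_exp.2 ((le_abs_self _).trans (hC y))

lemma Bm.Ax (h : LipB F B) (hB : 0 ≤ B) (hφ : Bm φ) (x s : ℝ) : Bm (Ax x s F φ) := by
  have hm := Ax_meas h hB hφ.eg x s
  obtain ⟨hm', C, hC⟩ := hφ
  exact ⟨hm, C, fun y => Ax_abs_le h hB hm' hC x s y⟩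

lemma lip_FD (h : LipB F B) (hB : 0 ≤ B) (hm : ∀ j < i, 0 < m j) : LipB (FD F m σ i) B := by
  induction i with
  | zero => exact h
  | succ i ih =>
    rw [FD_succ]
    exact (ih fun j hj => hm j (hj.trans (Nat.lt_succ_self i))).W hB (hm i (Nat.lt_succ_self i))

lemma Bm.TD (h : LipB F B) (hB : 0 ≤ B) (hm : ∀ j < i, 0 < m j) (hφ : Bm φ) :
    Bm (TD F m σ φ i) := by
  induction i with
  | zero => exact hφ
  | succ i ih =>
    rw [TD_succ]
    exact (ih fun j hj => hm j (hj.trans (Nat.lt_succ_self i))).Ax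
      (lip_FD h hB fun j hj => hm j (hj.trans (Nat.lt_succ_self i))) hB _ _

section

variable (h : LipB F B) (hB : 0 ≤ B)
include h hB

lemma TD_add' (hm : ∀ j < i, 0 < m j) (hφ : Bm φ) (hψ : Bm ψ) (y : κ → ℝ) :
    TD F m σ (fun z => φ z + ψ z) i y = TD F m σ φ i y + TD F m σ ψ i y := by
  induction i generalizing y with
  | zero => rfl
  | succ i ih =>
    have hm' : ∀ j < i, 0 < m j := fun j hj => hm j (hj.trans (Nat.lt_succ_self i))
    have e : TD F m σ (fun z => φ z + ψ z) i = fun y => TD F m σ φ i y + TD F m σ ψ i y :=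
      funext (ih hm')
    rw [TD_succ, TD_succ, TD_succ, e, Ax_add (lip_FD h hB hm') hB (hφ.TD h hB hm').eg
      (hψ.TD h hB hm').eg]

omit h hB in
lemma TD_const_mul' (c : ℝ) (φ : (κ → ℝ) → ℝ) (y : κ → ℝ) :
    TD F m σ (fun z => c * φ z) i y = c * TD F m σ φ i y := by
  induction i generalizing y with
  | zero => rfl
  | succ i ih =>
    have e : TD F m σ (fun z => c * φ z) i = fun y => c * TD F m σ φ i y := funext ih
    rw [TD_succ, TD_succ, e, Ax_const_mul]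

lemma TD_const' (hm : ∀ j < i, 0 < m j) (c : ℝ) (y : κ → ℝ) :
    TD F m σ (fun _ => c) i y = c := by
  induction i generalizing y with
  | zero => rfl
  | succ i ih =>
    have hm' : ∀ j < i, 0 < m j := fun j hj => hm j (hj.trans (Nat.lt_succ_self i))
    have e : TD F m σ (fun _ => c) i = fun _ => c := funext (ih hm')
    rw [TD_succ, e, Ax_const (lip_FD h hB hm') hB]

lemma TD_mono' (hm : ∀ j < i, 0 < m j) (hφ : Bm φ) (hψ : Bm ψ) (hle : ∀ z, φ z ≤ ψ z)
    (y : κ → ℝ) : TD F m σ φ i y ≤ TD F m σ ψ i y := by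
  induction i generalizing y with
  | zero => exact hle y
  | succ i ih =>
    have hm' : ∀ j < i, 0 < m j := fun j hj => hm j (hj.trans (Nat.lt_succ_self i))
    rw [TD_succ, TD_succ]
    exact Ax_mono (lip_FD h hB hm') hB (hφ.TD h hB hm').eg (hψ.TD h hB hm').eg (ih hm') _ _ y

lemma TD_sub' (hm : ∀ j < i, 0 < m j) (hφ : Bm φ) (hψ : Bm ψ) (y : κ → ℝ) :
    TD F m σ (fun z => φ z - ψ z) i y = TD F m σ φ i y - TD F m σ ψ i y := by
  have e : (fun z => φ z - ψ z) = fun z => φ z + -1 * ψ z := by funext z; ring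
  rw [e, TD_add' h hB hm hφ (hψ.const_mul (-1)), TD_const_mul']
  ring

lemma TD_nonneg' (hm : ∀ j < i, 0 < m j) (hφ : Bm φ) (h0 : ∀ z, 0 ≤ φ z) (y : κ → ℝ) :
    0 ≤ TD F m σ φ i y := by
  rw [← TD_const' h hB (σ := σ) hm 0 y]
  exact TD_mono' h hB hm (Bm.const 0) hφ h0 y

end

/-! ### layers put together -/

lemma FD_shift (F : (κ → ℝ) → ℝ) (m σ : ℕ → ℝ) (a i : ℕ) : FD F m σ (a + i) =
    FD (FD F m σ a) (fun t => m (a + t)) (fun t => σ (a + t)) i := by
  induction i with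
  | zero => rfl
  | succ i ih => rw [← Nat.add_assoc, FD_succ, FD_succ, ih]

lemma TD_shift (F : (κ → ℝ) → ℝ) (m σ : ℕ → ℝ) (φ : (κ → ℝ) → ℝ) (a i : ℕ) :
    TD F m σ φ (a + i) =
      TD (FD F m σ a) (fun t => m (a + t)) (fun t => σ (a + t)) (TD F m σ φ a) i := by
  induction i with
  | zero => rfl
  | succ i ih => rw [← Nat.add_assoc, TD_succ, TD_succ, ih, FD_shift]

/-! ### perturbation of the innermost function -/

/-- The increment of one layer. -/
lemma exp_W_sub (h : LipB F B) (hB : 0 ≤ B) (h' : LipB G B') (hB' : 0 ≤ B') (hx : 0 < x) (s : ℝ)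
    (y : κ → ℝ) : Real.exp (x * (W x s G y - W x s F y)) =
      Ax x s F (fun z => Real.exp (x * (G z - F z))) y := by
  rw [mul_sub, Real.exp_sub, h.exp_W hB hx, h'.exp_W hB' hx]
  unfold Ax
  congr 1
  refine integral_congr_ae (Filter.Eventually.of_forall fun z => ?_)
  simp only
  rw [← Real.exp_add]
  congr 1
  ring

/-- The perturbed functional is at least the logarithm of the exponential moment. -/
lemma FD_lower (h : LipB U B) (hB : 0 ≤ B) (h' : LipB (fun z => U z + X z) B') (hB' : 0 ≤ B')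
    (hX : Bm X) (ha : 0 < a) (hm : ∀ j < i, a ≤ m j) (y : κ → ℝ) :
    TD U m σ (fun z => Real.exp (a * X z)) i y ≤
      Real.exp (a * (FD (fun z => U z + X z) m σ i y - FD U m σ i y)) := by
  induction i generalizing y with
  | zero =>
    rw [TD_zero, FD_zero, FD_zero]
    exact le_of_eq (by congr 1; ring)
  | succ i ih =>
    have hma : ∀ j < i, a ≤ m j := fun j hj => hm j (hj.trans (Nat.lt_succ_self i))
    have hmp : ∀ j < i, 0 < m j := fun j hj => ha.trans_le (hma j hj)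
    have hmi : a ≤ m i := hm i (Nat.lt_succ_self i)
    have hmi0 : 0 < m i := ha.trans_le hmi
    have l1 := lip_FD (σ := σ) h hB hmp
    have l2 := lip_FD (σ := σ) h' hB' hmp
    set G1 := FD U m σ i with hG1
    set G2 := FD (fun z => U z + X z) m σ i with hG2
    rw [TD_succ, FD_succ, FD_succ, ← hG1, ← hG2]
    set c := W (m i) (σ i) G2 y - W (m i) (σ i) G1 y with hc
    have k1 : Real.exp (m i * c) = Ax (m i) (σ i) G1 (fun z => Real.exp (m i * (G2 z - G1 z))) y :=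
      exp_W_sub l1 hB l2 hB' hmi0 _ y
    have egd : ∀ r : ℝ, EG fun z => Real.exp (r * (G2 z - G1 z)) := by
      intro r
      have := ((l2.lip hB').add ((l1.lip hB).const_mul (-1))).exp_eg r
      refine this.mono ?_ fun z => le_of_eq ?_
      · exact (((l2.lip hB').eg.sub (l1.lip hB).eg).meas.const_mul r).exp
      · congr 2; ring
    have t1 : Bm (TD U m σ (fun z => Real.exp (a * X z)) i) :=
      Bm.TD h hB hmp (Bm.exp (hX.const_mul a))
    have k2 : Ax (m i) (σ i) G1 (TD U m σ (fun z => Real.exp (a * X z)) i) y ≤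
        Ax (m i) (σ i) G1 (fun z => Real.exp (a * (G2 z - G1 z))) y :=
      Ax_mono l1 hB t1.eg (egd a) (ih hma) _ _ y
    refine k2.trans ?_
    have k3 : ∀ z, Real.exp (a * (G2 z - G1 z)) ≤
        Real.exp (a * c) * (a / m i * (Real.exp (-(m i * c)) * Real.exp (m i * (G2 z - G1 z)))) +
          Real.exp (a * c) * (1 - a / m i) := by
      intro z
      have h1 := convexOn_exp.2 (Set.mem_univ (m i * (G2 z - G1 z - c))) (Set.mem_univ 0)
        (show 0 ≤ a / m i by positivity)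
        (show 0 ≤ 1 - a / m i by rw [sub_nonneg, div_le_one hmi0]; exact hmi) (by ring)
      simp only [smul_eq_mul, mul_zero, add_zero, Real.exp_zero, mul_one] at h1
      have e1 : a / m i * (m i * (G2 z - G1 z - c)) = a * (G2 z - G1 z) - a * c := by
        field_simp
      rw [e1] at h1
      have h2 := mul_le_mul_of_nonneg_left h1 (Real.exp_pos (a * c)).le
      rw [← Real.exp_add, add_sub_cancel] at h2
      refine h2.trans (le_of_eq ?_)
      rw [mul_add, ← Real.exp_add (-(m i * c))]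
      congr 4
      ring
    have k4 := Ax_mono l1 hB (egd a)
      ((((egd (m i)).const_mul (Real.exp (-(m i * c)))).const_mul (a / m i)).const_mul
        (Real.exp (a * c)) |>.add (EG.const (Real.exp (a * c) * (1 - a / m i)))) k3 (m i) (σ i) y
    rw [Ax_add l1 hB ((((egd (m i)).const_mul (Real.exp (-(m i * c)))).const_mul
      (a / m i)).const_mul (Real.exp (a * c))) (EG.const _), Ax_const l1 hB, Ax_const_mul,
      Ax_const_mul, Ax_const_mul, ← k1, ← Real.exp_add, neg_add_cancel, Real.exp_zero] at k4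
    refine k4.trans (le_of_eq ?_)
    ring

/-- The perturbed functional is at most the mean of the perturbation under the perturbed law. -/
lemma FD_upper (h : LipB U B) (hB : 0 ≤ B) (h' : LipB (fun z => U z + X z) B') (hB' : 0 ≤ B')
    (hX : Bm X) (hm : ∀ j < i, 0 < m j) (y : κ → ℝ) :
    FD (fun z => U z + X z) m σ i y - FD U m σ i y ≤ TD (fun z => U z + X z) m σ X i y := by
  induction i generalizing y with
  | zero =>
    rw [TD_zero, FD_zero, FD_zero]
    simp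
  | succ i ih =>
    have hmp : ∀ j < i, 0 < m j := fun j hj => hm j (hj.trans (Nat.lt_succ_self i))
    have hmi : 0 < m i := hm i (Nat.lt_succ_self i)
    have l1 := lip_FD (σ := σ) h hB hmp
    have l2 := lip_FD (σ := σ) h' hB' hmp
    set G1 := FD U m σ i with hG1
    set G2 := FD (fun z => U z + X z) m σ i with hG2
    rw [TD_succ, FD_succ, FD_succ, ← hG1, ← hG2]
    set c := W (m i) (σ i) G2 y - W (m i) (σ i) G1 y with hc
    have k1 : Real.exp (m i * -c) =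
        Ax (m i) (σ i) G2 (fun z => Real.exp (m i * (G1 z - G2 z))) y := by
      rw [hc, neg_sub]
      exact exp_W_sub l2 hB' l1 hB hmi _ y
    have egd : EG fun z => G2 z - G1 z := (l2.lip hB').eg.sub (l1.lip hB).eg
    have ege : EG fun z => Real.exp (m i * (G1 z - G2 z)) := by
      have := ((l1.lip hB).add ((l2.lip hB').const_mul (-1))).exp_eg (m i)
      refine this.mono ?_ fun z => le_of_eq ?_
      · exact (((l1.lip hB).eg.sub (l2.lip hB').eg).meas.const_mul _).exp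
      · congr 2; ring
    have k2 : Ax (m i) (σ i) G2 (fun z => G2 z - G1 z) y ≤
        Ax (m i) (σ i) G2 (TD (fun z => U z + X z) m σ X i) y :=
      Ax_mono l2 hB' egd (Bm.TD h' hB' hmp hX).eg (ih hmp) _ _ y
    refine le_trans ?_ k2
    have k3 : ∀ z, Real.exp (m i * -c) * (1 + m i * c) +
        (Real.exp (m i * -c) * -(m i)) * (G2 z - G1 z) ≤ Real.exp (m i * (G1 z - G2 z)) := by
      intro z
      have h1 := Real.add_one_le_exp (m i * (G1 z - G2 z) - m i * -c)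
      have h2 := mul_le_mul_of_nonneg_left h1 (Real.exp_pos (m i * -c)).le
      rw [← Real.exp_add, add_sub_cancel] at h2
      refine le_trans (le_of_eq ?_) h2
      ring
    have k4 := Ax_mono l2 hB' ((EG.const (Real.exp (m i * -c) * (1 + m i * c))).add
      (egd.const_mul (Real.exp (m i * -c) * -(m i)))) ege k3 (m i) (σ i) y
    rw [← k1, Ax_add l2 hB' (EG.const _) (egd.const_mul _), Ax_const l2 hB', Ax_const_mul] at k4
    have k5 := Real.exp_pos (m i * -c)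
    have k6 : 0 ≤ Real.exp (m i * -c) * (m i * (Ax (m i) (σ i) G2 (fun z => G2 z - G1 z) y - c)) := by
      nlinarith
    have k7 := nonneg_of_mul_nonneg_right k6 k5
    have k8 := nonneg_of_mul_nonneg_right k7 hmi
    linarith

/-! ### variance under the outer law -/

/-- The variance of a bounded observable under the law of the outer layers. -/
noncomputable def vD (F : (κ → ℝ) → ℝ) (m σ : ℕ → ℝ) (φ : (κ → ℝ) → ℝ) (i : ℕ) (y : κ → ℝ) : ℝ :=
  TD F m σ (fun z => φ z * φ z) i y - TD F m σ φ i y ^ 2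

lemma TD_sq_sub (h : LipB F B) (hB : 0 ≤ B) (hm : ∀ j < i, 0 < m j) (hφ : Bm φ) (c : ℝ)
    (y : κ → ℝ) : TD F m σ (fun z => (φ z - c) * (φ z - c)) i y =
      vD F m σ φ i y + (TD F m σ φ i y - c) ^ 2 := by
  have e : (fun z => (φ z - c) * (φ z - c)) =
      fun z => φ z * φ z + (-2 * c * φ z + c ^ 2) := by funext z; ring
  rw [e, TD_add' h hB hm (hφ.mul hφ) ((hφ.const_mul _).add (Bm.const _)),
    TD_add' h hB hm (hφ.const_mul _) (Bm.const _), TD_const_mul', TD_const' h hB hm]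
  unfold vD
  ring

lemma vD_nonneg (h : LipB F B) (hB : 0 ≤ B) (hm : ∀ j < i, 0 < m j) (hφ : Bm φ) (y : κ → ℝ) :
    0 ≤ vD F m σ φ i y := by
  have h1 := TD_sq_sub (σ := σ) h hB hm hφ (TD F m σ φ i y) y
  rw [sub_self] at h1
  have hb : Bm fun z => (φ z - TD F m σ φ i y) * (φ z - TD F m σ φ i y) :=
    (hφ.sub (Bm.const _)).mul (hφ.sub (Bm.const _))
  have h2 := TD_nonneg' (σ := σ) h hB hm hb (fun z => mul_self_nonneg _) y
  rw [h1] at h2
  simpa using h2

/-- The mean absolute deviation. -/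
lemma TD_abs_sub_le (h : LipB F B) (hB : 0 ≤ B) (hm : ∀ j < i, 0 < m j) (hφ : Bm φ)
    (y : κ → ℝ) : TD F m σ (fun z => |φ z - TD F m σ φ i y|) i y ≤ √(vD F m σ φ i y) := by
  set c := TD F m σ φ i y with hc
  have hb : Bm fun z => |φ z - c| := (hφ.sub (Bm.const _)).abs
  have h1 := vD_nonneg (σ := σ) h hB hm hb y
  unfold vD at h1
  have e : (fun z => |φ z - c| * |φ z - c|) = fun z => (φ z - c) * (φ z - c) := by
    funext z; exact abs_mul_abs_self _
  rw [e, TD_sq_sub h hB hm hφ c y, ← hc, sub_self] at h1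
  refine Real.le_sqrt_of_sq_le ?_
  nlinarith

/-- **The gain of the perturbed functional over the mean contains the variance.** -/
theorem FD_gain (h : LipB U B) (hB : 0 ≤ B) (h' : LipB (fun z => U z + X z) B') (hB' : 0 ≤ B')
    (hX : Bm X) (hX0 : ∀ z, 0 ≤ X z) (hX1 : ∀ z, X z ≤ 1) (ha : 0 < a) (ha1 : a ≤ 1)
    (hm : ∀ j < i, a ≤ m j) (y : κ → ℝ) :
    TD U m σ X i y + a / 5 * vD U m σ X i y ≤
      FD (fun z => U z + X z) m σ i y - FD U m σ i y := by
  have hmp : ∀ j < i, 0 < m j := fun j hj => ha.trans_le (hm j hj)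
  have k1 := FD_lower (σ := σ) h hB h' hB' hX ha hm y
  set c := TD U m σ X i y with hc
  set v := vD U m σ X i y with hv
  have c0 : 0 ≤ c := TD_nonneg' h hB hmp hX hX0 y
  have c1 : c ≤ 1 := by
    have := TD_mono' (σ := σ) h hB hmp hX (Bm.const 1) hX1 y
    rwa [TD_const' h hB hmp] at this
  have v0 : 0 ≤ v := vD_nonneg h hB hmp hX y
  have v1 : v ≤ 1 := by
    have h1 : TD U m σ (fun z => X z * X z) i y ≤ TD U m σ (fun _ => (1 : ℝ)) i y :=
      TD_mono' h hB hmp (hX.mul hX) (Bm.const 1) (fun z => by nlinarith [hX0 z, hX1 z]) y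
    rw [TD_const' h hB hmp] at h1
    rw [hv]
    unfold vD
    nlinarith [sq_nonneg c]
  have k2 : ∀ z, Real.exp (a * c) * (1 - a * c + a * X z +
      a ^ 2 / 4 * ((X z - c) * (X z - c))) ≤ Real.exp (a * X z) := by
    intro z
    have hab : |a * (X z - c)| ≤ 1 := by
      rw [abs_mul, abs_of_pos ha]
      have : |X z - c| ≤ 1 := by
        rw [abs_le]
        constructor <;> linarith [hX0 z, hX1 z]
      calc a * |X z - c| ≤ 1 * 1 := mul_le_mul ha1 this (abs_nonneg _) zero_le_one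
        _ = 1 := one_mul 1
    have h1 : 1 + a * (X z - c) + (a * (X z - c)) ^ 2 / 4 ≤ Real.exp (a * (X z - c)) := by
      set t := a * (X z - c) with ht
      obtain ⟨t1, t2⟩ := abs_le.1 hab
      have h2 := Real.exp_bound (x := t) hab (n := 4) (by norm_num)
      have h3 : ∑ m ∈ Finset.range 4, t ^ m / (m.factorial : ℝ) =
          1 + t + t ^ 2 / 2 + t ^ 3 / 6 := by
        simp [Finset.sum_range_succ, Nat.factorial]
      rw [h3] at h2
      have h4 := (abs_le.1 h2).1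
      have h5 : |t| ^ 4 * ((Nat.succ 4 : ℕ) / ((Nat.factorial 4 : ℕ) * (4 : ℕ)) : ℝ) =
          t ^ 4 * (5 / 96) := by
        rw [← abs_pow, abs_of_nonneg (by positivity)]
        norm_num [Nat.factorial]
      rw [h5] at h4
      have h7 : t ^ 2 ≤ 1 := by nlinarith
      have h8 : 0 ≤ t ^ 2 := sq_nonneg t
      have h9 : -t ^ 2 ≤ t ^ 3 := by nlinarith
      have h6 : t ^ 4 ≤ t ^ 2 := by nlinarith
      linarith
    have h2 := mul_le_mul_of_nonneg_left h1 (Real.exp_pos (a * c)).le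
    rw [← Real.exp_add] at h2
    refine le_trans (le_of_eq ?_) (h2.trans (le_of_eq ?_))
    · ring
    · congr 1; ring
  have bq : Bm fun z => (X z - c) * (X z - c) :=
    (hX.sub (Bm.const _)).mul (hX.sub (Bm.const _))
  have b1 : Bm fun z => 1 - a * c + a * X z + a ^ 2 / 4 * ((X z - c) * (X z - c)) :=
    ((Bm.const _).add (hX.const_mul a)).add (bq.const_mul _)
  have k3 := TD_mono' (σ := σ) h hB hmp (b1.const_mul (Real.exp (a * c)))
    (Bm.exp (hX.const_mul a)) k2 y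
  rw [TD_const_mul', TD_add' h hB hmp ((Bm.const _).add (hX.const_mul a)) (bq.const_mul _),
    TD_add' h hB hmp (Bm.const _) (hX.const_mul a), TD_const' h hB hmp, TD_const_mul',
    TD_const_mul', TD_sq_sub h hB hmp hX c y, ← hc, ← hv, sub_self] at k3
  have k4 : Real.exp (a ^ 2 * v / 5) ≤ 1 + a ^ 2 * v / 4 := by
    have hw0 : 0 ≤ a ^ 2 * v / 5 := by positivity
    have ha2 : a ^ 2 ≤ 1 := pow_le_one₀ ha.le ha1
    have hw1 : a ^ 2 * v ≤ 1 := by
      calc a ^ 2 * v ≤ 1 * 1 := mul_le_mul ha2 v1 v0 zero_le_one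
        _ = 1 := one_mul 1
    have h1 := Real.abs_exp_sub_one_sub_id_le (x := a ^ 2 * v / 5)
      (by rw [abs_of_nonneg hw0]; linarith)
    have h2 := (abs_le.1 h1).2
    nlinarith
  have k5 : Real.exp (a * (c + a / 5 * v)) ≤
      Real.exp (a * (FD (fun z => U z + X z) m σ i y - FD U m σ i y)) := by
    refine le_trans ?_ (k3.trans k1)
    have e1 : a * (c + a / 5 * v) = a * c + a ^ 2 * v / 5 := by ring
    rw [e1, Real.exp_add]
    refine mul_le_mul_of_nonneg_left (k4.trans (le_of_eq ?_)) (Real.exp_pos _).le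
    ring
  have k6 := Real.exp_le_exp.1 k5
  exact le_of_mul_le_mul_left k6 ha

/-! ### the exponent grid -/

/-- The functional of one layer with the exponent `μ`. -/
lemma W_shift' (x s : ℝ) (V : (κ → ℝ) → ℝ) (y : κ → ℝ) :
    W x s V y = W x 1 (fun z => V (y + s • z)) 0 := (W_shift x s V y).symm

section grid

variable {DV : κ → (κ → ℝ) → ℝ} {μ μ' Bd : ℝ}

/-- The value at the larger exponent, from below. -/
lemma W_tangent_low (h : C11 V DV B L) (hc : Cv V) (hμ : 0 < μ) (hμ' : μ ≤ μ') (s : ℝ)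
    (y : κ → ℝ) : (μ' - μ) / 2 * (s ^ 2 * G2 μ s V DV y) ≤ W μ' s V y - W μ s V y := by
  have h1 := tangent (h.shift y s) (hc.shift y s) hμ (hμ.trans_le hμ')
  rw [W_shift, W_shift] at h1
  have h2 := KL_shift_ge (b := s) h hμ y
  have h3 : (μ' - μ) * (μ ^ 2 / 2 * (s ^ 2 * G2 μ s V DV y) / μ ^ 2) ≤
      (μ' - μ) * (KL (fun z => V (y + s • z)) μ / μ ^ 2) := by
    have : 0 ≤ μ' - μ := sub_nonneg.2 hμ'
    gcongr
  have e : (μ' - μ) * (μ ^ 2 / 2 * (s ^ 2 * G2 μ s V DV y) / μ ^ 2) =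
      (μ' - μ) / 2 * (s ^ 2 * G2 μ s V DV y) := by
    field_simp
  rw [e] at h3
  linarith

/-- The value at the larger exponent, from above. -/
lemma W_tangent_up (h : C11 V DV B L) (hc : Cv V) (hμ : 0 < μ) (hμ' : μ ≤ μ') (s : ℝ)
    (y : κ → ℝ) : W μ' s V y - W μ s V y ≤
      (μ' - μ) / 2 * (s ^ 2 * Ax μ' s V (fun z => ∑ e, DV e z ^ 2) y) := by
  have hμp := hμ.trans_le hμ'
  have h1 := tangent (h.shift y s) (hc.shift y s) hμp hμ
  rw [W_shift, W_shift] at h1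
  have h2 := KL_le_grad (h.shift y s) hμp
  have e0 : (∫ z, Real.exp (μ' * V (y + s • z)) * ∑ e, (s * DV e (y + s • z)) ^ 2 ∂(gI κ)) /
      ∫ z, Real.exp (μ' * V (y + s • z)) ∂(gI κ) =
      s ^ 2 * Ax μ' s V (fun z => ∑ e, DV e z ^ 2) y := by
    unfold Ax
    rw [← mul_div_assoc, ← integral_const_mul]
    congr 1
    refine integral_congr_ae (Filter.Eventually.of_forall fun z => ?_)
    simp only
    have : ∑ e, (s * DV e (y + s • z)) ^ 2 = s ^ 2 * ∑ e, DV e (y + s • z) ^ 2 := by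
      rw [Finset.mul_sum]
      exact Finset.sum_congr rfl fun e _ => by ring
    rw [this]
    ring
  rw [e0] at h2
  have h3 : (μ' - μ) * (KL (fun z => V (y + s • z)) μ' / μ' ^ 2) ≤
      (μ' - μ) * (μ' ^ 2 / 2 * (s ^ 2 * Ax μ' s V (fun z => ∑ e, DV e z ^ 2) y) / μ' ^ 2) := by
    have : 0 ≤ μ' - μ := sub_nonneg.2 hμ'
    gcongr
  have e : (μ' - μ) * (μ' ^ 2 / 2 * (s ^ 2 * Ax μ' s V (fun z => ∑ e, DV e z ^ 2) y) / μ' ^ 2) =
      (μ' - μ) / 2 * (s ^ 2 * Ax μ' s V (fun z => ∑ e, DV e z ^ 2) y) := by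
    field_simp
  rw [e] at h3
  linarith

/-- The increments along an arithmetic progression of exponents are nondecreasing. -/
lemma W_incr (h : C11 V DV B L) (hc : Cv V) (hμ : 0 < μ) {t : ℝ} (ht : 0 ≤ t) (s : ℝ)
    (y : κ → ℝ) : W (μ + t) s V y - W μ s V y ≤ W (μ + t + t) s V y - W (μ + t) s V y := by
  have h1 := (convexOn_W (h.shift y s) (hc.shift y s)).2 (Set.mem_Ioi.2 hμ)
    (Set.mem_Ioi.2 (show 0 < μ + t + t by linarith)) (show (0 : ℝ) ≤ 1 / 2 by norm_num)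
    (show (0 : ℝ) ≤ 1 / 2 by norm_num) (by norm_num)
  simp only [smul_eq_mul] at h1
  have e1 : 1 / 2 * μ + 1 / 2 * (μ + t + t) = μ + t := by ring
  rw [e1, W_shift, W_shift, W_shift] at h1
  linarith

end grid

/-! ### the outer layers -/

section outer

variable {DV : κ → (κ → ℝ) → ℝ} {μ h Bd : ℝ}

/-- The increment of the layer functional. -/
noncomputable def Xi (μ h s : ℝ) (V : (κ → ℝ) → ℝ) (y : κ → ℝ) : ℝ :=
  W (μ + h) s V y - W μ s V y

/-- The increment seen through the outer layers. -/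
noncomputable def In (μ h s : ℝ) (V : (κ → ℝ) → ℝ) (m σ : ℕ → ℝ) (i : ℕ) (y : κ → ℝ) : ℝ :=
  FD (W (μ + h) s V) m σ i y - FD (W μ s V) m σ i y

/-- `(h/2) s² |∇W|²` -/
noncomputable def gL (μ h s : ℝ) (V : (κ → ℝ) → ℝ) (DV : κ → (κ → ℝ) → ℝ) (y : κ → ℝ) : ℝ :=
  h / 2 * (s ^ 2 * G2 μ s V DV y)

/-- `(h/2) s² E |∇V|²` -/
noncomputable def gU (μ h s : ℝ) (V : (κ → ℝ) → ℝ) (DV : κ → (κ → ℝ) → ℝ) (y : κ → ℝ) : ℝ :=
  h / 2 * (s ^ 2 * Ax μ s V (fun z => ∑ e, DV e z ^ 2) y)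

lemma gL_le_Xi (hV : C11 V DV B L) (hc : Cv V) (hμ : 0 < μ) (hh : 0 ≤ h) (s : ℝ) (y : κ → ℝ) :
    gL μ h s V DV y ≤ Xi μ h s V y := by
  have h1 := W_tangent_low hV hc hμ (μ' := μ + h) (by linarith) s y
  rwa [add_sub_cancel_left] at h1

lemma Xi_le_gU (hV : C11 V DV B L) (hc : Cv V) (hμ : 0 < μ) (hh : 0 ≤ h) (s : ℝ) (y : κ → ℝ) :
    Xi μ h s V y ≤ gU (μ + h) h s V DV y := by
  have h1 := W_tangent_up hV hc hμ (μ' := μ + h) (by linarith) s y
  rwa [add_sub_cancel_left] at h1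

lemma bm_sumsq (hV : C11 V DV B L) : Bm fun z => ∑ e, DV e z ^ 2 := by
  refine ⟨Finset.measurable_sum _ fun e _ => (hV.meas e).pow_const 2, Fintype.card κ * B ^ 2,
    fun y => ?_⟩
  rw [abs_of_nonneg (G2_bd hV y).1]
  exact (G2_bd hV y).2

lemma bm_gU (hV : C11 V DV B L) (μ h s : ℝ) : Bm (gU μ h s V DV) :=
  (((bm_sumsq hV).Ax hV.lip hV.B0 μ s).const_mul (s ^ 2)).const_mul (h / 2)

lemma bm_gL (hV : C11 V DV B L) (hμ : 0 < μ) (h s : ℝ) : Bm (gL μ h s V DV) :=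
  ((bm_sumsq (hV.W' hμ s)).const_mul (s ^ 2)).const_mul (h / 2)

lemma gU_le (hV : C11 V DV B L) (hh : 0 ≤ h) (hBd : ∀ z, ∑ e, DV e z ^ 2 ≤ Bd) (μ s : ℝ)
    (y : κ → ℝ) : gU μ h s V DV y ≤ h / 2 * (s ^ 2 * Bd) := by
  have h1 := Ax_mono hV.lip hV.B0 (bm_sumsq hV).eg (EG.const Bd) hBd μ s y
  rw [Ax_const hV.lip hV.B0] at h1
  unfold gU
  gcongr

lemma gL_nonneg (hh : 0 ≤ h) (μ s : ℝ) (V : (κ → ℝ) → ℝ) (DV : κ → (κ → ℝ) → ℝ) (y : κ → ℝ) :
    0 ≤ gL μ h s V DV y := by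
  have : 0 ≤ G2 μ s V DV y := Finset.sum_nonneg fun _ _ => sq_nonneg _
  unfold gL
  positivity

lemma Xi_nonneg (hV : C11 V DV B L) (hc : Cv V) (hμ : 0 < μ) (hh : 0 ≤ h) (s : ℝ) (y : κ → ℝ) :
    0 ≤ Xi μ h s V y := (gL_nonneg hh μ s V DV y).trans (gL_le_Xi hV hc hμ hh s y)

lemma bm_Xi (hV : C11 V DV B L) (hc : Cv V) (hμ : 0 < μ) (hh : 0 ≤ h) (s : ℝ) :
    Bm (Xi μ h s V) := by
  have hm : Measurable (Xi μ h s V) :=
    (((hV.lip.W hV.B0 (show 0 < μ + h by linarith)).lip hV.B0).eg.sub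
      ((hV.lip.W hV.B0 hμ).lip hV.B0).eg).meas
  obtain ⟨-, C, hC⟩ := bm_gU hV (μ + h) h s
  refine ⟨hm, C, fun y => ?_⟩
  rw [abs_of_nonneg (Xi_nonneg hV hc hμ hh s y)]
  exact (Xi_le_gU hV hc hμ hh s y).trans ((le_abs_self _).trans (hC y))

lemma add_Xi (μ h s : ℝ) (V : (κ → ℝ) → ℝ) :
    (fun z => W μ s V z + Xi μ h s V z) = W (μ + h) s V := by
  funext z
  unfold Xi
  ring

/-- **(D3), mean and variance of the increment.** -/
theorem in_low (hV : C11 V DV B L) (hc : Cv V) (hμ : 0 < μ) (hh : 0 ≤ h)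
    (hBd : ∀ z, ∑ e, DV e z ^ 2 ≤ Bd) (hk : h / 2 * (s ^ 2 * Bd) ≤ 1) (ha : 0 < a) (ha1 : a ≤ 1)
    (hm : ∀ j < i, a ≤ m j) (y : κ → ℝ) :
    TD (W μ s V) m σ (Xi μ h s V) i y + a / 5 * vD (W μ s V) m σ (Xi μ h s V) i y ≤
      In μ h s V m σ i y := by
  have l1 : LipB (W μ s V) B := hV.lip.W hV.B0 hμ
  have l2 : LipB (fun z => W μ s V z + Xi μ h s V z) B := by
    rw [add_Xi]
    exact hV.lip.W hV.B0 (by linarith)
  have h1 := FD_gain (σ := σ) l1 hV.B0 l2 hV.B0 (bm_Xi hV hc hμ hh s) (Xi_nonneg hV hc hμ hh s)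
    (fun z => (Xi_le_gU hV hc hμ hh s z).trans ((gU_le hV hh hBd _ s z).trans hk)) ha ha1 hm y
  rw [add_Xi] at h1
  exact h1

/-- **(D3), the increment from above.** -/
theorem in_up (hV : C11 V DV B L) (hc : Cv V) (hμ : 0 < μ) (hh : 0 ≤ h)
    (hm : ∀ j < i, 0 < m j) (y : κ → ℝ) :
    In μ h s V m σ i y ≤ TD (W (μ + h) s V) m σ (Xi μ h s V) i y := by
  have l1 : LipB (W μ s V) B := hV.lip.W hV.B0 hμ
  have l2 : LipB (fun z => W μ s V z + Xi μ h s V z) B := by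
    rw [add_Xi]
    exact hV.lip.W hV.B0 (by linarith)
  have h1 := FD_upper (σ := σ) l1 hV.B0 l2 hV.B0 (bm_Xi hV hc hμ hh s) hm y
  rw [add_Xi] at h1
  exact h1

lemma In_nonneg (hV : C11 V DV B L) (hc : Cv V) (hμ : 0 < μ) (hh : 0 ≤ h)
    (hBd : ∀ z, ∑ e, DV e z ^ 2 ≤ Bd) (hk : h / 2 * (s ^ 2 * Bd) ≤ 1) (ha : 0 < a) (ha1 : a ≤ 1)
    (hm : ∀ j < i, a ≤ m j) (y : κ → ℝ) : 0 ≤ In μ h s V m σ i y := by
  have hmp : ∀ j < i, 0 < m j := fun j hj => ha.trans_le (hm j hj)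
  have l1 : LipB (W μ s V) B := hV.lip.W hV.B0 hμ
  have h1 := in_low (σ := σ) hV hc hμ hh hBd hk ha ha1 hm y
  have h2 := vD_nonneg (σ := σ) l1 hV.B0 hmp (bm_Xi hV hc hμ hh s) y
  have h3 := TD_nonneg' (σ := σ) l1 hV.B0 hmp (bm_Xi hV hc hμ hh s) (Xi_nonneg hV hc hμ hh s) y
  have : 0 ≤ a / 5 * vD (W μ s V) m σ (Xi μ h s V) i y := by positivity
  linarith

lemma In_le (hV : C11 V DV B L) (hc : Cv V) (hμ : 0 < μ) (hh : 0 ≤ h)
    (hBd : ∀ z, ∑ e, DV e z ^ 2 ≤ Bd) (hm : ∀ j < i, 0 < m j) (y : κ → ℝ) :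
    In μ h s V m σ i y ≤ h / 2 * (s ^ 2 * Bd) := by
  refine (in_up (σ := σ) hV hc hμ hh hm y).trans ?_
  have l2 : LipB (W (μ + h) s V) B := hV.lip.W hV.B0 (by linarith)
  have h1 := TD_mono' (σ := σ) l2 hV.B0 hm (bm_Xi hV hc hμ hh s)
    (Bm.const (h / 2 * (s ^ 2 * Bd)))
    (fun z => (Xi_le_gU hV hc hμ hh s z).trans (gU_le hV hh hBd _ s z)) y
  rwa [TD_const' l2 hV.B0 hm] at h1

/-- The increment before is at most the mean of the increment. -/
theorem in_prev (hV : C11 V DV B L) (hc : Cv V) (hμ : 0 < μ) (hh : 0 ≤ h)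
    (hm : ∀ j < i, 0 < m j) (y : κ → ℝ) :
    In μ h s V m σ i y ≤ TD (W (μ + h) s V) m σ (Xi (μ + h) h s V) i y := by
  refine (in_up (σ := σ) hV hc hμ hh hm y).trans ?_
  exact TD_mono' (hV.lip.W hV.B0 (show 0 < μ + h by linarith)) hV.B0 hm (bm_Xi hV hc hμ hh s)
    (bm_Xi hV hc (by linarith) hh s) (fun z => W_incr hV hc hμ hh s z) y

/-- **(D3), monotonicity of the increments.** -/
theorem In_mono (hV : C11 V DV B L) (hc : Cv V) (hμ : 0 < μ) (hh : 0 ≤ h)
    (hBd : ∀ z, ∑ e, DV e z ^ 2 ≤ Bd) (hk : h / 2 * (s ^ 2 * Bd) ≤ 1) (ha : 0 < a) (ha1 : a ≤ 1)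
    (hm : ∀ j < i, a ≤ m j) (y : κ → ℝ) :
    In μ h s V m σ i y ≤ In (μ + h) h s V m σ i y := by
  have hmp : ∀ j < i, 0 < m j := fun j hj => ha.trans_le (hm j hj)
  have hμ' : 0 < μ + h := by linarith
  have l1 : LipB (W (μ + h) s V) B := hV.lip.W hV.B0 hμ'
  have h1 := in_prev (s := s) (σ := σ) hV hc hμ hh hmp y
  have h2 := in_low (s := s) (σ := σ) hV hc hμ' hh hBd hk ha ha1 hm y
  have h3 := vD_nonneg (σ := σ) l1 hV.B0 hmp (bm_Xi hV hc hμ' hh s) y
  have : 0 ≤ a / 5 * vD (W (μ + h) s V) m σ (Xi (μ + h) h s V) i y := by positivity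
  linarith

/-- **(D3), variance.** -/
theorem d3_var (hV : C11 V DV B L) (hc : Cv V) (hμ : 0 < μ) (hh : 0 ≤ h)
    (hBd : ∀ z, ∑ e, DV e z ^ 2 ≤ Bd) (hk : h / 2 * (s ^ 2 * Bd) ≤ 1) (ha : 0 < a) (ha1 : a ≤ 1)
    (hm : ∀ j < i, a ≤ m j) (y : κ → ℝ) :
    a / 5 * vD (W (μ + h) s V) m σ (Xi (μ + h) h s V) i y ≤
      In (μ + h) h s V m σ i y - In μ h s V m σ i y := by
  have hmp : ∀ j < i, 0 < m j := fun j hj => ha.trans_le (hm j hj)
  have hμ' : 0 < μ + h := by linarith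
  have h1 := in_prev (s := s) (σ := σ) hV hc hμ hh hmp y
  have h2 := in_low (s := s) (σ := σ) hV hc hμ' hh hBd hk ha ha1 hm y
  linarith

/-- **(D3), the increment against the squared gradient.** -/
theorem d3_gL (hV : C11 V DV B L) (hc : Cv V) (hμ : 0 < μ) (hh : 0 ≤ h)
    (hBd : ∀ z, ∑ e, DV e z ^ 2 ≤ Bd) (hk : h / 2 * (s ^ 2 * Bd) ≤ 1) (ha : 0 < a) (ha1 : a ≤ 1)
    (hm : ∀ j < i, a ≤ m j) (y : κ → ℝ) :
    TD (W (μ + h) s V) m σ (fun z => Xi (μ + h) h s V z - gL (μ + h) h s V DV z) i y ≤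
      (In (μ + h) h s V m σ i y - In μ h s V m σ i y) +
        TD (W (μ + h) s V) m σ (fun z => gU (μ + h) h s V DV z - gL (μ + h) h s V DV z) i y := by
  have hmp : ∀ j < i, 0 < m j := fun j hj => ha.trans_le (hm j hj)
  have hμ' : 0 < μ + h := by linarith
  have l1 : LipB (W (μ + h) s V) B := hV.lip.W hV.B0 hμ'
  have h1 := in_up (s := s) (σ := σ) hV hc hμ hh hmp y
  have h2 := in_low (s := s) (σ := σ) hV hc hμ' hh hBd hk ha ha1 hm y
  have h3 := vD_nonneg (σ := σ) l1 hV.B0 hmp (bm_Xi hV hc hμ' hh s) y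
  have h4 := TD_mono' (σ := σ) l1 hV.B0 hmp (bm_Xi hV hc hμ hh s) (bm_gU hV (μ + h) h s)
    (fun z => Xi_le_gU hV hc hμ hh s z) y
  rw [TD_sub' l1 hV.B0 hmp (bm_Xi hV hc hμ' hh s) (bm_gL hV hμ' h s),
    TD_sub' l1 hV.B0 hmp (bm_gU hV (μ + h) h s) (bm_gL hV hμ' h s)]
  have : 0 ≤ a / 5 * vD (W (μ + h) s V) m σ (Xi (μ + h) h s V) i y := by positivity
  linarith

/-- **(D3): self-averaging of the squared gradient of the layer under the law of the outer
layers, at every position.** -/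
theorem d3 (hV : C11 V DV B L) (hc : Cv V) (hμ : 0 < μ) (hh : 0 ≤ h)
    (hBd : ∀ z, ∑ e, DV e z ^ 2 ≤ Bd) (hk : h / 2 * (s ^ 2 * Bd) ≤ 1) (ha : 0 < a) (ha1 : a ≤ 1)
    (hm : ∀ j < i, a ≤ m j) (y : κ → ℝ) :
    TD (W (μ + h) s V) m σ (fun z => |gL (μ + h) h s V DV z -
        TD (W (μ + h) s V) m σ (Xi (μ + h) h s V) i y|) i y ≤
      (In (μ + h) h s V m σ i y - In μ h s V m σ i y) +
        TD (W (μ + h) s V) m σ (fun z => gU (μ + h) h s V DV z - gL (μ + h) h s V DV z) i y +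
        √(5 / a * (In (μ + h) h s V m σ i y - In μ h s V m σ i y)) := by
  have hmp : ∀ j < i, 0 < m j := fun j hj => ha.trans_le (hm j hj)
  have hμ' : 0 < μ + h := by linarith
  have l1 : LipB (W (μ + h) s V) B := hV.lip.W hV.B0 hμ'
  have bX := bm_Xi hV hc hμ' hh s
  have bg := bm_gL hV hμ' h s
  set q := TD (W (μ + h) s V) m σ (Xi (μ + h) h s V) i y with hq
  have h1 := d3_gL (σ := σ) hV hc hμ hh hBd hk ha ha1 hm y
  have h2 := TD_abs_sub_le (σ := σ) l1 hV.B0 hmp bX y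
  rw [← hq] at h2
  have h3 := d3_var (σ := σ) hV hc hμ hh hBd hk ha ha1 hm y
  have h4 : √(vD (W (μ + h) s V) m σ (Xi (μ + h) h s V) i y) ≤
      √(5 / a * (In (μ + h) h s V m σ i y - In μ h s V m σ i y)) := by
    refine Real.sqrt_le_sqrt ?_
    have h5 := mul_le_mul_of_nonneg_left h3 (show 0 ≤ 5 / a by positivity)
    refine le_trans (le_of_eq ?_) h5
    field_simp
  have h6 := TD_mono' (σ := σ) l1 hV.B0 hmp (bg.sub (Bm.const q)).abs
    ((bX.sub bg).add (bX.sub (Bm.const q)).abs) (fun z => by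
      have h7 := gL_le_Xi hV hc hμ' hh s z
      calc |gL (μ + h) h s V DV z - q| = |(gL (μ + h) h s V DV z - Xi (μ + h) h s V z) +
            (Xi (μ + h) h s V z - q)| := by congr 1; ring
        _ ≤ |gL (μ + h) h s V DV z - Xi (μ + h) h s V z| + |Xi (μ + h) h s V z - q| :=
            abs_add_le _ _
        _ = _ := by rw [abs_of_nonpos (by linarith)]; ring) y
  rw [TD_add' l1 hV.B0 hmp (bX.sub bg) (bX.sub (Bm.const q)).abs] at h6
  linarith

end outer

end Vale.Agent.P146.H785
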