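import Vale.Agent.P146.H785.Star
import Vale.Agent.P146.H713.Hess
import Vale.Agent.P146.H327.Ent

/-!
The growth inequality of the plan R1: the mean squared Hessian of the value function under `P_θ` is
at least `(5/32) Q² / G(2x) - Q / s`, by transport of `P_θ` along the gradient of the value function
in the variational principle for the exponent `2x`.
-/

open MeasureTheory ProbabilityTheory

namespace Vale.Agent.P146.H785

open Vale.Agent.P157.Lv Vale.Agent.P146.H425 Vale.Agent.P146.R1 Vale.Agent.P146.H327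

set_option linter.unusedSectionVars false

variable {κ : Type} [Fintype κ] [DecidableEq κ] {F : (κ → ℝ) → ℝ} {D : κ → (κ → ℝ) → ℝ}
  {HF : κ → κ → (κ → ℝ) → ℝ} {B L B2 x θ t0 t1 s t c K : ℝ}
  {Ψ Ψ' : (κ → ℝ) → (κ → ℝ) → (κ → ℝ) → ℝ}

/-! ### the positions -/

/-- The coordinate of a block index. -/
def bs3 : K3 κ → κ := Sum.elim id (Sum.elim id id)

/-- Coefficients constant on each block. -/
def cf3 (a b c : ℝ) : K3 κ → ℝ := Sum.elim (fun _ => a) (Sum.elim (fun _ => b) fun _ => c)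

lemma ite_sum (e : κ) (f : κ → ℝ) : (∑ j, if j = e then f j else 0) = f e := by simp

lemma po3 (a b c : ℝ) (w : K3 κ → ℝ) :
    po bs3 (cf3 a b c) w = a • b0 w + b • b1 w + c • b2 w := by
  funext e
  unfold po
  rw [Fintype.sum_sum_type, Fintype.sum_sum_type]
  change (∑ x, if x = e then a * w (Sum.inl x) else 0) +
    ((∑ x, if x = e then b * w (Sum.inr (Sum.inl x)) else 0) +
      ∑ x, if x = e then c * w (Sum.inr (Sum.inr x)) else 0) =
    a * w (Sum.inl e) + b * w (Sum.inr (Sum.inl e)) + c * w (Sum.inr (Sum.inr e))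
  rw [ite_sum, ite_sum, ite_sum]
  ring

lemma FS3 {a b c t : ℝ} (ht : a + b + c = t) {f : K3 κ → ℝ} (hf : ∀ j, f j = cf3 a b c j) :
    FS bs3 f t := by
  intro e
  simp_rw [hf]
  rw [Fintype.sum_sum_type, Fintype.sum_sum_type]
  change (∑ x : κ, if x = e then a else 0) +
    ((∑ x : κ, if x = e then b else 0) + ∑ x : κ, if x = e then c else 0) = t
  rw [ite_sum, ite_sum, ite_sum, ← ht]
  ring

lemma q0_po (t0 : ℝ) (w : K3 κ → ℝ) : q0 t0 w = po bs3 (cf3 (√t0) 0 0) w := by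
  rw [po3]; simp [q0]

lemma q1_po (t0 t1 : ℝ) (w : K3 κ → ℝ) : q1 t0 t1 w = po bs3 (cf3 (√t0) (√(t1 - t0)) 0) w := by
  rw [po3]; simp [q1, q0]

lemma q2_po (t0 t1 s : ℝ) (w : K3 κ → ℝ) :
    q2 t0 t1 s w = po bs3 (cf3 (√t0) (√(t1 - t0)) (√(s - t1))) w := by
  rw [po3]; simp [q2, q1, q0]

/-! ### the density -/

/-- The logarithm of the density of `P_θ`. -/
noncomputable def om (x θ t0 t1 s : ℝ) (F : (κ → ℝ) → ℝ) (z0 z1 z2 : κ → ℝ) : ℝ :=
  x * uu x s F z2 + θ * xi x t0 t1 F z0 z1 - Real.log (Eu x θ t0 t1 s F (fun _ _ _ => 1))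

lemma exp_om (h : C11 F D B L) (hx : 0 < x) (z0 z1 z2 : κ → ℝ) :
    Real.exp (om x θ t0 t1 s F z0 z1 z2) =
      (Eu x θ t0 t1 s F (fun _ _ _ => 1))⁻¹ * dn x θ t0 t1 s F z0 z1 z2 := by
  unfold om dn
  rw [Real.exp_sub, Real.exp_log (Eu_one_pos h hx), div_eq_inv_mul]

lemma int_om (h : C11 F D B L) (hx : 0 < x) (Ψ : (κ → ℝ) → (κ → ℝ) → (κ → ℝ) → ℝ) :
    ∫ w : K3 κ → ℝ, Real.exp (om x θ t0 t1 s F (q0 t0 w) (q1 t0 t1 w) (q2 t0 t1 s w)) *
      Ψ (q0 t0 w) (q1 t0 t1 w) (q2 t0 t1 s w) ∂(gI (K3 κ)) = Et x θ t0 t1 s F Ψ := by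
  unfold Et
  rw [div_eq_inv_mul]
  nth_rewrite 2 [Eu]
  rw [← integral_const_mul]
  refine integral_congr_ae (Filter.Eventually.of_forall fun w => ?_)
  simp only
  rw [exp_om h hx, mul_assoc]

lemma int_om_one (h : C11 F D B L) (hx : 0 < x) :
    ∫ w : K3 κ → ℝ, Real.exp (om x θ t0 t1 s F (q0 t0 w) (q1 t0 t1 w) (q2 t0 t1 s w))
      ∂(gI (K3 κ)) = 1 := by
  have h1 := int_om (θ := θ) (t0 := t0) (t1 := t1) (s := s) h hx (fun _ _ _ => 1)
  simp only [mul_one] at h1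
  rw [h1, Et_const h hx]

lemma e3_om (h : C11 F D B L) (hx : 0 < x) (θ t0 t1 s : ℝ) : E3 (om x θ t0 t1 s F) :=
  ((E3.of2 ((eg_uu h hx s).const_mul x)).add ((e3_xi h hx t0 t1).const_mul θ)).sub (E3.const _)

/-- The relative entropy is nonnegative. -/
lemma Et_om_nonneg (h : C11 F D B L) (hx : 0 < x) : 0 ≤ Et x θ t0 t1 s F (om x θ t0 t1 s F) := by
  have hE : EG fun w : K3 κ → ℝ =>
      Real.exp (om x θ t0 t1 s F (q0 t0 w) (q1 t0 t1 w) (q2 t0 t1 s w)) := by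
    simp_rw [exp_om h hx]
    exact ((e3_dn h hx θ t0 t1 s).eg_q t0 t1 s).const_mul _
  rw [← int_om h hx]
  have h1 : ∫ w : K3 κ → ℝ,
      (Real.exp (om x θ t0 t1 s F (q0 t0 w) (q1 t0 t1 w) (q2 t0 t1 s w)) - 1) ∂(gI (K3 κ)) = 0 := by
    rw [integral_sub hE.integrable (integrable_const _), int_om_one h hx]
    simp
  rw [← h1]
  refine integral_mono (hE.integrable.sub (integrable_const _))
    (hE.mul ((e3_om h hx θ t0 t1 s).eg_q t0 t1 s)).integrable fun w => ?_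
  simp only
  set a := om x θ t0 t1 s F (q0 t0 w) (q1 t0 t1 w) (q2 t0 t1 s w) with ha
  have h2 := Real.add_one_le_exp (-a)
  have h3 := mul_le_mul_of_nonneg_left h2 (Real.exp_pos a).le
  rw [← Real.exp_add, add_neg_cancel, Real.exp_zero] at h3
  linarith

/-! ### the cross term -/

/-- The scalar product of the gradient at the time `s` with the gradient of `ξ`. -/
noncomputable def cr (x t0 t1 s : ℝ) (F : (κ → ℝ) → ℝ) (D : κ → (κ → ℝ) → ℝ)
    (z0 z1 z2 : κ → ℝ) : ℝ :=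
  ∑ e, dd x s F D e z2 * (t1 * dd x t1 F D e z1 - t0 * dd x t0 F D e z0)

lemma eg_dd' (h : C11 F D B L) (hx : 0 < x) (t : ℝ) (e : κ) : EG (dd x t F D e) :=
  (c11_uu h hx t).eg_D e

lemma E3.sum' {ι : Type*} (S : Finset ι) {Φ : ι → (κ → ℝ) → (κ → ℝ) → (κ → ℝ) → ℝ}
    (h : ∀ i ∈ S, E3 (Φ i)) : E3 fun z0 z1 z2 => ∑ i ∈ S, Φ i z0 z1 z2 :=
  EG.sum S h

lemma e3_cr (h : C11 F D B L) (hx : 0 < x) (t0 t1 s : ℝ) : E3 (cr x t0 t1 s F D) :=
  E3.sum' _ fun e _ => (E3.of2 (eg_dd' h hx s e)).mul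
    (((E3.of1 (eg_dd' h hx t1 e)).const_mul t1).sub ((E3.of0 (eg_dd' h hx t0 e)).const_mul t0))

/-- **The variational inequality along the gradient.** -/
theorem star_raw (h : C2 F D HF B L B2) (hc : Cv F) (hx : 0 < x) (h0 : 0 ≤ t0) (h01 : t0 ≤ t1)
    (h1 : t1 ≤ s) (hs0 : 0 < s) (hs : s ≤ 1) (hc0 : 0 ≤ c) :
    c * x * Qt x θ t0 t1 s F D - c * θ * x / s * Et x θ t0 t1 s F (cr x t0 t1 s F D) -
      c ^ 2 / 2 * (Qt x θ t0 t1 s F D / s +
        Et x θ t0 t1 s F (fun _ _ z2 => hq x s F D HF z2)) ≤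
      x ^ 2 * GG (2 * x) F D + 2 * (θ * Et x θ t0 t1 s F (fun z0 z1 _ => xi x t0 t1 F z0 z1) -
        Lth x θ t0 t1 F) := by
  have hC := h.c1
  have hx2 : 0 < 2 * x := by positivity
  have hU : C2 (uu x s F) (dd x s F D) (hh x s F D HF) B (L + 2 * x * (Fintype.card κ * B) ^ 2)
      (B2 + 2 * x * B ^ 2) := h.W hx _
  set cs : K3 κ → ℝ := cf3 (√t0) (√(t1 - t0)) (√(s - t1)) with hcs
  set c1 : K3 κ → ℝ := cf3 (√t0) (√(t1 - t0)) 0 with hc1
  set c0 : K3 κ → ℝ := cf3 (√t0) 0 0 with hc0'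
  have e00 := Real.sq_sqrt h0
  have e01 := Real.sq_sqrt (sub_nonneg.2 h01)
  have e12 := Real.sq_sqrt (sub_nonneg.2 h1)
  have f2 : FS bs3 (fun j => cs j ^ 2) s :=
    FS3 (a := t0) (b := t1 - t0) (c := s - t1) (by ring) fun j => by
      rcases j with j | j | j <;> simp [hcs, cf3, e00, e01, e12]
  have f1 : FS bs3 (fun j => cs j * c1 j) t1 :=
    FS3 (a := t0) (b := t1 - t0) (c := 0) (by ring) fun j => by
      rcases j with j | j | j <;> simp [hcs, hc1, cf3, Real.mul_self_sqrt h0,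
        Real.mul_self_sqrt (sub_nonneg.2 h01)]
  have f0 : FS bs3 (fun j => cs j * c0 j) t0 :=
    FS3 (a := t0) (b := 0) (c := 0) (by ring) fun j => by
      rcases j with j | j | j <;> simp [hcs, hc0', cf3, Real.mul_self_sqrt h0]
  set Z := Eu x θ t0 t1 s F (fun _ _ _ => 1) with hZ
  set ω : (K3 κ → ℝ) → ℝ := fun w => om x θ t0 t1 s F (q0 t0 w) (q1 t0 t1 w) (q2 t0 t1 s w)
    with hω
  set ω' : K3 κ → (K3 κ → ℝ) → ℝ := fun j w =>
    x * (cs j * dd x s F D (bs3 j) (q2 t0 t1 s w)) +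
      θ * (x * (c1 j * dd x t1 F D (bs3 j) (q1 t0 t1 w) -
        c0 j * dd x t0 F D (bs3 j) (q0 t0 w))) with hω'
  have d : ∀ t u, HasFDerivAt (uu x t F) (lf fun e => dd x t F D e u) u := fun t u =>
    C11.hasFDerivAt (c11_uu hC hx t) u
  have dω : ∀ w, HasFDerivAt ω (lf fun j => ω' j w) w := by
    intro w
    have g2 := fd_po (bs := bs3) (cf := cs) (d s) w
    have g1 := fd_po (bs := bs3) (cf := c1) (d t1) w
    have g0 := fd_po (bs := bs3) (cf := c0) (d t0) w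
    have e : ω = fun w => x * uu x s F (po bs3 cs w) +
        θ * (x * (uu x t1 F (po bs3 c1 w) - uu x t0 F (po bs3 c0 w))) - Real.log Z := by
      funext w
      simp only [hω, om, xi, q0_po, q1_po, q2_po, hcs, hc1, hc0', hZ]
    rw [e]
    refine (((g2.const_mul x).add (((g1.sub g0).const_mul x).const_mul θ)).sub_const
      (Real.log Z)).congr_fderiv ?_
    ext v
    simp only [hω', add_apply, sub_apply, smul_apply, lf_apply, smul_eq_mul,
      Finset.mul_sum, ← Finset.sum_add_distrib, ← Finset.sum_sub_distrib, q0_po, q1_po, q2_po]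
    exact Finset.sum_congr rfl fun j _ => by ring
  have E0 : ∀ t (f : (κ → ℝ) → ℝ), EG f → EG fun w : K3 κ → ℝ => f (q0 t w) := fun t f hf =>
    (E3.of0 hf).eg_q t t1 s
  have E1 : ∀ (f : (κ → ℝ) → ℝ), EG f → EG fun w : K3 κ → ℝ => f (q1 t0 t1 w) := fun f hf =>
    (E3.of1 hf).eg_q t0 t1 s
  have E2 : ∀ (f : (κ → ℝ) → ℝ), EG f → EG fun w : K3 κ → ℝ => f (q2 t0 t1 s w) := fun f hf =>
    (E3.of2 hf).eg_q t0 t1 s
  have gω' : ∀ j, EG (ω' j) := fun j =>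
    (((E2 _ (eg_dd' hC hx s (bs3 j))).const_mul (cs j)).const_mul x).add
      (((((E1 _ (eg_dd' hC hx t1 (bs3 j))).const_mul (c1 j)).sub
        ((E0 _ _ (eg_dd' hC hx t0 (bs3 j))).const_mul (c0 j))).const_mul x).const_mul θ)
  have gω : EG ω := (e3_om hC hx θ t0 t1 s).eg_q t0 t1 s
  have gωe : EG fun w => Real.exp (ω w) := by
    simp_rw [hω, exp_om hC hx]
    exact ((e3_dn hC hx θ t0 t1 s).eg_q t0 t1 s).const_mul _
  have key := tr_po (c := c) (k := 2 * x) hU dω gω' gω gωe (int_om_one hC hx) f2 hs0 hc0 hx2.le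
  -- the right side
  have hR : Real.log (∫ w : K3 κ → ℝ, Real.exp (2 * x * uu x s F (po bs3 cs w)) ∂(gI (K3 κ))) ≤
      2 * x * phi (2 * x) F := by
    have hψ : EG fun z => Real.exp (x * uu x s F z) := (c11_uu hC hx s).eg_exp x
    have r1 := Eu_zero (ψ := fun z => Real.exp (x * uu x s F z)) hC hx hψ h0 h01 h1
    have r2 : ∫ w : K3 κ → ℝ, Real.exp (2 * x * uu x s F (po bs3 cs w)) ∂(gI (K3 κ)) =
        Eu x 0 t0 t1 s F (fun _ _ z2 => Real.exp (x * uu x s F z2)) := by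
      unfold Eu
      refine integral_congr_ae (Filter.Eventually.of_forall fun w => ?_)
      simp only
      rw [dn, zero_mul, add_zero, ← Real.exp_add, q2_po, ← hcs]
      congr 1
      ring
    have r3 : Nm x (√s) (√(1 - s)) F (fun z => Real.exp (x * uu x s F z)) ≤
        ∫ z, Real.exp (2 * x * F z) ∂(gI κ) := by
      rw [← Nm_one hC hx2 (a := √s) (b := √(1 - s))
        (by rw [Real.sq_sqrt hs0.le, Real.sq_sqrt (by linarith)]; ring)]
      unfold Nm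
      refine integral_mono (EG.smul' (((hC.W' hx _).eg_exp x).mul hψ) _).integrable
        (EG.smul' ((hC.W' hx2 _).eg_exp (2 * x)) _).integrable fun z => ?_
      simp only
      rw [← Real.exp_add]
      refine Real.exp_le_exp.2 ?_
      have w1 := W_two_ge (b := √(1 - s)) hC hc hx (√s • z)
      have w2 : 0 ≤ x / 2 * (√(1 - s) ^ 2 * G2 x (√(1 - s)) F D (√s • z)) := by
        have := (G2_bd (hC.W' hx (√(1 - s))) (√s • z)).1
        unfold G2
        positivity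
      unfold uu
      nlinarith
    rw [r2, r1, ← log_int_exp hC hx2]
    refine Real.log_le_log ?_ r3
    rw [← r1, ← r2]
    exact integral_exp_pos (by
      have := E2 _ ((c11_uu hC hx s).eg_exp (2 * x))
      simp_rw [q2_po] at this
      exact this.integrable)
  -- the left side
  have hS : ∀ w, ∑ j, ω' j w * tD s bs3 cs (dd x s F D) j w =
      x * sq x s F D (q2 t0 t1 s w) +
        θ * x / s * cr x t0 t1 s F D (q0 t0 w) (q1 t0 t1 w) (q2 t0 t1 s w) := by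
    intro w
    have a2 := f2.sum fun e => x / s * dd x s F D e (q2 t0 t1 s w) ^ 2
    have a1 := f1.sum fun e => θ * x / s * (dd x s F D e (q2 t0 t1 s w) *
      dd x t1 F D e (q1 t0 t1 w))
    have a0 := f0.sum fun e => θ * x / s * (dd x s F D e (q2 t0 t1 s w) *
      dd x t0 F D e (q0 t0 w))
    have e1 : ∑ j, ω' j w * tD s bs3 cs (dd x s F D) j w =
        ∑ j, cs j ^ 2 * (x / s * dd x s F D (bs3 j) (q2 t0 t1 s w) ^ 2) +
        (∑ j, cs j * c1 j * (θ * x / s * (dd x s F D (bs3 j) (q2 t0 t1 s w) *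
          dd x t1 F D (bs3 j) (q1 t0 t1 w))) -
        ∑ j, cs j * c0 j * (θ * x / s * (dd x s F D (bs3 j) (q2 t0 t1 s w) *
          dd x t0 F D (bs3 j) (q0 t0 w)))) := by
      rw [← Finset.sum_sub_distrib, ← Finset.sum_add_distrib]
      refine Finset.sum_congr rfl fun j _ => ?_
      simp only [hω', tD]
      rw [hcs, ← q2_po, ← hcs]
      ring
    rw [e1, a2, a1, a0]
    unfold R1.sq G2 cr
    change s * ∑ e, x / s * dd x s F D e (q2 t0 t1 s w) ^ 2 + _ =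
      x * ∑ e, dd x s F D e (q2 t0 t1 s w) ^ 2 + _
    rw [← Finset.mul_sum, ← Finset.mul_sum, ← Finset.mul_sum]
    have e2 : ∑ e, dd x s F D e (q2 t0 t1 s w) * (t1 * dd x t1 F D e (q1 t0 t1 w) -
        t0 * dd x t0 F D e (q0 t0 w)) =
        t1 * ∑ e, dd x s F D e (q2 t0 t1 s w) * dd x t1 F D e (q1 t0 t1 w) -
        t0 * ∑ e, dd x s F D e (q2 t0 t1 s w) * dd x t0 F D e (q0 t0 w) := by
      rw [Finset.mul_sum, Finset.mul_sum, ← Finset.sum_sub_distrib]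
      exact Finset.sum_congr rfl fun e _ => by ring
    rw [e2]
    field_simp
  have gsq : E3 fun (_ _ z2 : κ → ℝ) => sq x s F D z2 := E3.of2 (c11_uu hC hx s).eg_G2
  have ghq : E3 fun (_ _ z2 : κ → ℝ) => hq x s F D HF z2 :=
    E3.of2 (EG.sum _ fun e _ => EG.sum _ fun i _ => (hU.egH e i).pow 2)
  have gxi := e3_xi hC hx t0 t1
  have gcr := e3_cr hC hx t0 t1 s
  have gom := e3_om hC hx θ t0 t1 s
  have hL : ∫ w : K3 κ → ℝ, Real.exp (ω w) * (2 * x * (uu x s F (po bs3 cs w) +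
      c * ∑ e, dd x s F D e (po bs3 cs w) ^ 2) - ω w -
      c * ∑ j, ω' j w * tD s bs3 cs (dd x s F D) j w -
      c ^ 2 / 2 * ((∑ e, dd x s F D e (po bs3 cs w) ^ 2) / s +
        ∑ e, ∑ i, hh x s F D HF e i (po bs3 cs w) ^ 2)) ∂(gI (K3 κ)) =
      Et x θ t0 t1 s F (om x θ t0 t1 s F) + 2 * Real.log Z -
        2 * θ * Et x θ t0 t1 s F (fun z0 z1 _ => xi x t0 t1 F z0 z1) +
        (c * x - c ^ 2 / 2 / s) * Qt x θ t0 t1 s F D -
        c * θ * x / s * Et x θ t0 t1 s F (cr x t0 t1 s F D) -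
        c ^ 2 / 2 * Et x θ t0 t1 s F (fun _ _ z2 => hq x s F D HF z2) := by
    have e3 : Et x θ t0 t1 s F (om x θ t0 t1 s F) + 2 * Real.log Z -
        2 * θ * Et x θ t0 t1 s F (fun z0 z1 _ => xi x t0 t1 F z0 z1) +
        (c * x - c ^ 2 / 2 / s) * Qt x θ t0 t1 s F D -
        c * θ * x / s * Et x θ t0 t1 s F (cr x t0 t1 s F D) -
        c ^ 2 / 2 * Et x θ t0 t1 s F (fun _ _ z2 => hq x s F D HF z2) =
        Et x θ t0 t1 s F (fun z0 z1 z2 => ((((om x θ t0 t1 s F z0 z1 z2 + 2 * Real.log Z) -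
          2 * θ * xi x t0 t1 F z0 z1) + (c * x - c ^ 2 / 2 / s) * sq x s F D z2) -
          c * θ * x / s * cr x t0 t1 s F D z0 z1 z2) - c ^ 2 / 2 * hq x s F D HF z2) := by
      rw [Et_sub hC hx (((((gom.add (E3.const _)).sub (gxi.const_mul _)).add
        (gsq.const_mul _)).sub (gcr.const_mul _))) (ghq.const_mul _),
        Et_sub hC hx ((((gom.add (E3.const _)).sub (gxi.const_mul _)).add
        (gsq.const_mul _))) (gcr.const_mul _),
        Et_add hC hx (((gom.add (E3.const _)).sub (gxi.const_mul _))) (gsq.const_mul _),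
        Et_sub hC hx (gom.add (E3.const _)) (gxi.const_mul _),
        Et_add hC hx gom (E3.const _), Et_const hC hx, Et_const_mul, Et_const_mul, Et_const_mul,
        Et_const_mul]
      rfl
    rw [e3, ← int_om hC hx]
    refine integral_congr_ae (Filter.Eventually.of_forall fun w => ?_)
    simp only
    rw [hS w, hcs, ← q2_po]
    simp only [hω]
    congr 1
    have e4 : ∑ e, dd x s F D e (q2 t0 t1 s w) ^ 2 = sq x s F D (q2 t0 t1 s w) := rfl
    have e5 : ∑ e, ∑ i, hh x s F D HF e i (q2 t0 t1 s w) ^ 2 = hq x s F D HF (q2 t0 t1 s w) := rfl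
    rw [e4, e5]
    have e6 : 2 * x * uu x s F (q2 t0 t1 s w) =
        2 * om x θ t0 t1 s F (q0 t0 w) (q1 t0 t1 w) (q2 t0 t1 s w) -
        2 * θ * xi x t0 t1 F (q0 t0 w) (q1 t0 t1 w) + 2 * Real.log Z := by
      simp only [om, hZ]
      ring
    have e7 : 2 * x * (uu x s F (q2 t0 t1 s w) + c * sq x s F D (q2 t0 t1 s w)) =
        2 * om x θ t0 t1 s F (q0 t0 w) (q1 t0 t1 w) (q2 t0 t1 s w) -
        2 * θ * xi x t0 t1 F (q0 t0 w) (q1 t0 t1 w) + 2 * Real.log Z +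
          2 * x * c * sq x s F D (q2 t0 t1 s w) := by rw [mul_add, e6]; ring
    rw [e7]
    ring
  rw [hL] at key
  have hlogZ : Real.log Z = x * phi x F + Lth x θ t0 t1 F := by
    rw [hZ, Eu_one hC hx h1 hs, Real.log_exp]
  have hphi := mul_le_mul_of_nonneg_left (phi_two_le hC hc hx) hx2.le
  have hent := Et_om_nonneg (θ := θ) (t0 := t0) (t1 := t1) (s := s) hC hx
  have e8 : 2 * x * (W (2 * x) 1 F 0 - W x 1 F 0) = 2 * x * phi (2 * x) F - 2 * (x * phi x F) := by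
    unfold phi; ring
  have e9 : 2 * x * (x / 2 * ∫ t in (0 : ℝ)..1, Phi (2 * x) F D t) = x ^ 2 * GG (2 * x) F D := by
    unfold GG; ring
  rw [e8, e9] at hphi
  rw [hlogZ] at key
  have e10 : c ^ 2 / 2 * (Qt x θ t0 t1 s F D / s +
        Et x θ t0 t1 s F (fun _ _ z2 => hq x s F D HF z2)) =
      c ^ 2 / 2 / s * Qt x θ t0 t1 s F D +
        c ^ 2 / 2 * Et x θ t0 t1 s F (fun _ _ z2 => hq x s F D HF z2) := by
    field_simp
  rw [e10]
  linarith [key.trans hR]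

/-! ### the gradient is a martingale under `P_θ` -/

lemma Eu_mart {ψ : (κ → ℝ) → (κ → ℝ) → ℝ} (h : C11 F D B L) (hx : 0 < x)
    (hψ : E3 fun z0 z1 _ => ψ z0 z1) (h1 : t1 ≤ s) (hs : s ≤ 1) (e : κ) :
    Eu x θ t0 t1 s F (fun z0 z1 z2 => ψ z0 z1 * dd x s F D e z2) =
      Eu x θ t0 t1 s F (fun z0 z1 _ => ψ z0 z1 * dd x t1 F D e z1) := by
  rw [Eu_iter h hx (hψ.mul (E3.of2 (eg_dd' h hx s e))),
    Eu_fst (ψ := fun z0 z1 => ψ z0 z1 * dd x t1 F D e z1) h hx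
      (hψ.mul (E3.of1 (eg_dd' h hx t1 e))) h1 hs]
  refine integral_congr_ae (Filter.Eventually.of_forall fun y0 => ?_)
  refine integral_congr_ae (Filter.Eventually.of_forall fun y1 => ?_)
  simp only
  set z0 := √t0 • y0 with hz0
  set z1 := z0 + √(t1 - t0) • y1 with hz1
  have hb : √(s - t1) ^ 2 + √(1 - s) ^ 2 = √(1 - t1) ^ 2 := by
    rw [Real.sq_sqrt (by linarith), Real.sq_sqrt (by linarith), Real.sq_sqrt (by linarith)]
    ring
  have e1 := DW_step h hx hb e z1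
  rw [← exp_W_step h hx hb, eq_div_iff (Real.exp_pos _).ne'] at e1
  have e2 : ∀ y2 : κ → ℝ, dn x θ t0 t1 s F z0 z1 (z1 + √(s - t1) • y2) *
      (ψ z0 z1 * dd x s F D e (z1 + √(s - t1) • y2)) =
      (Real.exp (θ * xi x t0 t1 F z0 z1) * ψ z0 z1) *
        (Real.exp (x * W x (√(1 - s)) F (z1 + √(s - t1) • y2)) *
          DW x (√(1 - s)) F D e (z1 + √(s - t1) • y2)) := by
    intro y2
    unfold dn uu dd
    rw [Real.exp_add]
    ring
  simp_rw [e2]
  rw [integral_const_mul, ← e1, Real.exp_add]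
  unfold uu dd
  ring

lemma Et_mart {ψ : (κ → ℝ) → (κ → ℝ) → ℝ} (h : C11 F D B L) (hx : 0 < x)
    (hψ : E3 fun z0 z1 _ => ψ z0 z1) (h1 : t1 ≤ s) (hs : s ≤ 1) (e : κ) :
    Et x θ t0 t1 s F (fun z0 z1 z2 => ψ z0 z1 * dd x s F D e z2) =
      Et x θ t0 t1 s F (fun z0 z1 _ => ψ z0 z1 * dd x t1 F D e z1) := by
  unfold Et
  rw [Eu_mart h hx hψ h1 hs]

lemma Et_sum {ι : Type*} (S : Finset ι) (h : C11 F D B L) (hx : 0 < x)
    {Φ : ι → (κ → ℝ) → (κ → ℝ) → (κ → ℝ) → ℝ} (hΦ : ∀ i ∈ S, E3 (Φ i)) :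
    Et x θ t0 t1 s F (fun z0 z1 z2 => ∑ i ∈ S, Φ i z0 z1 z2) =
      ∑ i ∈ S, Et x θ t0 t1 s F (Φ i) := by
  classical
  induction S using Finset.induction_on with
  | empty => simpa using Et_const (θ := θ) (t0 := t0) (t1 := t1) (s := s) h hx 0
  | insert a S ha ih =>
    simp only [Finset.sum_insert ha]
    rw [Et_add h hx (hΦ a (Finset.mem_insert_self a S))
      (E3.sum' S fun i hi => hΦ i (Finset.mem_insert_of_mem hi)),
      ih fun i hi => hΦ i (Finset.mem_insert_of_mem hi)]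

/-- `E_θ D_s · D_{t1} = E_θ |D_{t1}|²` -/
lemma Et_dot1 (h : C11 F D B L) (hx : 0 < x) (h1 : t1 ≤ s) (hs : s ≤ 1) :
    Et x θ t0 t1 s F (fun _ z1 z2 => ∑ e, dd x t1 F D e z1 * dd x s F D e z2) =
      Et x θ t0 t1 s F (fun _ z1 _ => sq x t1 F D z1) := by
  rw [Et_sum _ h hx fun e _ => (E3.of1 (eg_dd' h hx t1 e)).mul (E3.of2 (eg_dd' h hx s e))]
  have e1 : (fun (_ z1 _ : κ → ℝ) => sq x t1 F D z1) =
      fun _ z1 _ => ∑ e, dd x t1 F D e z1 * dd x t1 F D e z1 := by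
    funext z0 z1 z2
    exact Finset.sum_congr rfl fun e _ => sq (dd x t1 F D e z1)
  rw [e1, Et_sum _ h hx fun e _ => (E3.of1 (eg_dd' h hx t1 e)).mul (E3.of1 (eg_dd' h hx t1 e))]
  exact Finset.sum_congr rfl fun e _ =>
    Et_mart (ψ := fun _ z1 => dd x t1 F D e z1) h hx (E3.of1 (eg_dd' h hx t1 e)) h1 hs e

/-- `Q_θ(t1) ≤ Q_θ(s)` -/
lemma Et_sq1_le (h : C11 F D B L) (hx : 0 < x) (h1 : t1 ≤ s) (hs : s ≤ 1) :
    Et x θ t0 t1 s F (fun _ z1 _ => sq x t1 F D z1) ≤ Qt x θ t0 t1 s F D := by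
  have h2 := Et_nonneg (θ := θ) (t0 := t0) (t1 := t1) (s := s) h hx
    (Ψ := fun _ z1 z2 => ∑ e, (dd x s F D e z2 - dd x t1 F D e z1) ^ 2)
    (fun _ _ _ => Finset.sum_nonneg fun _ _ => sq_nonneg _)
  have e1 : (fun (_ z1 z2 : κ → ℝ) => ∑ e, (dd x s F D e z2 - dd x t1 F D e z1) ^ 2) =
      fun _ z1 z2 => (sq x s F D z2 + sq x t1 F D z1) +
        -2 * ∑ e, dd x t1 F D e z1 * dd x s F D e z2 := by
    funext z0 z1 z2
    change _ = (∑ e, dd x s F D e z2 ^ 2 + ∑ e, dd x t1 F D e z1 ^ 2) + _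
    rw [Finset.mul_sum, ← Finset.sum_add_distrib, ← Finset.sum_add_distrib]
    exact Finset.sum_congr rfl fun e _ => by ring
  have g2 : E3 fun (_ _ z2 : κ → ℝ) => sq x s F D z2 := E3.of2 (c11_uu h hx s).eg_G2
  have g1 : E3 fun (_ z1 _ : κ → ℝ) => sq x t1 F D z1 := E3.of1 (c11_uu h hx t1).eg_G2
  have g3 : E3 fun (_ z1 z2 : κ → ℝ) => ∑ e, dd x t1 F D e z1 * dd x s F D e z2 :=
    E3.sum' _ fun e _ => (E3.of1 (eg_dd' h hx t1 e)).mul (E3.of2 (eg_dd' h hx s e))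
  rw [e1, Et_add h hx (g2.add g1) (g3.const_mul _), Et_add h hx g2 g1, Et_const_mul,
    Et_dot1 h hx h1 hs] at h2
  unfold Qt
  linarith

/-- Averages of nonnegative scalar products. -/
lemma dd_pair (h : C11 F D B L) (hK : ∀ y y', -K ≤ ∑ e, D e y * D e y') (t t' : ℝ)
    (z z' : κ → ℝ) : -K ≤ ∑ e, dd x t F D e z * dd x t' F D e z' := by
  have key : ∀ (a : κ → ℝ) (r : ℝ) (u : κ → ℝ), (∀ y, -K ≤ ∑ e, D e y * a e) →
      -K ≤ ∑ e, dd x r F D e u * a e := by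
    intro a r u ha
    have g : ∀ e, EG fun y => a e * D e y := fun e => (h.eg_D e).const_mul _
    have e1 : ew x r F (fun y => ∑ e, a e * D e y) u = ∑ e, dd x r F D e u * a e := by
      rw [ew_sum _ h fun e _ => g e]
      refine Finset.sum_congr rfl fun e _ => ?_
      rw [ew_const_mul, dd_eq, mul_comm]
    rw [← e1, ← ew_const (x := x) (t := r) h (-K) u]
    refine ew_mono h (EG.const _) (EG.sum _ fun e _ => g e) (fun y => ?_) u
    refine (ha y).trans_eq (Finset.sum_congr rfl fun e _ => by ring)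
  refine key _ t z fun y => ?_
  have := key (fun e => D e y) t' z' fun y' => (hK y' y)
  refine this.trans_eq (Finset.sum_congr rfl fun e _ => by ring)

/-- The cross term is at most `s (Q + K)`. -/
lemma Et_cr_le (h : C11 F D B L) (hx : 0 < x) (h0 : 0 ≤ t0) (h01 : t0 ≤ t1) (h1 : t1 ≤ s)
    (hs : s ≤ 1) (hK0 : 0 ≤ K) (hK : ∀ y y', -K ≤ ∑ e, D e y * D e y') :
    Et x θ t0 t1 s F (cr x t0 t1 s F D) ≤ s * (Qt x θ t0 t1 s F D + K) := by
  have g3 : E3 fun (_ z1 z2 : κ → ℝ) => ∑ e, dd x t1 F D e z1 * dd x s F D e z2 :=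
    E3.sum' _ fun e _ => (E3.of1 (eg_dd' h hx t1 e)).mul (E3.of2 (eg_dd' h hx s e))
  have h2 : Et x θ t0 t1 s F (cr x t0 t1 s F D) ≤ Et x θ t0 t1 s F
      (fun _ z1 z2 => t1 * (∑ e, dd x t1 F D e z1 * dd x s F D e z2) + t0 * K) := by
    refine Et_mono h hx (e3_cr h hx t0 t1 s) ((g3.const_mul _).add (E3.const _))
      fun z0 z1 z2 => ?_
    have h3 := mul_le_mul_of_nonneg_left (dd_pair (x := x) h hK s t0 z2 z0) h0
    have e1 : cr x t0 t1 s F D z0 z1 z2 = t1 * (∑ e, dd x t1 F D e z1 * dd x s F D e z2) -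
        t0 * ∑ e, dd x s F D e z2 * dd x t0 F D e z0 := by
      unfold cr
      rw [Finset.mul_sum, Finset.mul_sum, ← Finset.sum_sub_distrib]
      exact Finset.sum_congr rfl fun e _ => by ring
    rw [e1]
    linarith
  rw [Et_add h hx (g3.const_mul _) (E3.const _), Et_const h hx, Et_const_mul,
    Et_dot1 h hx h1 hs] at h2
  have h3 := Et_sq1_le (θ := θ) (t0 := t0) h hx h1 hs
  have h4 : 0 ≤ Et x θ t0 t1 s F (fun _ z1 _ => sq x t1 F D z1) :=
    Et_nonneg h hx fun _ z1 _ => Finset.sum_nonneg fun _ _ => sq_nonneg _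
  nlinarith

/-- **The growth inequality (star).** -/
theorem star (h : C2 F D HF B L B2) (hc : Cv F) (hx : 0 < x) (h0 : 0 ≤ t0) (h01 : t0 ≤ t1)
    (h1 : t1 ≤ s) (hs0 : 0 < s) (hs : s ≤ 1) (hθ : 0 ≤ θ) (hK0 : 0 ≤ K)
    (hK : ∀ y y', -K ≤ ∑ e, D e y * D e y') (hL : 0 ≤ Lth x θ t0 t1 F)
    (hL2 : Lth x (2 * θ) t0 t1 F ≤ 1 / 16 * (x ^ 2 * GG (2 * x) F D))
    (hQ : θ * (Qt x θ t0 t1 s F D + K) ≤ 1 / 4 * Qt x θ t0 t1 s F D) :
    5 / 32 * Qt x θ t0 t1 s F D ^ 2 / GG (2 * x) F D ≤ Qt x θ t0 t1 s F D / s +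
      Et x θ t0 t1 s F (fun _ _ z2 => hq x s F D HF z2) := by
  have hC := h.c1
  set Q := Qt x θ t0 t1 s F D with hQd
  set G := GG (2 * x) F D with hG
  set A := Q / s + Et x θ t0 t1 s F (fun _ _ z2 => hq x s F D HF z2) with hA
  have hQ0 : 0 ≤ Q := Et_nonneg hC hx fun _ _ z2 => Finset.sum_nonneg fun _ _ => sq_nonneg _
  have hA0 : 0 ≤ A := add_nonneg (div_nonneg hQ0 hs0.le) (Et_nonneg hC hx fun _ _ z2 =>
    Finset.sum_nonneg fun _ _ => Finset.sum_nonneg fun _ _ => sq_nonneg _)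
  have hx2 : 0 < 2 * x := by positivity
  have hG0 : 0 ≤ G := intervalIntegral.integral_nonneg zero_le_one fun t ht =>
    (Phi_bd hC hx2 ht).1
  rcases hQ0.eq_or_lt with hq | hq
  · rw [← hq]
    simpa using hA0
  rcases hG0.eq_or_lt with hg | hg
  · rw [← hg]
    simpa using hA0
  set c : ℝ := 2 * x * G / Q with hcd
  have hc0 : 0 ≤ c := by positivity
  have k1 := star_raw (θ := θ) h hc hx h0 h01 h1 hs0 hs hc0
  have k2 := theta_xi_le hC hx h0 h01 h1 hs θ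
  have k3 := Et_cr_le (θ := θ) hC hx h0 h01 h1 hs hK0 hK
  rw [← hQd, ← hA, ← hG] at k1
  rw [← hQd] at k3
  have k4 : c * θ * x / s * Et x θ t0 t1 s F (cr x t0 t1 s F D) ≤ c * x * (1 / 4 * Q) := by
    have h5 : c * θ * x / s * Et x θ t0 t1 s F (cr x t0 t1 s F D) ≤
        c * θ * x / s * (s * (Q + K)) := mul_le_mul_of_nonneg_left k3 (by positivity)
    have h6 : c * θ * x / s * (s * (Q + K)) = c * x * (θ * (Q + K)) := by field_simp
    rw [h6] at h5
    exact h5.trans (mul_le_mul_of_nonneg_left hQ (by positivity))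
  have k5 : c * x * Q = 2 * (x ^ 2 * G) := by
    rw [hcd]; field_simp
  have k6 : c ^ 2 / 2 * A = 2 * (x ^ 2 * G) * (G * A / Q ^ 2) := by
    rw [hcd]; field_simp
  have k7 : c * x * (1 / 4 * Q) = 1 / 4 * (2 * (x ^ 2 * G)) := by rw [← k5]; ring
  rw [k7] at k4
  rw [k5, k6] at k1
  have hxG : 0 < x ^ 2 * G := by positivity
  have k8 : 3 / 16 ≤ G * A / Q ^ 2 := by
    by_contra hcon
    push Not at hcon
    have := mul_lt_mul_of_pos_left hcon (show 0 < 2 * (x ^ 2 * G) by positivity)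
    nlinarith
  rw [div_le_iff₀ hg]
  rw [le_div_iff₀ (by positivity)] at k8
  nlinarith [sq_nonneg Q]

/-- The regularity class of `H713/Hess.lean` gives the one of `H785/Hes.lean`. -/
lemma sm_c2 {H T : κ → κ → (κ → ℝ) → ℝ} {M : ℝ} (h : Sm F D B L H T M) (hc : Cv F) :
    C2 F D H B L M :=
  ⟨h.c11, fun e z => (h.cD e).fd z, fun e i => (h.eH e i).meas, h.bH, h.sy,
    fun z v => vH_nonneg h hc v z⟩

end Vale.Agent.P146.H785
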