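import Vale.Agent.P146.H350.F2Kap
import Vale.Agent.P146.H941.F01

/-!
Plan R2, row F2: the numbers of (F2*) (350's `n2row`, `m2row`) after the replacement of the frozen
matrices by the matrices `C1`, `C2` themselves: matrix form of the sum over the rows.
-/

open MeasureTheory ProbabilityTheory Finset Matrix

namespace Vale.Agent.P146.H785.F2N

open Vale.Agent.P157.Lv Vale.Agent.P146.H425 Vale.Agent.P146.H325 Vale.Agent.P146.H332
  Vale.Agent.P146.H712 Vale.Agent.P146.R1 Vale.Agent.P146.R1C Vale.Agent.P146.H706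
  Vale.Agent.P146.R1S Vale.Agent.P146.H191 Vale.Agent.P146.H350 Vale.Agent.P146.H941

set_option linter.unusedSectionVars false

section mat

variable {n : ℕ}

/-- the rows of two matrices -/
lemma sum_dt (P Q : Matrix (Fin n) (Fin n) ℝ) :
    ∑ b, dt (fun i => P i b) (fun i => Q i b) = (Pᵀ * Q).trace := by
  unfold dt
  simp only [Matrix.trace, Matrix.diag_apply, Matrix.mul_apply, Matrix.transpose_apply]

lemma mv_col (M X : Matrix (Fin n) (Fin n) ℝ) (b : Fin n) :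
    mv M (fun i => X i b) = fun i => (M * X) i b := by
  funext i
  unfold mv
  rw [Matrix.mul_apply]

variable (A B D : Matrix (Fin n) (Fin n) ℝ)

/-- The commutator form `tr (K' C2 K)`, `K = C1 C2 - C2 C1`. -/
noncomputable def K3 : ℝ := ((A * B - B * A)ᵀ * (B * (A * B - B * A))).trace

/-- The base form `tr (D C1 C2² C1) + r tr (D C2 C1² C2) - 2 tr (C1² C2² D)`. -/
noncomputable def bs3 (r : ℝ) : ℝ :=
  (D * (A * (B * B) * A)).trace + r * (D * (B * (A * A) * B)).trace -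
    2 * (A * A * (B * B) * D).trace

variable {A B D}

lemma K3_eq (hA : Aᵀ = A) (hB : Bᵀ = B) :
    K3 A B = (A * (A * (B * (B * B)))).trace - (A * (B * (B * (A * B)))).trace := by
  unfold K3
  rw [Matrix.transpose_sub, Matrix.transpose_mul, Matrix.transpose_mul, hA, hB]
  simp only [Matrix.sub_mul, Matrix.mul_sub, Matrix.trace_sub, Matrix.mul_assoc]
  have c1 : (B * (A * (B * (A * B)))).trace = (A * (B * (B * (A * B)))).trace := by
    have h1 := Matrix.trace_mul_comm (B * (A * B)) (A * B)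
    simp only [Matrix.mul_assoc] at h1
    rw [h1]
  have c2 : (B * (A * (B * (B * A)))).trace = (A * (B * (B * (A * B)))).trace := by
    have h4 := Matrix.trace_mul_comm B (A * (B * (B * A)))
    simp only [Matrix.mul_assoc] at h4
    exact h4
  have c3 : (A * (B * (B * (B * A)))).trace = (A * (A * (B * (B * B)))).trace := by
    have h4 := Matrix.trace_mul_comm (A * (B * (B * B))) A
    simp only [Matrix.mul_assoc] at h4
    exact h4
  rw [c1, c2, c3]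
  ring

/-- the `U`-part -/
lemma partU (hA : Aᵀ = A) (hB : Bᵀ = B) (r : ℝ) :
    ((B * (A - 1))ᵀ * (B * (A - 1))).trace + r * ((A * (B - 1))ᵀ * (A * (B - 1))).trace -
      2 * ((A * (A - 1))ᵀ * (B * (B - 1))).trace = ((B - A) * (B - A)).trace -
      (1 - r) * ((A * (A * (B * B))).trace - 2 * (A * (A * B)).trace + (A * A).trace) := by
  simp only [Matrix.transpose_mul, Matrix.transpose_sub, Matrix.transpose_one, hA, hB]
  simp only [Matrix.sub_mul, Matrix.mul_sub, Matrix.trace_sub, Matrix.mul_assoc, Matrix.one_mul,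
    Matrix.mul_one]
  have c1 : (A * (B * (B * A))).trace = (A * (A * (B * B))).trace := by
    simpa only [Matrix.mul_assoc] using Matrix.trace_mul_comm (A * (B * B)) A
  have c2 : (B * (A * (A * B))).trace = (A * (A * (B * B))).trace := by
    simpa only [Matrix.mul_assoc] using Matrix.trace_mul_comm B (A * (A * B))
  have c3 : (B * (B * A)).trace = (A * (B * B)).trace := by
    simpa only [Matrix.mul_assoc] using Matrix.trace_mul_comm (B * B) A
  have c4 : (B * (A * A)).trace = (A * (A * B)).trace := by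
    simpa only [Matrix.mul_assoc] using Matrix.trace_mul_comm B (A * A)
  have c5 : (B * A).trace = (A * B).trace := Matrix.trace_mul_comm B A
  rw [c1, c2, c3, c4, c5]
  ring

/-- The error of the diagonal in the drift part. -/
noncomputable def eD (f1 f2 fD xt1 : ℝ) : ℝ :=
  xt1 * (f1 ^ 2 * f2 ^ 2 + f1 * f2 ^ 3 + f1 * f2 ^ 2 + f1 ^ 2 * f2) +
    fD * (f1 * f2 ^ 2 + 3 * (f1 ^ 2 * f2))

lemma tr_pair_le (X Y : Matrix (Fin n) (Fin n) ℝ) :
    |(X * Y).trace| ≤ H191.fro X * H191.fro Y := by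
  rw [tr_two]
  have e2 : ∑ i, ∑ l, X i l * Y l i = ∑ i, ∑ l, X i l * (fun i l => Y l i) i l := rfl
  rw [e2]
  refine (cs_fro _ _).trans ?_
  have h1 : H191.fro (fun i l => Y l i) = H191.fro Y := by
    unfold H191.fro
    rw [Finset.sum_comm]
  rw [h1]

lemma fro_mulm (X Y : Matrix (Fin n) (Fin n) ℝ) :
    H191.fro (X * Y) ≤ H191.fro X * H191.fro Y := by
  have h := fro_mul X Y
  have e : (fun i j => ∑ l, X i l * Y l j) = (X * Y) := by
    funext i j
    rw [Matrix.mul_apply]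
  rw [e] at h
  exact h

lemma tr3_le (X Y Z : Matrix (Fin n) (Fin n) ℝ) :
    |(X * (Y * Z)).trace| ≤ H191.fro X * (H191.fro Y * H191.fro Z) :=
  (tr_pair_le _ _).trans (mul_le_mul_of_nonneg_left (fro_mulm _ _) (H191.fro_nonneg _))

lemma tr4_le (X Y Z W : Matrix (Fin n) (Fin n) ℝ) :
    |(X * (Y * (Z * W))).trace| ≤ H191.fro X * (H191.fro Y * (H191.fro Z * H191.fro W)) :=
  (tr3_le _ _ _).trans (mul_le_mul_of_nonneg_left (mul_le_mul_of_nonneg_left (fro_mulm _ _)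
    (H191.fro_nonneg _)) (H191.fro_nonneg _))

/-- the drift part -/
lemma partD (hA : Aᵀ = A) (hB : Bᵀ = B) (hD : Dᵀ = D) {xt1 xt2 k r : ℝ} (hx1 : 0 ≤ xt1)
    (hr : r * xt2 = xt1) (hr0 : 0 ≤ r) (hr1 : r ≤ 1) :
    |((B * (A - 1))ᵀ * (B * (A * (k • (xt1 • (B - 1) - D))))).trace +
      r * ((A * (B - 1))ᵀ * (A * (B * (k • (xt2 • (B - 1) - D))))).trace -
      2 * ((A * (A * (k • (xt1 • (B - 1) - D))))ᵀ * (B * (B - 1))).trace -
      k * (-(xt1 * K3 A B) - bs3 A B D r)| ≤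
      |k| * eD (H191.fro A) (H191.fro B) (H191.fro D) xt1 := by
  have c1 : ((B * (A - 1))ᵀ * (B * (A * (k • (xt1 • (B - 1) - D))))).trace =
      k * (xt1 * ((A * (B * (B * (A * B)))).trace - (A * (A * (B * B))).trace -
        (A * (B * (B * B))).trace + (A * (B * B)).trace) -
        ((D * (A * (B * (B * A)))).trace - (B * (B * (A * D))).trace)) := by
    simp only [Matrix.transpose_mul, Matrix.transpose_sub, Matrix.transpose_one, hA, hB]
    simp only [Matrix.sub_mul, Matrix.mul_sub, Matrix.smul_mul, Matrix.mul_smul, Matrix.trace_sub,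
      Matrix.trace_smul, Matrix.mul_assoc, Matrix.one_mul, Matrix.mul_one, smul_eq_mul]
    have h1 : (A * (B * (B * A))).trace = (A * (A * (B * B))).trace := by
      simpa only [Matrix.mul_assoc] using Matrix.trace_mul_comm (A * (B * B)) A
    have h2 : (B * (B * (A * B))).trace = (A * (B * (B * B))).trace := by
      simpa only [Matrix.mul_assoc] using Matrix.trace_mul_comm (B * B) (A * B)
    have h3 : (B * (B * A)).trace = (A * (B * B)).trace := by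
      simpa only [Matrix.mul_assoc] using Matrix.trace_mul_comm (B * B) A
    have h4 : (A * (B * (B * (A * D)))).trace = (D * (A * (B * (B * A)))).trace := by
      simpa only [Matrix.mul_assoc] using Matrix.trace_mul_comm (A * (B * (B * A))) D
    rw [h1, h2, h3, h4]
    ring
  have c2 : ((A * (B - 1))ᵀ * (A * (B * (k • (xt2 • (B - 1) - D))))).trace =
      k * (xt2 * ((A * (A * (B * (B * B)))).trace - 2 * (A * (A * (B * B))).trace +
        (A * (A * B)).trace) -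
        ((D * (B * (A * (A * B)))).trace - (A * (A * (B * D))).trace)) := by
    simp only [Matrix.transpose_mul, Matrix.transpose_sub, Matrix.transpose_one, hA, hB]
    simp only [Matrix.sub_mul, Matrix.mul_sub, Matrix.smul_mul, Matrix.mul_smul, Matrix.trace_sub,
      Matrix.trace_smul, Matrix.mul_assoc, Matrix.one_mul, Matrix.mul_one, smul_eq_mul]
    have h1 : (B * (A * (A * (B * B)))).trace = (A * (A * (B * (B * B)))).trace := by
      simpa only [Matrix.mul_assoc] using Matrix.trace_mul_comm B (A * (A * (B * B)))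
    have h2 : (B * (A * (A * B))).trace = (A * (A * (B * B))).trace := by
      simpa only [Matrix.mul_assoc] using Matrix.trace_mul_comm B (A * (A * B))
    have h4 : (B * (A * (A * (B * D)))).trace = (D * (B * (A * (A * B)))).trace := by
      simpa only [Matrix.mul_assoc] using Matrix.trace_mul_comm (B * (A * (A * B))) D
    rw [h1, h2, h4]
    ring
  have c3 : ((A * (A * (k • (xt1 • (B - 1) - D))))ᵀ * (B * (B - 1))).trace =
      k * (xt1 * ((A * (A * (B * (B * B)))).trace - 2 * (A * (A * (B * B))).trace +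
        (A * (A * B)).trace) -
        ((A * (A * (B * (B * D)))).trace - (D * (A * (A * B))).trace)) := by
    simp only [Matrix.transpose_mul, Matrix.transpose_sub, Matrix.transpose_smul,
      Matrix.transpose_one, hA, hB, hD]
    simp only [Matrix.sub_mul, Matrix.mul_sub, Matrix.smul_mul, Matrix.mul_smul, Matrix.trace_sub,
      Matrix.trace_smul, Matrix.mul_assoc, Matrix.one_mul, Matrix.mul_one, smul_eq_mul]
    have h1 : (B * (A * (A * (B * B)))).trace = (A * (A * (B * (B * B)))).trace := by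
      simpa only [Matrix.mul_assoc] using Matrix.trace_mul_comm B (A * (A * (B * B)))
    have h2 : (B * (A * (A * B))).trace = (A * (A * (B * B))).trace := by
      simpa only [Matrix.mul_assoc] using Matrix.trace_mul_comm B (A * (A * B))
    have h4 : (D * (A * (A * (B * B)))).trace = (A * (A * (B * (B * D)))).trace := by
      simpa only [Matrix.mul_assoc] using Matrix.trace_mul_comm D (A * (A * (B * B)))
    rw [h1, h2, h4]
    ring
  have hbs : bs3 A B D r = (D * (A * (B * (B * A)))).trace +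
      r * (D * (B * (A * (A * B)))).trace - 2 * (A * (A * (B * (B * D)))).trace := by
    unfold bs3
    simp only [Matrix.mul_assoc]
  rw [c1, c2, c3, hbs, K3_eq hA hB]
  have e : k * (xt1 * ((A * (B * (B * (A * B)))).trace - (A * (A * (B * B))).trace -
        (A * (B * (B * B))).trace + (A * (B * B)).trace) -
        ((D * (A * (B * (B * A)))).trace - (B * (B * (A * D))).trace)) +
      r * (k * (xt2 * ((A * (A * (B * (B * B)))).trace - 2 * (A * (A * (B * B))).trace +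
        (A * (A * B)).trace) -
        ((D * (B * (A * (A * B)))).trace - (A * (A * (B * D))).trace))) -
      2 * (k * (xt1 * ((A * (A * (B * (B * B)))).trace - 2 * (A * (A * (B * B))).trace +
        (A * (A * B)).trace) -
        ((A * (A * (B * (B * D)))).trace - (D * (A * (A * B))).trace))) -
      k * (-(xt1 * ((A * (A * (B * (B * B)))).trace - (A * (B * (B * (A * B)))).trace)) -
        ((D * (A * (B * (B * A)))).trace + r * (D * (B * (A * (A * B)))).trace -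
      2 * (A * (A * (B * (B * D)))).trace)) =
      k * (xt1 * ((A * (A * (B * B))).trace - (A * (B * (B * B))).trace + (A * (B * B)).trace -
          (A * (A * B)).trace) +
        ((B * (B * (A * D))).trace + r * (A * (A * (B * D))).trace -
          2 * (D * (A * (A * B))).trace)) := by
    linear_combination k * ((A * (A * (B * (B * B)))).trace - 2 * (A * (A * (B * B))).trace +
      (A * (A * B)).trace) * hr
  rw [e, abs_mul]
  refine mul_le_mul_of_nonneg_left ?_ (abs_nonneg k)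
  set f1 := H191.fro A
  set f2 := H191.fro B
  set fD := H191.fro D
  have t1 : |(A * (A * (B * B))).trace| ≤ f1 ^ 2 * f2 ^ 2 := (tr4_le A A B B).trans (le_of_eq (by ring))
  have t2 : |(A * (B * (B * B))).trace| ≤ f1 * f2 ^ 3 := (tr4_le A B B B).trans (le_of_eq (by ring))
  have t3 : |(A * (B * B)).trace| ≤ f1 * f2 ^ 2 := (tr3_le A B B).trans (le_of_eq (by ring))
  have t4 : |(A * (A * B)).trace| ≤ f1 ^ 2 * f2 := (tr3_le A A B).trans (le_of_eq (by ring))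
  have t5 : |(B * (B * (A * D))).trace| ≤ fD * (f1 * f2 ^ 2) :=
    (tr4_le B B A D).trans (le_of_eq (by ring))
  have t6 : |(A * (A * (B * D))).trace| ≤ fD * (f1 ^ 2 * f2) :=
    (tr4_le A A B D).trans (le_of_eq (by ring))
  have t7 : |(D * (A * (A * B))).trace| ≤ fD * (f1 ^ 2 * f2) :=
    (tr4_le D A A B).trans (le_of_eq (by ring))
  have hf : 0 ≤ fD * (f1 ^ 2 * f2) := (abs_nonneg _).trans t7
  unfold eD
  refine (abs_add_le _ _).trans (add_le_add ?_ ?_)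
  · rw [abs_mul, abs_of_nonneg hx1]
    refine mul_le_mul_of_nonneg_left ?_ hx1
    refine (abs_sub _ _).trans (add_le_add ((abs_add_le _ _).trans (add_le_add
      ((abs_sub _ _).trans (add_le_add t1 t2)) t3)) t4)
  · refine (abs_sub _ _).trans ?_
    rw [abs_mul, abs_of_pos (by norm_num : (0 : ℝ) < 2)]
    have h1 := abs_add_le (B * (B * (A * D))).trace (r * (A * (A * (B * D))).trace)
    rw [abs_mul, abs_of_nonneg hr0] at h1
    have h2 : r * |(A * (A * (B * D))).trace| ≤ 1 * (fD * (f1 ^ 2 * f2)) :=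
      mul_le_mul hr1 t6 (abs_nonneg _) zero_le_one
    linarith

/-- the base form and multiples of the identity -/
lemma bs3_sub_one (c r : ℝ) :
    bs3 A B (D - c • 1) r = bs3 A B D r + c * (1 - r) * (A * (A * (B * B))).trace := by
  unfold bs3
  simp only [Matrix.sub_mul, Matrix.mul_sub, Matrix.smul_mul, Matrix.mul_smul, Matrix.trace_sub,
    Matrix.trace_smul, Matrix.mul_assoc, Matrix.one_mul, Matrix.mul_one, smul_eq_mul]
  have h1 : (A * (B * (B * A))).trace = (A * (A * (B * B))).trace := by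
    simpa only [Matrix.mul_assoc] using Matrix.trace_mul_comm (A * (B * B)) A
  have h2 : (B * (A * (A * B))).trace = (A * (A * (B * B))).trace := by
    simpa only [Matrix.mul_assoc] using Matrix.trace_mul_comm B (A * (A * B))
  rw [h1, h2]
  ring

end mat

section row

variable {n : ℕ} {k x : ℝ} {S : CS n k x} {s1 s2 β : ℝ} {a1 a2 : Fin 4 → ℝ}
  {φ χ : (K4 (Pair n) → ℝ) → ℝ} {ψ' : K4 (Pair n) → (K4 (Pair n) → ℝ) → ℝ} {xt1 xt2 : ℝ} {B : MF n}

/-- The matrix at the position, as a function of the coordinates. -/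
noncomputable abbrev Cf (S : CS n k x) (s : ℝ) (a : Fin 4 → ℝ) : MF n := fun w i j =>
  S.A s (H712.lp a w) i j

/-- the drift of the row `b` as a column -/
lemma dv_col {a : Fin 4 → ℝ} {xt : ℝ} (hB : ∀ w i j, B w i j = B w j i)
    (hdr : ∀ e w, dr a ψ' e w =
      k * (xt * S.A s2 (H712.lp a2 w) e.1.1 e.1.2 - B w e.1.1 e.1.2)) (b : Fin n)
    (w : K4 (Pair n) → ℝ) :
    dv a ψ' b w = fun i => (k • (xt • (H941.Cm S s2 a2 w - 1) - od (B w))) i b := by
  funext j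
  rw [← od_Cm]
  simp only [Matrix.smul_apply, Matrix.sub_apply, smul_eq_mul]
  unfold dv
  by_cases h : j = b
  · subst h
    rw [rw'_self]
    unfold od
    rw [if_pos rfl, if_pos rfl]
    ring
  · have e : rw' (fun e => dr a ψ' e w) b j = dr a ψ' (cp b j h) w := by
      unfold rw'
      rw [dif_neg h]
    rw [e, hdr]
    unfold od
    rw [if_neg h, if_neg h]
    unfold cp
    split_ifs with h1
    · rw [hB w b j]
      unfold H941.Cm
      rw [S.A_comm s2 _ b j]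
    · rfl

lemma Uv_col (s : ℝ) (a : Fin 4 → ℝ) (b : Fin n) (w : K4 (Pair n) → ℝ) :
    Uv S s a b w = fun i => (H941.Cm S s a w - 1) i b := by
  funext i
  rw [Uv_eq, od_Cm, Matrix.sub_apply, Matrix.sub_apply, H941.Cm_comm S s a w b i,
    Matrix.one_apply, Matrix.one_apply]
  simp only [eq_comm]

lemma od_T (hB : ∀ w i j, B w i j = B w j i) (w : K4 (Pair n) → ℝ) : (od (B w))ᵀ = od (B w) := by
  ext i j
  rw [Matrix.transpose_apply]
  unfold od
  by_cases h : i = j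
  · rw [if_pos h, if_pos h.symm]
  · rw [if_neg h, if_neg fun h' => h h'.symm, hB]

/-- The right side of 350's `m2k` (561's `m3row`) without the weight. -/
noncomputable def u3row (S : CS n k x) (s1 s2 β r : ℝ) (a1 a2 : Fin 4 → ℝ)
    (ψ' : K4 (Pair n) → (K4 (Pair n) → ℝ) → ℝ) (b : Fin n)
    (M1 M2 : MF n) (w : K4 (Pair n) → ℝ) : ℝ :=
  dt (mv (M2 w) (Uv S s1 a1 b w)) (mv (M2 w) (Uv S s1 a1 b w)) +
    r * dt (mv (M1 w) (Uv S s2 a2 b w)) (mv (M1 w) (Uv S s2 a2 b w)) -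
    2 * dt (mv (M1 w) (Uv S s1 a1 b w)) (mv (M2 w) (Uv S s2 a2 b w)) -
    k / β * (dt (mv (M2 w) (Uv S s1 a1 b w)) (mv (M2 w) (mv (M1 w) (dv a1 ψ' b w))) +
      r * dt (mv (M1 w) (Uv S s2 a2 b w)) (mv (M1 w) (mv (M2 w) (dv a2 ψ' b w))) -
      2 * dt (mv (M1 w) (mv (M1 w) (dv a1 ψ' b w))) (mv (M2 w) (Uv S s2 a2 b w)))

/-- **The sum over the rows of 561's `m3row` at the matrices themselves.** -/
theorem sum_u3row {r : ℝ} (hβ : 0 < β) (hk : 0 ≤ k) (hx1 : 0 ≤ xt1) (hr : r * xt2 = xt1)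
    (hr0 : 0 ≤ r) (hr1 : r ≤ 1) (hB : ∀ w i j, B w i j = B w j i)
    (hdr1 : ∀ e w, dr a1 ψ' e w =
      k * (xt1 * S.A s2 (H712.lp a2 w) e.1.1 e.1.2 - B w e.1.1 e.1.2))
    (hdr2 : ∀ e w, dr a2 ψ' e w =
      k * (xt2 * S.A s2 (H712.lp a2 w) e.1.1 e.1.2 - B w e.1.1 e.1.2))
    (w : K4 (Pair n) → ℝ) :
    ∑ b, u3row S s1 s2 β r a1 a2 ψ' b (Cf S s1 a1) (Cf S s2 a2) w ≤
      ((H941.Cm S s2 a2 w - H941.Cm S s1 a1 w) * (H941.Cm S s2 a2 w - H941.Cm S s1 a1 w)).trace -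
        (1 - r) * ((H941.Cm S s1 a1 w * (H941.Cm S s1 a1 w *
            (H941.Cm S s2 a2 w * H941.Cm S s2 a2 w))).trace -
          2 * (H941.Cm S s1 a1 w * (H941.Cm S s1 a1 w * H941.Cm S s2 a2 w)).trace) +
        k ^ 2 / β * (xt1 * K3 (H941.Cm S s1 a1 w) (H941.Cm S s2 a2 w) +
          bs3 (H941.Cm S s1 a1 w) (H941.Cm S s2 a2 w) (od (B w)) r +
          eD (H191.fro (H941.Cm S s1 a1 w)) (H191.fro (H941.Cm S s2 a2 w))
            (H191.fro (od (B w))) xt1) := by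
  obtain ⟨C1, hC1⟩ : ∃ C, C = H941.Cm S s1 a1 w := ⟨_, rfl⟩
  obtain ⟨C2, hC2⟩ : ∃ C, C = H941.Cm S s2 a2 w := ⟨_, rfl⟩
  have hA : C1ᵀ = C1 := by rw [hC1]; exact H941.Cm_T S s1 a1 w
  have hBt : C2ᵀ = C2 := by rw [hC2]; exact H941.Cm_T S s2 a2 w
  have hDt := od_T hB w
  have f1 : Cf S s1 a1 w = C1 := by rw [hC1]; rfl
  have f2 : Cf S s2 a2 w = C2 := by rw [hC2]; rfl
  have e1 : ∑ b, u3row S s1 s2 β r a1 a2 ψ' b (Cf S s1 a1) (Cf S s2 a2) w =
      (((C2 * (C1 - 1))ᵀ * (C2 * (C1 - 1))).trace +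
        r * ((C1 * (C2 - 1))ᵀ * (C1 * (C2 - 1))).trace -
        2 * ((C1 * (C1 - 1))ᵀ * (C2 * (C2 - 1))).trace) -
        k / β * (((C2 * (C1 - 1))ᵀ * (C2 * (C1 * (k • (xt1 • (C2 - 1) - od (B w)))))).trace +
          r * ((C1 * (C2 - 1))ᵀ * (C1 * (C2 * (k • (xt2 • (C2 - 1) - od (B w)))))).trace -
          2 * ((C1 * (C1 * (k • (xt1 • (C2 - 1) - od (B w)))))ᵀ * (C2 * (C2 - 1))).trace) := by
    unfold u3row
    simp only [Uv_col, dv_col hB hdr1, dv_col hB hdr2, ← hC1, ← hC2, f1, f2, mv_col]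
    simp only [Finset.sum_sub_distrib, Finset.sum_add_distrib, ← Finset.mul_sum, sum_dt]
  have hA2 : 0 ≤ (C1 * C1).trace := by
    have h := Matrix.posSemidef_conjTranspose_mul_self C1
    rw [Matrix.conjTranspose_eq_transpose_of_trivial, hA] at h
    exact h.trace_nonneg
  rw [e1, partU hA hBt r, ← hC1, ← hC2]
  have hd := (abs_le.1 (partD (k := k) hA hBt hDt hx1 hr hr0 hr1)).1
  rw [abs_of_nonneg hk] at hd
  have hkb : 0 ≤ k / β := div_nonneg hk hβ.le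
  have h2 := mul_le_mul_of_nonneg_left hd hkb
  have e4 : k / β * (k * eD (H191.fro C1) (H191.fro C2) (H191.fro (od (B w))) xt1) =
      k ^ 2 / β * eD (H191.fro C1) (H191.fro C2) (H191.fro (od (B w))) xt1 := by ring
  have e5 : k / β * (k * (-(xt1 * K3 C1 C2) - bs3 C1 C2 (od (B w)) r)) =
      k ^ 2 / β * (-(xt1 * K3 C1 C2) - bs3 C1 C2 (od (B w)) r) := by ring
  rw [mul_neg, e4, mul_sub, e5] at h2
  have h3 : 0 ≤ (1 - r) * (C1 * C1).trace := mul_nonneg (by linarith) hA2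
  linarith

/-! ### the inequality of numbers -/

lemma m2k_eq (r : ℝ) (b : Fin n) (M1 M2 : MF n) (w : K4 (Pair n) → ℝ) :
    m2k S s1 s2 β r a1 a2 ψ' b χ M1 M2 w = χ w * u3row S s1 s2 β r a1 a2 ψ' b M1 M2 w := rfl

/-- The nonlinear form of the row `b`: `χ (|M2 N1|² + r |M1 N2|² - 2 <M1 N1, M2 N2>)`. -/
noncomputable def nlf (S : CS n k x) (s1 s2 β r : ℝ) (a1 a2 : Fin 4 → ℝ) (b : Fin n)
    (χ : (K4 (Pair n) → ℝ) → ℝ) (M1 M2 : MF n) (w : K4 (Pair n) → ℝ) : ℝ :=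
  χ w * (dt (mv (M2 w) (Nv S s1 a1 β b M1 w)) (mv (M2 w) (Nv S s1 a1 β b M1 w)) +
    r * dt (mv (M1 w) (Nv S s2 a2 β b M2 w)) (mv (M1 w) (Nv S s2 a2 β b M2 w)) -
    2 * dt (mv (M1 w) (Nv S s1 a1 β b M1 w)) (mv (M2 w) (Nv S s2 a2 β b M2 w)))

/-- The three squares of the rests: `χ (|M2 N1|² + r |M1 N2|² + 2 |M1 N1|²)`. -/
noncomputable def nsq (S : CS n k x) (s1 s2 β r : ℝ) (a1 a2 : Fin 4 → ℝ) (b : Fin n)
    (χ : (K4 (Pair n) → ℝ) → ℝ) (M1 M2 : MF n) (w : K4 (Pair n) → ℝ) : ℝ :=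
  χ w * (dt (mv (M2 w) (Nv S s1 a1 β b M1 w)) (mv (M2 w) (Nv S s1 a1 β b M1 w)) +
    r * dt (mv (M1 w) (Nv S s2 a2 β b M2 w)) (mv (M1 w) (Nv S s2 a2 β b M2 w)) +
    2 * dt (mv (M1 w) (Nv S s1 a1 β b M1 w)) (mv (M1 w) (Nv S s1 a1 β b M1 w)))

/-- The three squares of the drifts. -/
noncomputable def vsq (k β r : ℝ) (a1 a2 : Fin 4 → ℝ)
    (ψ' : K4 (Pair n) → (K4 (Pair n) → ℝ) → ℝ) (b : Fin n)
    (χ : (K4 (Pair n) → ℝ) → ℝ) (M1 M2 : MF n) (w : K4 (Pair n) → ℝ) : ℝ :=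
  χ w * ((k / β) ^ 2 *
    (dt (mv (M2 w) (mv (M1 w) (dv a1 ψ' b w))) (mv (M2 w) (mv (M1 w) (dv a1 ψ' b w))) +
      r * dt (mv (M1 w) (mv (M2 w) (dv a2 ψ' b w))) (mv (M1 w) (mv (M2 w) (dv a2 ψ' b w))) +
      2 * dt (mv (M2 w) (mv (M2 w) (dv a2 ψ' b w))) (mv (M2 w) (mv (M2 w) (dv a2 ψ' b w)))))

lemma dt_cross {η : ℝ} (hη : 0 < η) (c : ℝ) (f g : Fin n → ℝ) :
    c * dt f g ≤ η / 2 * dt f f + 1 / (2 * η) * (c ^ 2 * dt g g) := by
  unfold dt
  rw [Finset.mul_sum, Finset.mul_sum, Finset.mul_sum, Finset.mul_sum, ← Finset.sum_add_distrib]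
  refine Finset.sum_le_sum fun i _ => ?_
  have h : 0 ≤ (η * f i - c * g i) ^ 2 / (2 * η) := div_nonneg (sq_nonneg _) (by positivity)
  have e : (η * f i - c * g i) ^ 2 / (2 * η) =
      η / 2 * (f i * f i) + 1 / (2 * η) * (c ^ 2 * (g i * g i)) - c * (f i * g i) := by
    field_simp
    ring
  linarith

lemma dt_neg_r (f g : Fin n → ℝ) : dt f (fun i => -1 * g i) = -dt f g := by
  unfold dt
  rw [← Finset.sum_neg_distrib]
  exact Finset.sum_congr rfl fun i _ => by ring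

/-- the drift part of the left side is small -/
lemma nlf_le {η r : ℝ} (hη : 0 < η) (hr0 : 0 ≤ r) (b : Fin n) (M1 M2 : MF n)
    (w : K4 (Pair n) → ℝ) (hχ : 0 ≤ χ w) :
    nlf S s1 s2 β r a1 a2 b χ M1 M2 w ≤ n2k S s1 s2 β r a1 a2 ψ' b χ M1 M2 w +
      (η / 2 * nsq S s1 s2 β r a1 a2 b χ M1 M2 w +
        1 / (2 * η) * vsq k β r a1 a2 ψ' b χ M1 M2 w) := by
  set N1 := mv (M2 w) (Nv S s1 a1 β b M1 w) with hN1
  set N2 := mv (M1 w) (Nv S s2 a2 β b M2 w) with hN2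
  set N3 := mv (M1 w) (Nv S s1 a1 β b M1 w) with hN3
  set N4 := mv (M2 w) (Nv S s2 a2 β b M2 w) with hN4
  set V1 := mv (M2 w) (mv (M1 w) (dv a1 ψ' b w)) with hV1
  set V2 := mv (M1 w) (mv (M2 w) (dv a2 ψ' b w)) with hV2
  set V3 := mv (M2 w) (mv (M2 w) (dv a2 ψ' b w)) with hV3
  have h1 := dt_cross hη (-(k / β)) N1 V1
  have h2 := mul_le_mul_of_nonneg_left (dt_cross hη (-(k / β)) N2 V2) hr0
  have h3 := dt_cross hη (k / β) N3 V3
  have e1 : nlf S s1 s2 β r a1 a2 b χ M1 M2 w = χ w * (dt N1 N1 + r * dt N2 N2 - 2 * dt N3 N4) := rfl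
  have e2 : n2k S s1 s2 β r a1 a2 ψ' b χ M1 M2 w = χ w * (dt N1 N1 + r * dt N2 N2 - 2 * dt N3 N4 +
      k / β * (dt N1 V1 + r * dt N2 V2 - 2 * dt N3 V3)) := rfl
  have e3 : nsq S s1 s2 β r a1 a2 b χ M1 M2 w = χ w * (dt N1 N1 + r * dt N2 N2 + 2 * dt N3 N3) := rfl
  have e4 : vsq k β r a1 a2 ψ' b χ M1 M2 w = χ w * ((k / β) ^ 2 *
      (dt V1 V1 + r * dt V2 V2 + 2 * dt V3 V3)) := rfl
  rw [e1, e2, e3, e4]
  have key : dt N1 N1 + r * dt N2 N2 - 2 * dt N3 N4 ≤ (dt N1 N1 + r * dt N2 N2 - 2 * dt N3 N4 +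
      k / β * (dt N1 V1 + r * dt N2 V2 - 2 * dt N3 V3)) +
      (η / 2 * (dt N1 N1 + r * dt N2 N2 + 2 * dt N3 N3) +
        1 / (2 * η) * ((k / β) ^ 2 * (dt V1 V1 + r * dt V2 V2 + 2 * dt V3 V3))) := by
    rw [neg_sq] at h1 h2
    linarith
  have := mul_le_mul_of_nonneg_left key hχ
  linarith

/-! exponential growth -/

lemma eg_mv {M : MF n} {f : (K4 (Pair n) → ℝ) → Fin n → ℝ} (hM : ∀ i l, EG fun w => M w i l)
    (hf : ∀ i, EG fun w => f w i) (i : Fin n) : EG fun w => mv (M w) (f w) i :=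
  EG.sum _ fun j _ => (hM i j).mul (hf j)

lemma eg_dt' {f g : (K4 (Pair n) → ℝ) → Fin n → ℝ} (hf : ∀ i, EG fun w => f w i)
    (hg : ∀ i, EG fun w => g w i) : EG fun w => dt (f w) (g w) :=
  EG.sum _ fun i _ => (hf i).mul (hg i)

lemma eg_Nv {s : ℝ} {a : Fin 4 → ℝ} {b : Fin n} {M : MF n} (hM : ∀ i l, EG fun w => M w i l)
    (i : Fin n) : EG fun w => Nv S s a β b M w i := by
  have e : ∀ i l, EG fun w => M w i l / β := fun i l => by
    have : (fun w => M w i l / β) = fun w => 1 / β * M w i l := funext fun w => by ring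
    rw [this]
    exact (hM i l).const_mul _
  exact (eg_lp a (eg_Uz S s b i)).sub ((eg_Ly e i).const_mul _)

lemma eg_nlf (hχ : EG χ) {r : ℝ} {b : Fin n} {M1 M2 : MF n} (h1 : ∀ i l, EG fun w => M1 w i l)
    (h2 : ∀ i l, EG fun w => M2 w i l) : EG (nlf S s1 s2 β r a1 a2 b χ M1 M2) := by
  have n1 : ∀ i, EG fun w => Nv S s1 a1 β b M1 w i := eg_Nv h1
  have n2 : ∀ i, EG fun w => Nv S s2 a2 β b M2 w i := eg_Nv h2
  exact hχ.mul (((eg_dt' (eg_mv h2 n1) (eg_mv h2 n1)).add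
    ((eg_dt' (eg_mv h1 n2) (eg_mv h1 n2)).const_mul r)).sub
    ((eg_dt' (eg_mv h1 n1) (eg_mv h2 n2)).const_mul 2))

lemma eg_nsq (hχ : EG χ) {r : ℝ} {b : Fin n} {M1 M2 : MF n} (h1 : ∀ i l, EG fun w => M1 w i l)
    (h2 : ∀ i l, EG fun w => M2 w i l) : EG (nsq S s1 s2 β r a1 a2 b χ M1 M2) := by
  have n1 : ∀ i, EG fun w => Nv S s1 a1 β b M1 w i := eg_Nv h1
  have n2 : ∀ i, EG fun w => Nv S s2 a2 β b M2 w i := eg_Nv h2
  exact hχ.mul (((eg_dt' (eg_mv h2 n1) (eg_mv h2 n1)).add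
    ((eg_dt' (eg_mv h1 n2) (eg_mv h1 n2)).const_mul r)).add
    ((eg_dt' (eg_mv h1 n1) (eg_mv h1 n1)).const_mul 2))

lemma eg_vsq (h : Den φ ψ') (hχ : EG χ) {r : ℝ} {b : Fin n} {M1 M2 : MF n}
    (h1 : ∀ i l, EG fun w => M1 w i l) (h2 : ∀ i l, EG fun w => M2 w i l) :
    EG (vsq k β r a1 a2 ψ' b χ M1 M2) := by
  have d1 : ∀ i, EG fun w => dv a1 ψ' b w i := fun i => eg_dv h b i
  have d2 : ∀ i, EG fun w => dv a2 ψ' b w i := fun i => eg_dv h b i
  have v1 := eg_mv h2 (eg_mv h1 d1)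
  have v2 := eg_mv h1 (eg_mv h2 d2)
  have v3 := eg_mv h2 (eg_mv h2 d2)
  exact hχ.mul ((((eg_dt' v1 v1).add ((eg_dt' v2 v2).const_mul r)).add
    ((eg_dt' v3 v3).const_mul 2)).const_mul _)

lemma eg_n2k (h : Den φ ψ') (hχ : EG χ) {r : ℝ} {b : Fin n} {M1 M2 : MF n}
    (h1 : ∀ i l, EG fun w => M1 w i l) (h2 : ∀ i l, EG fun w => M2 w i l) :
    EG (n2k S s1 s2 β r a1 a2 ψ' b χ M1 M2) := by
  have n1 : ∀ i, EG fun w => Nv S s1 a1 β b M1 w i := eg_Nv h1
  have n2 : ∀ i, EG fun w => Nv S s2 a2 β b M2 w i := eg_Nv h2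
  have d1 : ∀ i, EG fun w => dv a1 ψ' b w i := fun i => eg_dv h b i
  have d2 : ∀ i, EG fun w => dv a2 ψ' b w i := fun i => eg_dv h b i
  have v1 := eg_mv h2 (eg_mv h1 d1)
  have v2 := eg_mv h1 (eg_mv h2 d2)
  have v3 := eg_mv h2 (eg_mv h2 d2)
  exact hχ.mul ((((eg_dt' (eg_mv h2 n1) (eg_mv h2 n1)).add
    ((eg_dt' (eg_mv h1 n2) (eg_mv h1 n2)).const_mul r)).sub
    ((eg_dt' (eg_mv h1 n1) (eg_mv h2 n2)).const_mul 2)).add
    ((((eg_dt' (eg_mv h2 n1) v1).add ((eg_dt' (eg_mv h1 n2) v2).const_mul r)).sub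
      ((eg_dt' (eg_mv h1 n1) v3).const_mul 2)).const_mul _))

lemma eg_CC (i j : Fin n) (s : ℝ) (a : Fin 4 → ℝ) : EG fun w => H941.Cm S s a w i j :=
  eg_lp a (S.eg_A s i j)

lemma eg_mul' {Y Z : (K4 (Pair n) → ℝ) → Matrix (Fin n) (Fin n) ℝ}
    (hY : ∀ i l, EG fun w => Y w i l) (hZ : ∀ i l, EG fun w => Z w i l) :
    ∀ i l, EG fun w => (Y w * Z w) i l := fun i l => eg_mulm hY hZ i l

lemma eg_sub' {Y Z : (K4 (Pair n) → ℝ) → Matrix (Fin n) (Fin n) ℝ}
    (hY : ∀ i l, EG fun w => Y w i l) (hZ : ∀ i l, EG fun w => Z w i l) :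
    ∀ i l, EG fun w => (Y w - Z w) i l := fun i l => (hY i l).sub (hZ i l)

lemma eg_K3 : EG fun w => K3 (H941.Cm S s1 a1 w) (H941.Cm S s2 a2 w) := by
  have e1 : ∀ i j, EG fun w => H941.Cm S s1 a1 w i j := fun i j => eg_CC i j s1 a1
  have e2 : ∀ i j, EG fun w => H941.Cm S s2 a2 w i j := fun i j => eg_CC i j s2 a2
  have eK : ∀ i j, EG fun w => (H941.Cm S s1 a1 w * H941.Cm S s2 a2 w -
      H941.Cm S s2 a2 w * H941.Cm S s1 a1 w) i j := eg_sub' (eg_mul' e1 e2) (eg_mul' e2 e1)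
  have eKt : ∀ i j, EG fun w => (H941.Cm S s1 a1 w * H941.Cm S s2 a2 w -
      H941.Cm S s2 a2 w * H941.Cm S s1 a1 w)ᵀ i j := fun i j => eK j i
  exact eg_tr (eg_mul' eKt (eg_mul' e2 eK))

lemma eg_bs3 (hBe : ∀ i l, EG fun w => B w i l) (r : ℝ) :
    EG fun w => bs3 (H941.Cm S s1 a1 w) (H941.Cm S s2 a2 w) (od (B w)) r := by
  have e1 : ∀ i j, EG fun w => H941.Cm S s1 a1 w i j := fun i j => eg_CC i j s1 a1
  have e2 : ∀ i j, EG fun w => H941.Cm S s2 a2 w i j := fun i j => eg_CC i j s2 a2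
  have eB : ∀ i j, EG fun w => od (B w) i j := fun i j => eg_od hBe i j
  exact ((eg_tr (eg_mul' eB (eg_mul' (eg_mul' e1 (eg_mul' e2 e2)) e1))).add
    ((eg_tr (eg_mul' eB (eg_mul' (eg_mul' e2 (eg_mul' e1 e1)) e2))).const_mul r)).sub
    ((eg_tr (eg_mul' (eg_mul' (eg_mul' e1 e1) (eg_mul' e2 e2)) eB)).const_mul 2)

lemma eg_eD (hBe : ∀ i l, EG fun w => B w i l) :
    EG fun w => eD (H191.fro (H941.Cm S s1 a1 w)) (H191.fro (H941.Cm S s2 a2 w))
      (H191.fro (od (B w))) xt1 := by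
  have f1 : EG fun w => H191.fro (H941.Cm S s1 a1 w) := eg_fro fun i j => eg_CC i j s1 a1
  have f2 : EG fun w => H191.fro (H941.Cm S s2 a2 w) := eg_fro fun i j => eg_CC i j s2 a2
  have fB : EG fun w => H191.fro (od (B w)) := eg_fro fun i j => eg_od hBe i j
  exact ((((((f1.pow 2).mul (f2.pow 2)).add (f1.mul (f2.pow 3))).add (f1.mul (f2.pow 2))).add
    ((f1.pow 2).mul f2)).const_mul _).add (fB.mul ((f1.mul (f2.pow 2)).add
      (((f1.pow 2).mul f2).const_mul 3)))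

/-- **(F2) as an inequality of numbers.** `NLF + (1-r) A ≤ (β x / n) (s1 K3 + base) + errors`. -/
theorem f3_num {r η e2 : ℝ} (h : Den φ ψ') (hφ : ∀ w, 0 ≤ φ w) (hβ : 0 < β) (hk : 0 ≤ k)
    (hx1 : 0 ≤ xt1) (hr : r * xt2 = xt1) (hr0 : 0 ≤ r) (hr1 : r ≤ 1) (hη : 0 < η)
    (hB : ∀ w i j, B w i j = B w j i) (hBe : ∀ i l, EG fun w => B w i l)
    (hdr1 : ∀ e w, dr a1 ψ' e w =
      k * (xt1 * S.A s2 (H712.lp a2 w) e.1.1 e.1.2 - B w e.1.1 e.1.2))
    (hdr2 : ∀ e w, dr a2 ψ' e w =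
      k * (xt2 * S.A s2 (H712.lp a2 w) e.1.1 e.1.2 - B w e.1.1 e.1.2))
    (hχ : EG χ) (hχ0 : ∀ w, 0 ≤ χ w) {χ' : Fin n → (K4 (Pair n) → ℝ) → ℝ}
    (hχ' : ∀ b, EG (χ' b)) (hχ'0 : ∀ b w, 0 ≤ χ' b w) {M1 M2 : Fin n → MF n}
    (h1 : ∀ b i l, EG fun w => M1 b w i l) (h2 : ∀ b i l, EG fun w => M2 b w i l)
    (hun : ∑ b, Im φ (n2k S s1 s2 β r a1 a2 ψ' b (χ' b) (M1 b) (M2 b)) ≤
      Im φ (fun w => ∑ b, m2k S s1 s2 β r a1 a2 ψ' b χ (Cf S s1 a1) (Cf S s2 a2) w) + e2) :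
    ∑ b, Im φ (nlf S s1 s2 β r a1 a2 b (χ' b) (M1 b) (M2 b)) +
      (1 - r) * (Im φ (fun w => χ w * (H941.Cm S s1 a1 w * (H941.Cm S s1 a1 w *
          (H941.Cm S s2 a2 w * H941.Cm S s2 a2 w))).trace) -
        2 * Im φ (fun w => χ w * (H941.Cm S s1 a1 w *
          (H941.Cm S s1 a1 w * H941.Cm S s2 a2 w)).trace)) ≤
      Im φ (fun w => χ w * ((H941.Cm S s2 a2 w - H941.Cm S s1 a1 w) *
        (H941.Cm S s2 a2 w - H941.Cm S s1 a1 w)).trace) +
      k ^ 2 / β * (xt1 * Im φ (fun w => χ w * K3 (H941.Cm S s1 a1 w) (H941.Cm S s2 a2 w)) +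
        Im φ (fun w => χ w * bs3 (H941.Cm S s1 a1 w) (H941.Cm S s2 a2 w) (od (B w)) r) +
        Im φ (fun w => χ w * eD (H191.fro (H941.Cm S s1 a1 w)) (H191.fro (H941.Cm S s2 a2 w))
          (H191.fro (od (B w))) xt1)) +
      (e2 + η / 2 * ∑ b, Im φ (nsq S s1 s2 β r a1 a2 b (χ' b) (M1 b) (M2 b)) +
        1 / (2 * η) * ∑ b, Im φ (vsq k β r a1 a2 ψ' b (χ' b) (M1 b) (M2 b))) := by
  have e1 : ∀ i j, EG fun w => H941.Cm S s1 a1 w i j := fun i j => eg_CC i j s1 a1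
  have e2' : ∀ i j, EG fun w => H941.Cm S s2 a2 w i j := fun i j => eg_CC i j s2 a2
  have gA : EG fun w => χ w * (H941.Cm S s1 a1 w * (H941.Cm S s1 a1 w *
      (H941.Cm S s2 a2 w * H941.Cm S s2 a2 w))).trace :=
    hχ.mul (eg_tr (eg_mul' e1 (eg_mul' e1 (eg_mul' e2' e2'))))
  have gP : EG fun w => χ w * (H941.Cm S s1 a1 w *
      (H941.Cm S s1 a1 w * H941.Cm S s2 a2 w)).trace :=
    hχ.mul (eg_tr (eg_mul' e1 (eg_mul' e1 e2')))
  have gD : EG fun w => χ w * ((H941.Cm S s2 a2 w - H941.Cm S s1 a1 w) *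
      (H941.Cm S s2 a2 w - H941.Cm S s1 a1 w)).trace :=
    hχ.mul (eg_tr (eg_mul' (eg_sub' e2' e1) (eg_sub' e2' e1)))
  have gK : EG fun w => χ w * K3 (H941.Cm S s1 a1 w) (H941.Cm S s2 a2 w) := hχ.mul eg_K3
  have gB : EG fun w => χ w * bs3 (H941.Cm S s1 a1 w) (H941.Cm S s2 a2 w) (od (B w)) r :=
    hχ.mul (eg_bs3 hBe r)
  have gE : EG fun w => χ w * eD (H191.fro (H941.Cm S s1 a1 w)) (H191.fro (H941.Cm S s2 a2 w))
      (H191.fro (od (B w))) xt1 := hχ.mul (eg_eD hBe)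
  -- the left side
  have up : ∑ b, Im φ (nlf S s1 s2 β r a1 a2 b (χ' b) (M1 b) (M2 b)) ≤
      ∑ b, Im φ (n2k S s1 s2 β r a1 a2 ψ' b (χ' b) (M1 b) (M2 b)) +
      (η / 2 * ∑ b, Im φ (nsq S s1 s2 β r a1 a2 b (χ' b) (M1 b) (M2 b)) +
        1 / (2 * η) * ∑ b, Im φ (vsq k β r a1 a2 ψ' b (χ' b) (M1 b) (M2 b))) := by
    rw [Finset.mul_sum, Finset.mul_sum, ← Finset.sum_add_distrib, ← Finset.sum_add_distrib]
    refine Finset.sum_le_sum fun b _ => ?_
    have q1 := eg_n2k (S := S) (s1 := s1) (s2 := s2) (β := β) (a1 := a1) (a2 := a2) h (hχ' b)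
      (r := r) (b := b) (h1 b) (h2 b)
    have q2 := eg_nsq (S := S) (s1 := s1) (s2 := s2) (β := β) (a1 := a1) (a2 := a2) (hχ' b)
      (r := r) (b := b) (h1 b) (h2 b)
    have q3 := eg_vsq (k := k) (β := β) (a1 := a1) (a2 := a2) h (hχ' b) (r := r) (b := b)
      (h1 b) (h2 b)
    rw [← Im_const_mul, ← Im_const_mul, ← Im_add h.eg (q2.const_mul _) (q3.const_mul _),
      ← Im_add h.eg q1 ((q2.const_mul _).add (q3.const_mul _))]
    exact Im_mono hφ h.eg (eg_nlf (hχ' b) (h1 b) (h2 b))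
      (q1.add ((q2.const_mul _).add (q3.const_mul _))) fun w =>
      nlf_le hη hr0 b (M1 b) (M2 b) w (hχ'0 b w)
  -- the right side
  have gm : EG fun w => ∑ b, m2k S s1 s2 β r a1 a2 ψ' b χ (Cf S s1 a1) (Cf S s2 a2) w := by
    have u1 : ∀ b i, EG fun w => Uv S s1 a1 b w i := fun b i => eg_Uv b i
    have u2 : ∀ b i, EG fun w => Uv S s2 a2 b w i := fun b i => eg_Uv b i
    have d1 : ∀ b i, EG fun w => dv a1 ψ' b w i := fun b i => eg_dv h b i
    have d2 : ∀ b i, EG fun w => dv a2 ψ' b w i := fun b i => eg_dv h b i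
    have c1 : ∀ i l, EG fun w => Cf S s1 a1 w i l := e1
    have c2 : ∀ i l, EG fun w => Cf S s2 a2 w i l := e2'
    refine EG.sum _ fun b _ => hχ.mul ?_
    exact (((eg_dt' (eg_mv c2 (u1 b)) (eg_mv c2 (u1 b))).add
      ((eg_dt' (eg_mv c1 (u2 b)) (eg_mv c1 (u2 b))).const_mul r)).sub
      ((eg_dt' (eg_mv c1 (u1 b)) (eg_mv c2 (u2 b))).const_mul 2)).sub
      ((((eg_dt' (eg_mv c2 (u1 b)) (eg_mv c2 (eg_mv c1 (d1 b)))).add
        ((eg_dt' (eg_mv c1 (u2 b)) (eg_mv c1 (eg_mv c2 (d2 b)))).const_mul r)).sub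
        ((eg_dt' (eg_mv c1 (eg_mv c1 (d1 b))) (eg_mv c2 (u2 b))).const_mul 2)).const_mul _)
  have low := Im_mono hφ h.eg (f := fun w => ∑ b, m2k S s1 s2 β r a1 a2 ψ' b χ
      (Cf S s1 a1) (Cf S s2 a2) w)
    (g := fun w => (χ w * ((H941.Cm S s2 a2 w - H941.Cm S s1 a1 w) *
        (H941.Cm S s2 a2 w - H941.Cm S s1 a1 w)).trace -
      (1 - r) * (χ w * (H941.Cm S s1 a1 w * (H941.Cm S s1 a1 w *
          (H941.Cm S s2 a2 w * H941.Cm S s2 a2 w))).trace -
        2 * (χ w * (H941.Cm S s1 a1 w *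
          (H941.Cm S s1 a1 w * H941.Cm S s2 a2 w)).trace))) +
      k ^ 2 / β * (xt1 * (χ w * K3 (H941.Cm S s1 a1 w) (H941.Cm S s2 a2 w)) +
        χ w * bs3 (H941.Cm S s1 a1 w) (H941.Cm S s2 a2 w) (od (B w)) r +
        χ w * eD (H191.fro (H941.Cm S s1 a1 w)) (H191.fro (H941.Cm S s2 a2 w))
          (H191.fro (od (B w))) xt1)) gm
    ((gD.sub ((gA.sub (gP.const_mul 2)).const_mul _)).add
      ((((gK.const_mul _).add gB).add gE).const_mul _)) fun w => by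
      simp only [m2k_eq]
      rw [← Finset.mul_sum]
      have := mul_le_mul_of_nonneg_left (sum_u3row (S := S) (s1 := s1) hβ hk hx1 hr hr0 hr1 hB
        hdr1 hdr2 w) (hχ0 w)
      refine this.trans (le_of_eq ?_)
      ring
  rw [Im_add h.eg (gD.sub ((gA.sub (gP.const_mul 2)).const_mul _))
      ((((gK.const_mul _).add gB).add gE).const_mul _),
    Im_sub h.eg gD ((gA.sub (gP.const_mul 2)).const_mul _), Im_const_mul,
    Im_sub h.eg gA (gP.const_mul 2), Im_const_mul, Im_const_mul,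
    Im_add h.eg ((gK.const_mul _).add gB) gE, Im_add h.eg (gK.const_mul _) gB,
    Im_const_mul] at low
  linarith

end row

end Vale.Agent.P146.H785.F2N
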