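import Vale.Agent.P146.H785.Therm

set_option linter.all false

/-!
The thermal part with the cell averages of `H784.Sand`: for a cell `I` left of `l`, the vector
`M' = ∑ w_t M_t` satisfies `E M'^T C_l M' / N² ≤ Var A_I` and
`|M_l - M'|² / N ≤ rho_l - 2 T_l A_I`.
-/

open MeasureTheory ProbabilityTheory Filter Topology

namespace Vale.Agent.P146.H785

open Vale.Agent.P157.Lv Vale.Agent.P157.Lv.Sy Vale.Agent.P146.H784

variable {ι X : Type} [Fintype ι] [DecidableEq ι] [Fintype X] [DecidableEq X] [Nonempty X]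
  {S : Sy ι X} {D : ι → (ι → ℝ) → X → ℝ} {N : ℕ} {φ : X → Fin N → ℝ} {zc : ℕ → Fin N → ι}
  {s : ℕ → ℝ}

/-- the magnetization averaged over a cell -/
noncomputable def Mc (S : Sy ι X) (φ : X → Fin N → ℝ) (I : Finset ℕ) (w : ℕ → ℝ) (a : Fin N) :
    (ι → ℝ) → ℝ := fun z => ∑ t ∈ I, w t * S.mg φ t a z

lemma eg_Mc (hS : S.Reg) {I : Finset ℕ} (hI : ∀ t ∈ I, t ≤ S.K) (w : ℕ → ℝ) (a : Fin N) :
    EG (Mc S φ I w a) := EG.sum _ fun t ht => EG.const_mul _ (Fld.eg_mg hS (hI t ht) a)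

lemma dep_Mc (S : Sy ι X) (φ : X → Fin N → ℝ) {I : Finset ℕ} {l : ℕ} (hI : ∀ t ∈ I, t ≤ l)
    (w : ℕ → ℝ) (a : Fin N) : Dep S.lev l (Mc S φ I w a) := by
  intro z w'
  unfold Mc
  refine Finset.sum_congr rfl fun t ht => ?_
  rw [(Fld.dep_mg S φ t a).mono (hI t ht) z w']

/-- the conditional variance of a linear function of the configuration -/
lemma T_lin_var (hS : S.Reg) {l : ℕ} (hl : l ≤ S.K) {M : Fin N → (ι → ℝ) → ℝ}
    (hM : ∀ a, EG (M a)) (hMd : ∀ a, Dep S.lev l (M a)) {c : (ι → ℝ) → ℝ} (hc : EG c)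
    (hcd : Dep S.lev l c) (z : ι → ℝ) :
    S.T l (fun z x => (1 / N * (∑ a, M a z * φ x a) - c z) ^ 2) z =
      (S.T l (fun z x => 1 / N * (∑ a, M a z * φ x a) - c z) z) ^ 2 +
        1 / N ^ 2 * Qf S φ l M z := by
  have hMz : ∀ a w, M a (mix S.lev l z w) = M a z := fun a w => hMd a z w
  have hcz : ∀ w, c (mix S.lev l z w) = c z := fun w => hcd z w
  have t1 : S.T l (fun z x => 1 / N * (∑ a, M a z * φ x a) - c z) z =
      1 / N * ∑ a, M a z * S.mg φ l a z - c z := by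
    rw [hS.T_sub hl (Nh.const_mul _ (Nh.sum _ fun a _ => Nh.mul (Nh.fst (hM a))
      (Nh.snd fun x => φ x a))) (Nh.fst hc), hS.T_fst hl hcd, Sy.T_const_mul,
      hS.T_sum hl _ fun a _ => Nh.mul (Nh.fst (hM a)) (Nh.snd fun x => φ x a)]
    congr 2
    refine Finset.sum_congr rfl fun a _ => ?_
    exact Sy.T_mul_left S (hMd a) (fun _ x => φ x a) z
  have t2 : S.T l (fun z x => (1 / N * (∑ a, M a z * φ x a) - c z) ^ 2) z =
      1 / N ^ 2 * (∑ a, ∑ b, M a z * M b z * S.T l (fun _ x => φ x a * φ x b) z) -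
        2 * c z * (1 / N * ∑ a, M a z * S.mg φ l a z) + c z ^ 2 := by
    have e1 : (fun (z : ι → ℝ) (x : X) => (1 / (N : ℝ) * (∑ a, M a z * φ x a) - c z) ^ 2) =
        fun z x => ((fun (z : ι → ℝ) (x : X) => 1 / (N : ℝ) ^ 2 *
          (fun (z : ι → ℝ) (x : X) => ∑ a, (fun (z : ι → ℝ) (x : X) =>
            ∑ b, (M a z * M b z) * (φ x a * φ x b)) z x) z x) z x -
          (fun (z : ι → ℝ) (x : X) => (2 * c z) * (fun (z : ι → ℝ) (x : X) =>
            1 / (N : ℝ) * (fun (z : ι → ℝ) (x : X) => ∑ a, M a z * φ x a) z x) z x) z x) +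
          (fun (z : ι → ℝ) (_ : X) => c z ^ 2) z x := by
      funext z x
      have e2 : ∑ a, ∑ b, (M a z * M b z) * (φ x a * φ x b) = (∑ a, M a z * φ x a) ^ 2 := by
        rw [sq, Finset.sum_mul_sum]
        refine Finset.sum_congr rfl fun a _ => Finset.sum_congr rfl fun b _ => ?_
        ring
      show (1 / (N : ℝ) * (∑ a, M a z * φ x a) - c z) ^ 2 = (1 / (N : ℝ) ^ 2 *
        (∑ a, ∑ b, (M a z * M b z) * (φ x a * φ x b)) -
        (2 * c z) * (1 / (N : ℝ) * ∑ a, M a z * φ x a)) + c z ^ 2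
      rw [e2]
      ring
    have n1 : ∀ a b, Nh (fun (z : ι → ℝ) (x : X) => (M a z * M b z) * (φ x a * φ x b)) :=
      fun a b => Nh.mul (Nh.fst ((hM a).mul (hM b))) (Nh.snd fun x => φ x a * φ x b)
    have n2 : Nh (fun (z : ι → ℝ) (x : X) => ∑ a, M a z * φ x a) := Nh.sum _ fun a _ =>
      Nh.mul (Nh.fst (hM a)) (Nh.snd fun x => φ x a)
    have c2 : EG fun z : ι → ℝ => c z ^ 2 := hc.pow 2
    rw [e1, hS.T_add hl (Nh.sub (Nh.const_mul _ (Nh.sum _ fun a _ => Nh.sum _ fun b _ => n1 a b))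
        (Nh.mul (Nh.fst (EG.const_mul 2 hc)) (Nh.const_mul _ n2))) (Nh.fst c2),
      hS.T_sub hl (Nh.const_mul _ (Nh.sum _ fun a _ => Nh.sum _ fun b _ => n1 a b))
        (Nh.mul (Nh.fst (EG.const_mul 2 hc)) (Nh.const_mul _ n2)),
      hS.T_fst hl (φ := fun z => c z ^ 2) (fun z w => by simp only [hcd z w]),
      Sy.T_const_mul, hS.T_sum hl _ fun a _ => Nh.sum _ fun b _ => n1 a b,
      Sy.T_mul_left S (l := l) (φ := fun z => 2 * c z) (fun z w => by simp only [hcd z w]),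
      Sy.T_const_mul, hS.T_sum hl _ fun a _ => Nh.mul (Nh.fst (hM a)) (Nh.snd fun x => φ x a)]
    congr 2
    · congr 1
      refine Finset.sum_congr rfl fun a _ => ?_
      rw [hS.T_sum hl _ fun b _ => n1 a b]
      refine Finset.sum_congr rfl fun b _ => ?_
      exact Sy.T_mul_left S (φ := fun z => M a z * M b z)
        (fun z w => by simp only [hMd a z w, hMd b z w]) (fun _ x => φ x a * φ x b) z
    · congr 2
      refine Finset.sum_congr rfl fun a _ => ?_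
      exact Sy.T_mul_left S (hMd a) (fun _ x => φ x a) z
  rw [t1, t2]
  have e5 : ∀ a b, S.T l (fun _ x => φ x a * φ x b) z =
      cv S φ l a b z + S.mg φ l a z * S.mg φ l b z := fun a b => by unfold cv; ring
  have e6 : ∑ a, ∑ b, M a z * M b z * S.T l (fun _ x => φ x a * φ x b) z =
      Qf S φ l M z + (∑ a, M a z * S.mg φ l a z) ^ 2 := by
    rw [sq, Finset.sum_mul_sum]
    unfold Qf
    rw [← Finset.sum_add_distrib]
    refine Finset.sum_congr rfl fun a _ => ?_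
    rw [← Finset.sum_add_distrib]
    refine Finset.sum_congr rfl fun b _ => ?_
    rw [e5]
    ring
  rw [e6]
  ring

lemma cellA_eq (S : Sy ι X) (φ : X → Fin N → ℝ) (I : Finset ℕ) (w : ℕ → ℝ) :
    cellA S φ I w = fun z x => 1 / N * (∑ a, Mc S φ I w a z * φ x a) -
      ∑ t ∈ I, w t * (1 / 2 * rho S φ t z) := by
  funext z x
  unfold cellA aa Fld.uu Mc
  simp_rw [mul_sub]
  rw [Finset.sum_sub_distrib]
  congr 1
  simp_rw [Finset.sum_mul, Finset.mul_sum]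
  rw [Finset.sum_comm]
  refine Finset.sum_congr rfl fun a _ => Finset.sum_congr rfl fun t _ => ?_
  ring

/-- the thermal part of the quadratic form of the cell -/
theorem Ex_Qf_cell_le (hS : S.Reg) {l : ℕ} (hl : l ≤ S.K) {I : Finset ℕ} {w : ℕ → ℝ}
    (h : ∀ t ∈ I, t ≤ l) :
    1 / N ^ 2 * S.Ex (fun z _ => Qf S φ l (Mc S φ I w) z) ≤ vr S (cellA S φ I w) := by
  have hI : ∀ t ∈ I, t ≤ S.K := fun t ht => (h t ht).trans hl
  obtain ⟨A, hA⟩ : ∃ A, A = cellA S φ I w := ⟨_, rfl⟩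
  have nA : Nh A := by rw [hA]; exact nh_cellA hS hI w
  have eM := fun a => eg_Mc (φ := φ) hS hI w a
  have ec : EG (fun z : ι → ℝ => ∑ t ∈ I, w t * (1 / 2 * rho S φ t z)) :=
    EG.sum _ fun t ht => EG.const_mul _ (EG.const_mul _ (eg_rho hS (hI t ht)))
  have dc : Dep S.lev l (fun z : ι → ℝ => ∑ t ∈ I, w t * (1 / 2 * rho S φ t z)) := by
    intro z w'
    refine Finset.sum_congr rfl fun t ht => ?_
    rw [(dep_rho S φ t).mono (h t ht) z w']
  have k1 : ∀ z, S.T l (fun z x => A z x ^ 2) z = (S.T l A z) ^ 2 +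
      1 / N ^ 2 * Qf S φ l (Mc S φ I w) z := by
    intro z
    have := T_lin_var hS hl (φ := φ) eM (dep_Mc S φ h w) ec dc z
    rw [hA, cellA_eq]
    exact this
  have nA2 : Nh fun z x => A z x ^ 2 := Nh.pow nA 2
  have eT : EG (S.T l A) := hS.eg_T hl nA
  have k2 : S.Ex (fun z x => A z x ^ 2) = S.Ex (fun z _ => (S.T l A z) ^ 2) +
      1 / N ^ 2 * S.Ex (fun z _ => Qf S φ l (Mc S φ I w) z) := by
    rw [← hS.Ex_T hl nA2]
    have e : (fun (z : ι → ℝ) (_ : X) => S.T l (fun z x => A z x ^ 2) z) =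
        fun z x => (fun (z : ι → ℝ) (_ : X) => (S.T l A z) ^ 2) z x +
          (fun (z : ι → ℝ) (_ : X) => 1 / (N : ℝ) ^ 2 * Qf S φ l (Mc S φ I w) z) z x := by
      funext z _
      exact k1 z
    rw [e, hS.Ex_add (Nh.fst (eT.pow 2)) (Nh.fst (EG.const_mul _ (eg_Qf hS hl eM))),
      Sy.Ex_const_mul S (1 / (N : ℝ) ^ 2) (fun z _ => Qf S φ l (Mc S φ I w) z)]
  have k3 : vr S A = S.Ex (fun z x => A z x ^ 2) - S.Ex A ^ 2 := by
    unfold vr
    obtain ⟨a, ha⟩ : ∃ a, a = S.Ex A := ⟨_, rfl⟩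
    rw [← ha]
    have e7 : (fun (z : ι → ℝ) (x : X) => (A z x - a) ^ 2) =
        fun z x => ((fun (z : ι → ℝ) (x : X) => A z x ^ 2) z x -
          (fun (z : ι → ℝ) (x : X) => 2 * a * A z x) z x) +
          (fun (_ : ι → ℝ) (_ : X) => a ^ 2) z x := by
      funext z x
      ring
    rw [e7, hS.Ex_add (Nh.sub nA2 (Nh.const_mul _ nA)) (Nh.fst (EG.const _)),
      hS.Ex_sub nA2 (Nh.const_mul _ nA), hS.Ex_const, Sy.Ex_const_mul S (2 * a) A, ← ha]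
    ring
  have k4 : S.Ex A ^ 2 ≤ S.Ex (fun z _ => (S.T l A z) ^ 2) := by
    have h1 := hS.Ex_cs (Nh.fst (X := X) eT) (Nh.fst (X := X) (EG.const (1 : ℝ)))
    simp only [mul_one, one_pow, hS.Ex_const] at h1
    rwa [hS.Ex_T hl nA] at h1
  rw [← hA, k3, k2]
  linarith

/-- the distance to the cell average -/
lemma dist_Mc_le (hS : S.Reg) {l : ℕ} (hl : l ≤ S.K) {I : Finset ℕ} {w : ℕ → ℝ}
    (hI : Cell S I w) (h : ∀ t ∈ I, t ≤ l) (z : ι → ℝ) :
    1 / N * ∑ a, (S.mg φ l a z - Mc S φ I w a z) ^ 2 ≤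
      rho S φ l z - 2 * S.T l (cellA S φ I w) z := by
  have e1 : rho S φ l z - 2 * S.T l (cellA S φ I w) z =
      ∑ t ∈ I, w t * (1 / N * ∑ a, (S.mg φ l a z - S.mg φ t a z) ^ 2) := by
    rw [T_cellA hS hl hI.le]
    have e2 : rho S φ l z = ∑ t ∈ I, w t * rho S φ l z := by
      rw [← Finset.sum_mul, hI.sum, one_mul]
    rw [e2, Finset.mul_sum, ← Finset.sum_sub_distrib]
    refine Finset.sum_congr rfl fun t ht => ?_
    rw [T_aa hS hl (hI.le t ht), T_uu_left hS (h t ht) hl,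
      hS.T_fst hl ((dep_rho S φ t).mono (h t ht))]
    unfold rho
    have e3 : ∑ i, (S.mg φ l i z - S.mg φ t i z) ^ 2 =
        ∑ i, S.mg φ l i z ^ 2 - 2 * ∑ i, S.mg φ t i z * S.mg φ l i z +
          ∑ i, S.mg φ t i z ^ 2 := by
      rw [Finset.mul_sum, ← Finset.sum_sub_distrib, ← Finset.sum_add_distrib]
      refine Finset.sum_congr rfl fun i _ => ?_
      ring
    rw [e3]
    ring
  rw [e1]
  have e4 : ∀ a, (S.mg φ l a z - Mc S φ I w a z) ^ 2 ≤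
      ∑ t ∈ I, w t * (S.mg φ l a z - S.mg φ t a z) ^ 2 := by
    intro a
    have e5 : S.mg φ l a z - Mc S φ I w a z = ∑ t ∈ I, w t * (S.mg φ l a z - S.mg φ t a z) := by
      unfold Mc
      simp_rw [mul_sub]
      rw [Finset.sum_sub_distrib, ← Finset.sum_mul, hI.sum, one_mul]
    rw [e5]
    have h6 := Finset.sum_mul_sq_le_sq_mul_sq I (fun t => √(w t))
      (fun t => √(w t) * (S.mg φ l a z - S.mg φ t a z))
    have e7 : ∑ t ∈ I, √(w t) * (√(w t) * (S.mg φ l a z - S.mg φ t a z)) =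
        ∑ t ∈ I, w t * (S.mg φ l a z - S.mg φ t a z) := by
      refine Finset.sum_congr rfl fun t ht => ?_
      rw [← mul_assoc, Real.mul_self_sqrt (hI.nonneg t ht)]
    have e8 : ∑ t ∈ I, √(w t) ^ 2 = 1 := by
      rw [← hI.sum]
      exact Finset.sum_congr rfl fun t ht => Real.sq_sqrt (hI.nonneg t ht)
    have e9 : ∑ t ∈ I, (√(w t) * (S.mg φ l a z - S.mg φ t a z)) ^ 2 =
        ∑ t ∈ I, w t * (S.mg φ l a z - S.mg φ t a z) ^ 2 := by
      refine Finset.sum_congr rfl fun t ht => ?_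
      rw [mul_pow, Real.sq_sqrt (hI.nonneg t ht)]
    rw [e7, e8, e9, one_mul] at h6
    exact h6
  calc 1 / (N : ℝ) * ∑ a, (S.mg φ l a z - Mc S φ I w a z) ^ 2
      ≤ 1 / (N : ℝ) * ∑ a, ∑ t ∈ I, w t * (S.mg φ l a z - S.mg φ t a z) ^ 2 :=
        mul_le_mul_of_nonneg_left (Finset.sum_le_sum fun a _ => e4 a) (by positivity)
    _ = ∑ t ∈ I, w t * (1 / N * ∑ a, (S.mg φ l a z - S.mg φ t a z) ^ 2) := by
        rw [Finset.sum_comm, Finset.mul_sum]
        refine Finset.sum_congr rfl fun t _ => ?_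
        rw [← Finset.mul_sum]
        ring

lemma sq_sum_nonneg' (a b : ℝ) (ha : 0 ≤ a) (hb : 0 ≤ b) : a ^ 2 + b ^ 2 ≤ (a + b) ^ 2 := by
  nlinarith [mul_nonneg ha hb]

/-- the second moment of a bracket `0 ≤ Δ ≤ 2 T_l B - 2 T_l A` -/
lemma Ex_sq_gap_le (hS : S.Reg) {l : ℕ} (hl : l ≤ S.K) {A B : (ι → ℝ) → X → ℝ} (nA : Nh A)
    (nB : Nh B) :
    S.Ex (fun z _ => (2 * S.T l B z - 2 * S.T l A z) ^ 2) ≤
      (2 * S.Ex B - 2 * S.Ex A) ^ 2 + 8 * vr S A + 8 * vr S B := by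
  have vA := vr_T_le hS hl nA
  have vB := vr_T_le hS hl nB
  obtain ⟨a, ha⟩ : ∃ a, a = S.Ex A := ⟨_, rfl⟩
  obtain ⟨b, hb⟩ : ∃ b, b = S.Ex B := ⟨_, rfl⟩
  obtain ⟨f, hf⟩ : ∃ f : (ι → ℝ) → ℝ, f = fun z => S.T l A z := ⟨_, rfl⟩
  obtain ⟨g, hg⟩ : ∃ g : (ι → ℝ) → ℝ, g = fun z => S.T l B z := ⟨_, rfl⟩
  have ef : EG f := by rw [hf]; exact hS.eg_T hl nA
  have eg : EG g := by rw [hg]; exact hS.eg_T hl nB
  have ea : S.Ex (fun z _ => f z) = a := by rw [hf, ha]; exact hS.Ex_T hl nA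
  have eb : S.Ex (fun z _ => g z) = b := by rw [hg, hb]; exact hS.Ex_T hl nB
  have va : vr S (fun z _ => f z) ≤ vr S A := by rw [hf]; exact vA
  have vb : vr S (fun z _ => g z) ≤ vr S B := by rw [hg]; exact vB
  have e0 : (fun (z : ι → ℝ) (_ : X) => (2 * S.T l B z - 2 * S.T l A z) ^ 2) =
      fun z x => (((fun (_ : ι → ℝ) (_ : X) => (2 * b - 2 * a) ^ 2) z x +
        (fun (z : ι → ℝ) (_ : X) => (4 * (2 * b - 2 * a)) * (g z - b)) z x) -
        (fun (z : ι → ℝ) (_ : X) => (4 * (2 * b - 2 * a)) * (f z - a)) z x) +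
        (fun (z : ι → ℝ) (_ : X) => 4 * ((g z - b) - (f z - a)) ^ 2) z x := by
    funext z _
    rw [hf, hg]
    ring
  have n1 : EG fun z : ι → ℝ => g z - b := eg.sub (EG.const _)
  have n2 : EG fun z : ι → ℝ => f z - a := ef.sub (EG.const _)
  have z1 : S.Ex (fun z _ => g z - b) = 0 := by
    have := hS.Ex_sub (Nh.fst (X := X) eg) (Nh.fst (X := X) (EG.const b))
    rw [hS.Ex_const, eb, sub_self] at this
    exact this
  have z2 : S.Ex (fun z _ => f z - a) = 0 := by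
    have := hS.Ex_sub (Nh.fst (X := X) ef) (Nh.fst (X := X) (EG.const a))
    rw [hS.Ex_const, ea, sub_self] at this
    exact this
  have k1 : S.Ex (fun z _ => 4 * ((g z - b) - (f z - a)) ^ 2) ≤
      8 * vr S (fun z _ => f z) + 8 * vr S (fun z _ => g z) := by
    unfold vr
    rw [ea, eb, ← Sy.Ex_const_mul, ← Sy.Ex_const_mul,
      ← hS.Ex_add (Nh.fst (EG.const_mul _ (n2.pow 2))) (Nh.fst (EG.const_mul _ (n1.pow 2)))]
    refine hS.Ex_mono (Nh.fst (EG.const_mul _ ((n1.sub n2).pow 2)))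
      (Nh.fst ((EG.const_mul _ (n2.pow 2)).add (EG.const_mul _ (n1.pow 2)))) fun z _ => ?_
    nlinarith [sq_nonneg ((g z - b) + (f z - a))]
  rw [e0, hS.Ex_add (Nh.sub (Nh.add (Nh.fst (EG.const _)) (Nh.fst (EG.const_mul _ n1)))
      (Nh.fst (EG.const_mul _ n2))) (Nh.fst (EG.const_mul _ ((n1.sub n2).pow 2))),
    hS.Ex_sub (Nh.add (Nh.fst (EG.const _)) (Nh.fst (EG.const_mul _ n1)))
      (Nh.fst (EG.const_mul _ n2)),
    hS.Ex_add (Nh.fst (EG.const _)) (Nh.fst (EG.const_mul _ n1)), hS.Ex_const,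
    Sy.Ex_const_mul S (4 * (2 * b - 2 * a)) (fun z _ => g z - b),
    Sy.Ex_const_mul S (4 * (2 * b - 2 * a)) (fun z _ => f z - a), z1, z2, ← ha, ← hb]
  linarith

section main

variable (F : Fld S D φ zc s)

include F

/-- **THE VARIANCE OF THE OVERLAP BY THE CELLS (R4 + R5).** `I` is a cell left of `l`, `I'` a cell
right of `l + 1`. -/
theorem pair_var_cells {l : ℕ} (hl : l < S.K) (hinj : Function.Injective (zc (l + 1)))
    (hs : 0 < s (l + 1)) {I I' : Finset ℕ} {w w' : ℕ → ℝ} (hI : Cell S I w) (hI' : Cell S I' w')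
    (h : ∀ t ∈ I, t ≤ l) (h' : ∀ t ∈ I', l + 1 ≤ t) :
    S.pairEx l (fun x x' => Rov φ x x' ^ 2) - S.Rl φ l ^ 2 ≤
      6 / (N * s (l + 1) ^ 2 * S.m (l + 1) ^ 2) * (S.Rl φ (l + 1) - S.Rl φ l) +
        6 * (∑ t ∈ I', w' t * S.Rl φ t - ∑ t ∈ I, w t * S.Rl φ t) ^ 2 +
        40 * vr S (cellA S φ I w) + 36 * vr S (cellA S φ I' w') := by
  have hS := F.hreg
  have hN := F.N_pos
  obtain ⟨A, hA⟩ : ∃ A, A = cellA S φ I w := ⟨_, rfl⟩
  obtain ⟨B, hB⟩ : ∃ B, B = cellA S φ I' w' := ⟨_, rfl⟩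
  have nA : Nh A := by rw [hA]; exact nh_cellA hS hI.le w
  have nB : Nh B := by rw [hB]; exact nh_cellA hS hI'.le w'
  have eM := fun a => eg_Mc (φ := φ) hS hI.le w a
  have em := fun a => Fld.eg_mg (φ := φ) hS hl.le a
  have k1 := pair_var_le F hl.le eM
  have k2 := Ex_cvN_le F hl hinj hs
  have k3 := Ex_Qf_cell_le (φ := φ) hS hl.le (w := w) h
  have k4 := var_rho_le (φ := φ) hS hl.le hI hI' h (fun t ht => (Nat.le_succ l).trans (h' t ht))
  have k5 := Ex_sq_gap_le hS hl.le nA nB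
  have g1 : 2 * S.Ex A = ∑ t ∈ I, w t * S.Rl φ t := by rw [hA]; exact two_Ex_cellA hS hI.le w
  have g2 : 2 * S.Ex B = ∑ t ∈ I', w' t * S.Rl φ t := by
    rw [hB]; exact two_Ex_cellA hS hI'.le w'
  rw [g1, g2] at k5
  rw [← hA] at k3 k4 ⊢
  rw [← hB] at k4 ⊢
  have ew := eg_wl (φ := φ) hS hl
  have ed : EG (fun z => 1 / (N : ℝ) * ∑ a, (S.mg φ l a z - Mc S φ I w a z) ^ 2) :=
    EG.const_mul _ (EG.sum _ fun a _ => ((em a).sub (eM a)).pow 2)
  have eTA := hS.eg_T hl.le nA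
  have eTB := hS.eg_T hl.le nB
  have p1 : ∀ z, 1 / (N : ℝ) * ∑ a, (S.mg φ l a z - Mc S φ I w a z) ^ 2 + wl S φ l z ≤
      2 * S.T l B z - 2 * S.T l A z := by
    intro z
    have q1 := dist_Mc_le (φ := φ) hS hl.le hI h z
    have q2 : S.T l (fun z _ => rho S φ (l + 1) z) z ≤ 2 * S.T l B z := by
      have q3 := hS.T_mono hl.le (f := fun z _ => rho S φ (l + 1) z)
        (g := fun z _ => 2 * S.T (l + 1) B z) (Nh.fst (eg_rho hS hl))
        (Nh.fst (EG.const_mul _ (hS.eg_T hl nB)))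
        (fun z _ => by rw [hB]; exact sand_right hS hl hI' h' z) z
      rw [Sy.T_const_mul, hS.T_T (Nat.le_succ l) hl nB] at q3
      exact q3
    rw [← hA] at q1
    unfold wl
    linarith
  have p2 : ∀ z, 0 ≤ 1 / (N : ℝ) * ∑ a, (S.mg φ l a z - Mc S φ I w a z) ^ 2 := by
    intro z; positivity
  have k6 : S.Ex (fun z _ => (1 / (N : ℝ) * ∑ a, (S.mg φ l a z - Mc S φ I w a z) ^ 2) ^ 2) +
      S.Ex (fun z _ => wl S φ l z ^ 2) ≤
      S.Ex (fun z _ => (2 * S.T l B z - 2 * S.T l A z) ^ 2) := by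
    rw [← hS.Ex_add (Nh.fst (ed.pow 2)) (Nh.fst (ew.pow 2))]
    refine hS.Ex_mono (Nh.fst ((ed.pow 2).add (ew.pow 2)))
      (Nh.fst (((EG.const_mul _ eTB).sub (EG.const_mul _ eTA)).pow 2)) fun z _ => ?_
    have q1 := wl_nonneg (φ := φ) hS hl z
    have q2 := p2 z
    have q3 := p1 z
    refine (sq_sum_nonneg' _ _ q2 q1).trans ?_
    exact pow_le_pow_left₀ (by linarith) q3 2
  have k7 : 0 ≤ S.Ex (fun z _ => (1 / (N : ℝ) * ∑ a, (S.mg φ l a z - Mc S φ I w a z) ^ 2) ^ 2) := by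
    have h1 := hS.Ex_mono (f := fun _ _ => 0) (g := fun z _ =>
      (1 / (N : ℝ) * ∑ a, (S.mg φ l a z - Mc S φ I w a z) ^ 2) ^ 2)
      (fun _ => EG.const _) (Nh.fst (ed.pow 2)) (fun z x => sq_nonneg _)
    rwa [hS.Ex_const] at h1
  have e6 : 6 / (N * s (l + 1) ^ 2 * S.m (l + 1) ^ 2) * (S.Rl φ (l + 1) - S.Rl φ l) =
      3 * (2 / (N * s (l + 1) ^ 2 * S.m (l + 1) ^ 2) * (S.Rl φ (l + 1) - S.Rl φ l)) := by ring
  rw [e6]
  have vA0 := vr_nonneg hS nA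
  have vB0 := vr_nonneg hS nB
  linarith

/-- **ROBUST FORM**: only the gaps of the overlap path. -/
theorem pair_var_robust {l : ℕ} (hl : l < S.K) (hinj : Function.Injective (zc (l + 1)))
    (hs : 0 < s (l + 1)) {I : Finset ℕ} {w : ℕ → ℝ} (hI : Cell S I w)
    (h : ∀ t ∈ I, t ≤ l) :
    S.pairEx l (fun x x' => Rov φ x x' ^ 2) - S.Rl φ l ^ 2 ≤
      (6 / (N * s (l + 1) ^ 2 * S.m (l + 1) ^ 2) + 3) * (S.Rl φ (l + 1) - S.Rl φ l) +
        8 * (S.Rl φ l - ∑ t ∈ I, w t * S.Rl φ t) +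
        4 * vr S (cellA S φ I w) + vr S (fun z _ => rho S φ l z) := by
  have hS := F.hreg
  have hN := F.N_pos
  obtain ⟨A, hA⟩ : ∃ A, A = cellA S φ I w := ⟨_, rfl⟩
  have nA : Nh A := by rw [hA]; exact nh_cellA hS hI.le w
  have eM := fun a => eg_Mc (φ := φ) hS hI.le w a
  have em := fun a => Fld.eg_mg (φ := φ) hS hl.le a
  have k1 := pair_var_le F hl.le eM
  have k2 := Ex_cvN_le' F hl hinj hs
  have k3 := Ex_Qf_cell_le (φ := φ) hS hl.le (w := w) h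
  have g1 : 2 * S.Ex A = ∑ t ∈ I, w t * S.Rl φ t := by rw [hA]; exact two_Ex_cellA hS hI.le w
  rw [← hA] at k3 ⊢
  have ed : EG (fun z => 1 / (N : ℝ) * ∑ a, (S.mg φ l a z - Mc S φ I w a z) ^ 2) :=
    EG.const_mul _ (EG.sum _ fun a _ => ((em a).sub (eM a)).pow 2)
  have eTA := hS.eg_T hl.le nA
  have p2 : ∀ z, 0 ≤ 1 / (N : ℝ) * ∑ a, (S.mg φ l a z - Mc S φ I w a z) ^ 2 := by
    intro z; positivity
  have p3 : ∀ z, 1 / (N : ℝ) * ∑ a, (S.mg φ l a z - Mc S φ I w a z) ^ 2 ≤ 4 := by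
    intro z
    have q0 : ∀ t ≤ S.K, 1 / (N : ℝ) * ∑ a, S.mg φ t a z ^ 2 ≤ 1 := fun t ht =>
      rho_le_one' F ht z
    have q1 : ∀ a, Mc S φ I w a z ^ 2 ≤ ∑ t ∈ I, w t * S.mg φ t a z ^ 2 := by
      intro a
      have h6 := Finset.sum_mul_sq_le_sq_mul_sq I (fun t => √(w t))
        (fun t => √(w t) * S.mg φ t a z)
      have e7 : ∑ t ∈ I, √(w t) * (√(w t) * S.mg φ t a z) = Mc S φ I w a z := by
        unfold Mc
        refine Finset.sum_congr rfl fun t ht => ?_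
        rw [← mul_assoc, Real.mul_self_sqrt (hI.nonneg t ht)]
      have e8 : ∑ t ∈ I, √(w t) ^ 2 = 1 := by
        rw [← hI.sum]
        exact Finset.sum_congr rfl fun t ht => Real.sq_sqrt (hI.nonneg t ht)
      have e9 : ∑ t ∈ I, (√(w t) * S.mg φ t a z) ^ 2 = ∑ t ∈ I, w t * S.mg φ t a z ^ 2 := by
        refine Finset.sum_congr rfl fun t ht => ?_
        rw [mul_pow, Real.sq_sqrt (hI.nonneg t ht)]
      rw [e7, e8, e9, one_mul] at h6
      exact h6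
    have q2 : 1 / (N : ℝ) * ∑ a, Mc S φ I w a z ^ 2 ≤ 1 := by
      calc 1 / (N : ℝ) * ∑ a, Mc S φ I w a z ^ 2
          ≤ 1 / (N : ℝ) * ∑ a, ∑ t ∈ I, w t * S.mg φ t a z ^ 2 :=
            mul_le_mul_of_nonneg_left (Finset.sum_le_sum fun a _ => q1 a) (by positivity)
        _ = ∑ t ∈ I, w t * (1 / N * ∑ a, S.mg φ t a z ^ 2) := by
            rw [Finset.sum_comm, Finset.mul_sum]
            refine Finset.sum_congr rfl fun t _ => ?_
            rw [← Finset.mul_sum]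
            ring
        _ ≤ ∑ t ∈ I, w t * 1 := Finset.sum_le_sum fun t ht =>
            mul_le_mul_of_nonneg_left (q0 t (hI.le t ht)) (hI.nonneg t ht)
        _ = 1 := by simp_rw [mul_one]; exact hI.sum
    have q3 := q0 l hl.le
    have q4 : ∑ a, (S.mg φ l a z - Mc S φ I w a z) ^ 2 ≤
        2 * ∑ a, S.mg φ l a z ^ 2 + 2 * ∑ a, Mc S φ I w a z ^ 2 := by
      rw [Finset.mul_sum, Finset.mul_sum, ← Finset.sum_add_distrib]
      refine Finset.sum_le_sum fun a _ => ?_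
      nlinarith [sq_nonneg (S.mg φ l a z + Mc S φ I w a z)]
    have q5 := mul_le_mul_of_nonneg_left q4 (by positivity : 0 ≤ 1 / (N : ℝ))
    have e : 1 / (N : ℝ) * (2 * ∑ a, S.mg φ l a z ^ 2 + 2 * ∑ a, Mc S φ I w a z ^ 2) =
      2 * (1 / N * ∑ a, S.mg φ l a z ^ 2) + 2 * (1 / N * ∑ a, Mc S φ I w a z ^ 2) := by ring
    rw [e] at q5
    linarith
  have k6 : S.Ex (fun z _ => (1 / (N : ℝ) * ∑ a, (S.mg φ l a z - Mc S φ I w a z) ^ 2) ^ 2) ≤
      4 * (S.Rl φ l - ∑ t ∈ I, w t * S.Rl φ t) := by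
    have e1 : S.Ex (fun z _ => 4 * (rho S φ l z - 2 * S.T l A z)) =
        4 * (S.Rl φ l - ∑ t ∈ I, w t * S.Rl φ t) := by
      rw [Sy.Ex_const_mul, hS.Ex_sub (Nh.fst (eg_rho hS hl.le)) (Nh.fst (EG.const_mul _ eTA)),
        Ex_rho, Sy.Ex_const_mul, hS.Ex_T hl.le nA, g1]
    rw [← e1]
    refine hS.Ex_mono (Nh.fst (ed.pow 2)) (Nh.fst (EG.const_mul _
      ((eg_rho hS hl.le).sub (EG.const_mul _ eTA)))) fun z _ => ?_
    have q1 := dist_Mc_le (φ := φ) hS hl.le hI h z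
    rw [← hA] at q1
    have q2 := p2 z
    have q3 := p3 z
    nlinarith
  have e6 : (6 / (N * s (l + 1) ^ 2 * S.m (l + 1) ^ 2) + 3) * (S.Rl φ (l + 1) - S.Rl φ l) =
      3 * ((2 / (N * s (l + 1) ^ 2 * S.m (l + 1) ^ 2) + 1) * (S.Rl φ (l + 1) - S.Rl φ l)) := by
    ring
  rw [e6]
  linarith

end main

end Vale.Agent.P146.H785
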