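import Vale.Agent.P146.H785.Ibp

set_option linter.all false

/-!
The thermal part. With `H = ‖chi_l‖` (Hilbert–Schmidt), `N w_l = T_l |M_{l+1} - M_l|²`, a field of
the level `l + 1` with coefficient `s` and exponent `m = m_{l+1}`:
`H² ≤ 2 N w_l / s² + m² (N w_l)²`, and `m ‖C_l‖ ≤ ‖chi_l‖`. Hence
`‖C_l‖² / N² ≤ 2 w_l / (N s² m²) + w_l²`.
-/

open MeasureTheory ProbabilityTheory Filter Topology

namespace Vale.Agent.P146.H785

open Vale.Agent.P157.Lv Vale.Agent.P157.Lv.Sy Vale.Agent.P146.H784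

/-! ### Linear algebra -/

section alg

variable {N : ℕ}

lemma sum_cube_le (c : Fin N → Fin N → ℝ) {H2 : ℝ} (hH : ∑ a, ∑ b, c a b ^ 2 = H2) :
    ∑ a, ∑ a', c a a' * ∑ b, c a b * c a' b ≤ √H2 * H2 := by
  have h0 : 0 ≤ H2 := by rw [← hH]; positivity
  have e1 : ∑ a, ∑ a', c a a' * ∑ b, c a b * c a' b =
      ∑ q : Fin N × Fin N, c q.1 q.2 * ∑ b, c q.1 b * c q.2 b := by
    rw [Fintype.sum_prod_type]
  have h1 := Finset.sum_mul_sq_le_sq_mul_sq Finset.univ (fun q : Fin N × Fin N => c q.1 q.2)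
    (fun q => ∑ b, c q.1 b * c q.2 b)
  have e2 : ∑ q : Fin N × Fin N, c q.1 q.2 ^ 2 = H2 := by
    rw [Fintype.sum_prod_type]; exact hH
  have h2 : ∑ q : Fin N × Fin N, (∑ b, c q.1 b * c q.2 b) ^ 2 ≤ H2 ^ 2 := by
    calc ∑ q : Fin N × Fin N, (∑ b, c q.1 b * c q.2 b) ^ 2
        ≤ ∑ q : Fin N × Fin N, (∑ b, c q.1 b ^ 2) * ∑ b, c q.2 b ^ 2 :=
          Finset.sum_le_sum fun q _ => Finset.sum_mul_sq_le_sq_mul_sq _ _ _
      _ = H2 ^ 2 := by
          rw [Fintype.sum_prod_type, sq, ← hH, Finset.sum_mul]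
          refine Finset.sum_congr rfl fun a _ => ?_
          rw [Finset.mul_sum]
  rw [e1]
  rw [e2] at h1
  have h3 : (∑ q : Fin N × Fin N, c q.1 q.2 * ∑ b, c q.1 b * c q.2 b) ^ 2 ≤ H2 * H2 ^ 2 :=
    h1.trans (mul_le_mul_of_nonneg_left h2 h0)
  refine Real.le_sqrt_of_sq_le h3 |>.trans (le_of_eq ?_)
  rw [Real.sqrt_mul h0, Real.sqrt_sq h0]

/-- the final step: a quadratic inequality -/
lemma quad_le {H2 C3 m s w : ℝ} (h0 : 0 ≤ H2) (hm : 0 ≤ m) (hs : 0 < s) (hw : 0 ≤ w)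
    (hC : C3 ≤ √H2 * H2)
    (h : ∀ t : ℝ, 0 ≤ t ^ 2 * (H2 + m * s ^ 2 * C3) - 2 * t * (s * H2) + w) :
    H2 ≤ 2 * w / s ^ 2 + m ^ 2 * w ^ 2 := by
  obtain ⟨H, hH, hHs⟩ : ∃ H : ℝ, 0 ≤ H ∧ H ^ 2 = H2 := ⟨√H2, Real.sqrt_nonneg _, Real.sq_sqrt h0⟩
  have e : √H2 = H := by rw [← hHs, Real.sqrt_sq hH]
  rw [e, ← hHs] at hC
  rw [← hHs] at h ⊢
  obtain ⟨k, hk⟩ : ∃ k, k = 1 + m * s ^ 2 * H := ⟨_, rfl⟩
  have hk0 : 0 < k := by rw [hk]; positivity
  have h1 := h (s / k)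
  have h2 : H ^ 2 + m * s ^ 2 * C3 ≤ H ^ 2 * k := by
    have := mul_le_mul_of_nonneg_left hC (by positivity : 0 ≤ m * s ^ 2)
    rw [hk]; nlinarith
  have h3 : (s / k) ^ 2 * (H ^ 2 + m * s ^ 2 * C3) ≤ s ^ 2 * H ^ 2 / k := by
    calc (s / k) ^ 2 * (H ^ 2 + m * s ^ 2 * C3) ≤ (s / k) ^ 2 * (H ^ 2 * k) :=
          mul_le_mul_of_nonneg_left h2 (by positivity)
      _ = s ^ 2 * H ^ 2 / k := by field_simp
  have h4 : 2 * (s / k) * (s * H ^ 2) = 2 * (s ^ 2 * H ^ 2 / k) := by ring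
  have h5 : s ^ 2 * H ^ 2 / k ≤ w := by linarith
  rw [div_le_iff₀ hk0] at h5
  have h6 : H ^ 2 ≤ w * k / s ^ 2 := by
    rw [le_div_iff₀ (by positivity)]; linarith
  have h7 : w * k / s ^ 2 = w / s ^ 2 + m * w * H := by
    rw [hk]; field_simp
  rw [h7] at h6
  have h8 : m * w * H ≤ H ^ 2 / 2 + m ^ 2 * w ^ 2 / 2 := by
    nlinarith [sq_nonneg (H - m * w)]
  have h9 : 2 * w / s ^ 2 = 2 * (w / s ^ 2) := by ring
  rw [h9]
  linarith

end alg

variable {ι X : Type} [Fintype ι] [DecidableEq ι] [Fintype X] [DecidableEq X] [Nonempty X]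
  {S : Sy ι X} {D : ι → (ι → ℝ) → X → ℝ} {N : ℕ} {φ : X → Fin N → ℝ} {zc : ℕ → Fin N → ι}
  {s : ℕ → ℝ}

/-- `‖chi_l‖²` -/
noncomputable def chN (S : Sy ι X) (φ : X → Fin N → ℝ) (l : ℕ) : (ι → ℝ) → ℝ :=
  fun z => ∑ a, ∑ b, ch S φ l a b z ^ 2

/-- `‖C_l‖²` -/
noncomputable def cvN (S : Sy ι X) (φ : X → Fin N → ℝ) (l : ℕ) : (ι → ℝ) → ℝ :=
  fun z => ∑ a, ∑ b, cv S φ l a b z ^ 2

/-- `v^T C_l v` -/
noncomputable def cvQ (S : Sy ι X) (φ : X → Fin N → ℝ) (l : ℕ) (v : Fin N → ℝ) : (ι → ℝ) → ℝ :=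
  fun z => ∑ a, ∑ b, v a * v b * cv S φ l a b z

/-- `N w_l = T_l |M_{l+1} - M_l|²` -/
noncomputable def dM (S : Sy ι X) (φ : X → Fin N → ℝ) (l : ℕ) : (ι → ℝ) → ℝ :=
  fun z => ∑ b, (S.T l (fun z _ => S.mg φ (l + 1) b z ^ 2) z - S.mg φ l b z ^ 2)

section main

variable (F : Fld S D φ zc s)

include F

/-- the covariance of the field and the next magnetization is `s chi_l` -/
lemma cov_z_mg {l : ℕ} (hl : l < S.K) (a b : Fin N) (z : ι → ℝ) :
    S.T l (fun z _ => z (zc (l + 1) a) * S.mg φ (l + 1) b z) z -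
      S.T l (fun z _ => z (zc (l + 1) a)) z * S.mg φ l b z = s (l + 1) * ch S φ l a b z := by
  have hS := F.hreg
  rw [T_dep_mul_mg F hS (Nat.lt_succ_self l) hl (EG.coord _) (dep_coord F hl a) b z,
    T_z_phi F hl a b z, T_z F hl a z]
  ring

lemma cov_z_z {l : ℕ} (hl : l < S.K) (hinj : Function.Injective (zc (l + 1))) (a b : Fin N)
    (z : ι → ℝ) :
    S.T l (fun z _ => z (zc (l + 1) a) * z (zc (l + 1) b)) z -
      S.T l (fun z _ => z (zc (l + 1) a)) z * S.T l (fun z _ => z (zc (l + 1) b)) z =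
      (if b = a then 1 else 0) + S.m (l + 1) * s (l + 1) ^ 2 * ch S φ l a b z := by
  rw [T_z_z F hl hinj a b z, T_z F hl a z, T_z F hl b z]
  ring

/-- the quadratic form -/
lemma quad_form {l : ℕ} (hl : l < S.K) (hinj : Function.Injective (zc (l + 1))) (z : ι → ℝ)
    (t : ℝ) :
    0 ≤ t ^ 2 * (chN S φ l z + S.m (l + 1) * s (l + 1) ^ 2 *
        ∑ a, ∑ a', ch S φ l a a' z * ∑ b, ch S φ l a b z * ch S φ l a' b z) -
      2 * t * (s (l + 1) * chN S φ l z) + dM S φ l z := by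
  have hS := F.hreg
  obtain ⟨c, hc⟩ : ∃ c : Fin N → Fin N → ℝ, c = fun a b => ch S φ l a b z := ⟨_, rfl⟩
  obtain ⟨τ, hτ⟩ : ∃ τ : Fin N → ℝ, τ = fun a => S.T l (fun z _ => z (zc (l + 1) a)) z := ⟨_, rfl⟩
  obtain ⟨μ, hμ⟩ : ∃ μ : Fin N → ℝ, μ = fun b => S.mg φ l b z := ⟨_, rfl⟩
  have ez : ∀ a, EG (fun z : ι → ℝ => z (zc (l + 1) a)) := fun a => EG.coord _
  have em : ∀ b, EG (fun z : ι → ℝ => S.mg φ (l + 1) b z) := fun b => Fld.eg_mg hS hl b
  have eG : ∀ b, EG (fun z : ι → ℝ => ∑ a, c a b * (z (zc (l + 1) a) - τ a)) := fun b =>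
    EG.sum _ fun a _ => EG.const_mul _ ((ez a).sub (EG.const _))
  have eD : ∀ b, EG (fun z : ι → ℝ => S.mg φ (l + 1) b z - μ b) := fun b =>
    (em b).sub (EG.const _)
  -- the three averages
  have a1 : ∀ b, S.T l (fun z _ => (∑ a, c a b * (z (zc (l + 1) a) - τ a)) *
      (S.mg φ (l + 1) b z - μ b)) z = s (l + 1) * ∑ a, c a b ^ 2 := by
    intro b
    have e1 : (fun (z : ι → ℝ) (_ : X) => (∑ a, c a b * (z (zc (l + 1) a) - τ a)) *
        (S.mg φ (l + 1) b z - μ b)) = fun z x => ∑ a, c a b *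
          ((fun (z : ι → ℝ) (_ : X) => (z (zc (l + 1) a) - τ a) *
            (S.mg φ (l + 1) b z - μ b)) z x) := by
      funext z _
      rw [Finset.sum_mul]
      refine Finset.sum_congr rfl fun a _ => ?_
      ring
    rw [e1, hS.T_sum hl.le _ fun a _ => Nh.const_mul _ (Nh.fst (((ez a).sub (EG.const _)).mul
      (eD b))), Finset.mul_sum]
    refine Finset.sum_congr rfl fun a _ => ?_
    rw [Sy.T_const_mul]
    have e2 : (fun (z : ι → ℝ) (_ : X) => (z (zc (l + 1) a) - τ a) *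
            (S.mg φ (l + 1) b z - μ b)) = fun z x =>
          ((fun (z : ι → ℝ) (_ : X) => z (zc (l + 1) a) * S.mg φ (l + 1) b z) z x -
            (fun (z : ι → ℝ) (_ : X) => μ b * z (zc (l + 1) a)) z x) -
          ((fun (z : ι → ℝ) (_ : X) => τ a * S.mg φ (l + 1) b z) z x -
            (fun (_ : ι → ℝ) (_ : X) => τ a * μ b) z x) := by
      funext z _
      ring
    rw [e2, hS.T_sub hl.le (Nh.sub (Nh.fst ((ez a).mul (em b))) (Nh.fst (EG.const_mul _ (ez a))))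
        (Nh.sub (Nh.fst (EG.const_mul _ (em b))) (Nh.fst (EG.const _))),
      hS.T_sub hl.le (Nh.fst ((ez a).mul (em b))) (Nh.fst (EG.const_mul _ (ez a))),
      hS.T_sub hl.le (Nh.fst (EG.const_mul _ (em b))) (Nh.fst (EG.const _)), hS.T_const hl.le,
      Sy.T_const_mul S l (μ b) (fun z _ => z (zc (l + 1) a)),
      Sy.T_const_mul S l (τ a) (fun z _ => S.mg φ (l + 1) b z)]
    have e3 : S.T l (fun z _ => S.mg φ (l + 1) b z) z = μ b := by
      rw [hμ]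
      exact hS.T_T (Nat.le_succ l) hl (Nh.snd fun x => φ x b) z
    have e4 : S.T l (fun z _ => z (zc (l + 1) a)) z = τ a := by rw [hτ]
    have e5 := cov_z_mg F hl a b z
    have e6 : S.mg φ l b z = μ b := by rw [hμ]
    have e7 : ch S φ l a b z = c a b := by rw [hc]
    rw [e4, e6, e7] at e5
    rw [e3, e4]
    linear_combination (c a b) * e5
  have a2 : ∀ b, S.T l (fun z _ => (S.mg φ (l + 1) b z - μ b) ^ 2) z =
      S.T l (fun z _ => S.mg φ (l + 1) b z ^ 2) z - S.mg φ l b z ^ 2 := by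
    intro b
    have e2 : (fun (z : ι → ℝ) (_ : X) => (S.mg φ (l + 1) b z - μ b) ^ 2) = fun z x =>
          ((fun (z : ι → ℝ) (_ : X) => S.mg φ (l + 1) b z ^ 2) z x -
            (fun (z : ι → ℝ) (_ : X) => 2 * μ b * S.mg φ (l + 1) b z) z x) +
          (fun (_ : ι → ℝ) (_ : X) => μ b ^ 2) z x := by
      funext z _
      ring
    rw [e2, hS.T_add hl.le (Nh.sub (Nh.fst ((em b).pow 2)) (Nh.fst (EG.const_mul _ (em b))))
        (Nh.fst (EG.const _)),
      hS.T_sub hl.le (Nh.fst ((em b).pow 2)) (Nh.fst (EG.const_mul _ (em b))), hS.T_const hl.le,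
      Sy.T_const_mul S l (2 * μ b) (fun z _ => S.mg φ (l + 1) b z)]
    have e3 : S.T l (fun z _ => S.mg φ (l + 1) b z) z = μ b := by
      rw [hμ]
      exact hS.T_T (Nat.le_succ l) hl (Nh.snd fun x => φ x b) z
    have e6 : S.mg φ l b z = μ b := by rw [hμ]
    rw [e3, e6]
    ring
  have a3 : ∀ b, S.T l (fun z _ => (∑ a, c a b * (z (zc (l + 1) a) - τ a)) ^ 2) z =
      ∑ a, ∑ a', c a b * c a' b * ((if a' = a then 1 else 0) +
        S.m (l + 1) * s (l + 1) ^ 2 * c a a') := by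
    intro b
    have e1 : (fun (z : ι → ℝ) (_ : X) => (∑ a, c a b * (z (zc (l + 1) a) - τ a)) ^ 2) =
        fun z x => ∑ a, (fun (z : ι → ℝ) (x : X) => ∑ a', (fun (z : ι → ℝ) (x : X) =>
          c a b * c a' b * ((fun (z : ι → ℝ) (_ : X) =>
            (z (zc (l + 1) a) - τ a) * (z (zc (l + 1) a') - τ a')) z x)) z x) z x := by
      funext z _
      rw [sq, Finset.sum_mul_sum]
      refine Finset.sum_congr rfl fun a _ => Finset.sum_congr rfl fun a' _ => ?_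
      ring
    have nn : ∀ a a', Nh (X := X) (fun (z : ι → ℝ) (_ : X) =>
        (z (zc (l + 1) a) - τ a) * (z (zc (l + 1) a') - τ a')) := fun a a' =>
      Nh.fst (((ez a).sub (EG.const _)).mul ((ez a').sub (EG.const _)))
    rw [e1, hS.T_sum hl.le _ fun a _ => Nh.sum _ fun a' _ => Nh.const_mul _ (nn a a')]
    refine Finset.sum_congr rfl fun a _ => ?_
    rw [hS.T_sum hl.le _ fun a' _ => Nh.const_mul _ (nn a a')]
    refine Finset.sum_congr rfl fun a' _ => ?_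
    rw [Sy.T_const_mul]
    congr 1
    have e2 : (fun (z : ι → ℝ) (_ : X) => (z (zc (l + 1) a) - τ a) *
            (z (zc (l + 1) a') - τ a')) = fun z x =>
          ((fun (z : ι → ℝ) (_ : X) => z (zc (l + 1) a) * z (zc (l + 1) a')) z x -
            (fun (z : ι → ℝ) (_ : X) => τ a' * z (zc (l + 1) a)) z x) -
          ((fun (z : ι → ℝ) (_ : X) => τ a * z (zc (l + 1) a')) z x -
            (fun (_ : ι → ℝ) (_ : X) => τ a * τ a') z x) := by
      funext z _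
      ring
    rw [e2, hS.T_sub hl.le (Nh.sub (Nh.fst ((ez a).mul (ez a'))) (Nh.fst (EG.const_mul _ (ez a))))
        (Nh.sub (Nh.fst (EG.const_mul _ (ez a'))) (Nh.fst (EG.const _))),
      hS.T_sub hl.le (Nh.fst ((ez a).mul (ez a'))) (Nh.fst (EG.const_mul _ (ez a))),
      hS.T_sub hl.le (Nh.fst (EG.const_mul _ (ez a'))) (Nh.fst (EG.const _)), hS.T_const hl.le,
      Sy.T_const_mul S l (τ a') (fun z _ => z (zc (l + 1) a)),
      Sy.T_const_mul S l (τ a) (fun z _ => z (zc (l + 1) a'))]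
    have e4 : ∀ a, S.T l (fun z _ => z (zc (l + 1) a)) z = τ a := fun a => by rw [hτ]
    have e5 := cov_z_z F hl hinj a a' z
    have e7 : ch S φ l a a' z = c a a' := by rw [hc]
    rw [e4, e4, e7] at e5
    rw [e4, e4]
    linear_combination e5
  -- the quadratic form
  have q0 : 0 ≤ S.T l (fun z _ => ∑ b, (t * (∑ a, c a b * (z (zc (l + 1) a) - τ a)) -
      (S.mg φ (l + 1) b z - μ b)) ^ 2) z := by
    have h0 := hS.T_mono hl.le (f := fun _ _ => (0 : ℝ))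
      (g := fun (z : ι → ℝ) (_ : X) => ∑ b, (t * (∑ a, c a b * (z (zc (l + 1) a) - τ a)) -
      (S.mg φ (l + 1) b z - μ b)) ^ 2) (Nh.snd fun _ => 0)
      (Nh.fst (EG.sum _ fun b _ => ((EG.const_mul t (eG b)).sub (eD b)).pow 2))
      (fun z y => Finset.sum_nonneg fun b _ => sq_nonneg _) z
    rwa [hS.T_const hl.le] at h0
  have q1 : S.T l (fun z _ => ∑ b, (t * (∑ a, c a b * (z (zc (l + 1) a) - τ a)) -
      (S.mg φ (l + 1) b z - μ b)) ^ 2) z =
      ∑ b, (t ^ 2 * (∑ a, ∑ a', c a b * c a' b * ((if a' = a then 1 else 0) +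
        S.m (l + 1) * s (l + 1) ^ 2 * c a a')) - 2 * t * (s (l + 1) * ∑ a, c a b ^ 2) +
        (S.T l (fun z _ => S.mg φ (l + 1) b z ^ 2) z - S.mg φ l b z ^ 2)) := by
    rw [hS.T_sum hl.le _ fun b _ => Nh.fst (((EG.const_mul t (eG b)).sub (eD b)).pow 2)]
    refine Finset.sum_congr rfl fun b _ => ?_
    have e2 : (fun (z : ι → ℝ) (_ : X) => (t * (∑ a, c a b * (z (zc (l + 1) a) - τ a)) -
      (S.mg φ (l + 1) b z - μ b)) ^ 2) = fun z x =>
        ((fun (z : ι → ℝ) (_ : X) => t ^ 2 * (∑ a, c a b * (z (zc (l + 1) a) - τ a)) ^ 2) z x -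
          (fun (z : ι → ℝ) (_ : X) => 2 * t * ((∑ a, c a b * (z (zc (l + 1) a) - τ a)) *
            (S.mg φ (l + 1) b z - μ b))) z x) +
          (fun (z : ι → ℝ) (_ : X) => (S.mg φ (l + 1) b z - μ b) ^ 2) z x := by
      funext z _
      ring
    rw [e2, hS.T_add hl.le (Nh.sub (Nh.fst (EG.const_mul _ ((eG b).pow 2)))
        (Nh.fst (EG.const_mul _ ((eG b).mul (eD b))))) (Nh.fst ((eD b).pow 2)),
      hS.T_sub hl.le (Nh.fst (EG.const_mul _ ((eG b).pow 2)))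
        (Nh.fst (EG.const_mul _ ((eG b).mul (eD b)))),
      Sy.T_const_mul S l (t ^ 2) (fun z _ => (∑ a, c a b * (z (zc (l + 1) a) - τ a)) ^ 2),
      Sy.T_const_mul S l (2 * t) (fun z _ => (∑ a, c a b * (z (zc (l + 1) a) - τ a)) *
            (S.mg φ (l + 1) b z - μ b)), a1 b, a2 b, a3 b]
  rw [q1] at q0
  refine q0.trans (le_of_eq ?_)
  rw [Finset.sum_add_distrib, Finset.sum_sub_distrib, ← Finset.mul_sum, ← Finset.mul_sum,
    ← Finset.mul_sum]
  have r1 : ∑ b, ∑ a, c a b ^ 2 = chN S φ l z := by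
    rw [Finset.sum_comm]
    simp only [chN, hc]
  have r2 : ∑ b, ∑ a, ∑ a', c a b * c a' b * ((if a' = a then 1 else 0) +
        S.m (l + 1) * s (l + 1) ^ 2 * c a a') = chN S φ l z + S.m (l + 1) * s (l + 1) ^ 2 *
        ∑ a, ∑ a', c a a' * ∑ b, c a b * c a' b := by
    have r3 : ∀ b a, ∑ a', c a b * c a' b * ((if a' = a then 1 else 0) +
        S.m (l + 1) * s (l + 1) ^ 2 * c a a') = c a b ^ 2 +
        ∑ a', S.m (l + 1) * s (l + 1) ^ 2 * (c a a' * (c a b * c a' b)) := by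
      intro b a
      simp_rw [mul_add]
      rw [Finset.sum_add_distrib]
      congr 1
      · simp
        ring
      · refine Finset.sum_congr rfl fun a' _ => ?_
        ring
    simp_rw [r3]
    simp_rw [Finset.sum_add_distrib]
    rw [r1]
    congr 1
    rw [Finset.sum_comm, Finset.mul_sum]
    refine Finset.sum_congr rfl fun a _ => ?_
    rw [Finset.sum_comm, Finset.mul_sum]
    refine Finset.sum_congr rfl fun a' _ => ?_
    rw [← Finset.mul_sum, ← Finset.mul_sum]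
  rw [r1, r2]
  simp only [dM, hc]

/-- **The response is bounded by the increment of the magnetization.** -/
theorem chN_le {l : ℕ} (hl : l < S.K) (hinj : Function.Injective (zc (l + 1)))
    (hs : 0 < s (l + 1)) (z : ι → ℝ) :
    chN S φ l z ≤ 2 * dM S φ l z / s (l + 1) ^ 2 + S.m (l + 1) ^ 2 * dM S φ l z ^ 2 := by
  have hS := F.hreg
  have h0 : 0 ≤ chN S φ l z := by unfold chN; positivity
  have hm : 0 ≤ S.m (l + 1) := (hS.m_pos (by omega) (by omega)).le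
  have hw : 0 ≤ dM S φ l z := by
    refine Finset.sum_nonneg fun b _ => ?_
    rw [sub_nonneg]
    have h1 : S.mg φ l b z = S.T l (fun z _ => S.mg φ (l + 1) b z) z :=
      (hS.T_T (Nat.le_succ l) hl (Nh.snd fun x => φ x b) z).symm
    rw [h1]
    exact hS.sq_T_le hl.le (Nh.fst (Fld.eg_mg hS hl b)) z
  exact quad_le h0 hm hs hw (sum_cube_le (fun a b => ch S φ l a b z) rfl)
    (quad_form F hl hinj z)

end main

end Vale.Agent.P146.H785
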