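import Vale.Agent.P146.H785.F2Err
import Vale.Agent.P146.H130.DenG

/-!
Plan R2, row F2: the base matrix `BT` of the two-layer law: a function of the first two positions,
positive semidefinite, with constant diagonal `(x - y) t1 + y (t1 - h)`.
-/

set_option linter.all false

open MeasureTheory ProbabilityTheory Finset Matrix

namespace Vale.Agent.P146.H785.F2T

open Vale.Agent.P157.Lv Vale.Agent.P146.H425 Vale.Agent.P146.H325 Vale.Agent.P146.H332
  Vale.Agent.P146.H712 Vale.Agent.P146.R1 Vale.Agent.P146.R1C Vale.Agent.P146.R1S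
  Vale.Agent.P146.H706 Vale.Agent.P146.H522 Vale.Agent.P146.H633
  Vale.Agent.P146.H326.J1 Vale.Agent.P146.H561
open Vale.Agent.P146.H785 (Ax)
open Vale.Agent.P146.H130 (BT eg_Ca Ca_comm)
open Vale.Agent.P146.H785.F2B

variable {n : ℕ} {k : ℝ} {q : Par} {S : CS n k q.x} {y h : ℝ}

/-- the base matrix as a function of the positions -/
noncomputable def Bf (S : CS n k q.x) (y h : ℝ) (z0 z1 _z2 : Pair n → ℝ) :
    Matrix (Fin n) (Fin n) ℝ := fun i j =>
  (q.x - y) * (q.t1 * S.A q.t1 z1 i j) +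
    y * ((q.t1 - h) * Br q y h S.F (H693.Ca S y h i j) z0 z1)

/-- the base matrix -/
noncomputable def BM (S : CS n k q.x) (y h : ℝ) (w : K4 (Pair n) → ℝ) :
    Matrix (Fin n) (Fin n) ℝ := fun i j => BT S y h w i j

lemma BM_eq (w : K4 (Pair n) → ℝ) : BM S y h w = Bf S y h (P0 q w) (P1 q w) (P2 q w) := rfl

lemma e3_Br (hy : 0 < y) {φ : (Pair n → ℝ) → ℝ} (hφ : EG φ) :
    E3 fun z0 z1 _ => Br q y h S.F φ z0 z1 := by
  obtain ⟨B', L', hN⟩ := c11_negV2 (q := q) S.c11 S.x0 hy h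
  have h1 : EG (Ax y (cc q h) (fun z => -1 * V2 q y h S.F z) φ) := R1.eg_Ax hN hφ _ _
  unfold E3 Br mb
  refine eg_compK h1 (A := fun w : K3 (Pair n) → ℝ => ca q h • b0 w + cb q h • b1 w)
    (by unfold b0 b1; fun_prop) (K := 0) (C := |ca q h| + |cb q h|) (by positivity)
    fun w => ?_
  refine (norm_add_le _ _).trans ?_
  rw [norm_smul, norm_smul, Real.norm_eq_abs, Real.norm_eq_abs]
  have h2 := mul_le_mul_of_nonneg_left (norm_b0 w) (abs_nonneg (ca q h))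
  have h3 := mul_le_mul_of_nonneg_left (norm_b1 w) (abs_nonneg (cb q h))
  linarith

lemma e3_Bf (hy : 0 < y) (i j : Fin n) : E3 fun z0 z1 z2 => Bf S y h z0 z1 z2 i j :=
  (((E3.of1 (S.eg_A q.t1 i j)).const_mul _).const_mul _).add
    (((e3_Br hy (eg_Ca i j)).const_mul _).const_mul _)

lemma Ca_self (i : Fin n) (z : Pair n → ℝ) : H693.Ca S y h i i z = 1 := by
  unfold H693.Ca
  have e : (fun u => S.A q.t1 u i i) = fun _ => (1 : ℝ) := funext fun u => S.A_self q.t1 u i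
  rw [e]
  have hu := c11_uu S.c11 S.x0 q.t1
  exact H785.Ax_const hu.lip hu.B0 1 _ _ z

lemma abs_Ca (i j : Fin n) (z : Pair n → ℝ) : |H693.Ca S y h i j z| ≤ 1 := by
  unfold H693.Ca
  have hu := c11_uu S.c11 S.x0 q.t1
  exact H785.Ax_abs_le hu.lip hu.B0 (S.eg_A q.t1 i j).meas (fun u => S.abs_A q.t1 u i j) _ _ z

lemma Ca_form (c : Fin n → ℝ) (z : Pair n → ℝ) :
    0 ≤ ∑ i, ∑ j, c i * c j * H693.Ca S y h i j z := by
  have hu := c11_uu S.c11 S.x0 q.t1
  have e : ∑ i, ∑ j, c i * c j * H693.Ca S y h i j z =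
      Ax y (√h) (uu q.x q.t1 S.F) (fun u => ∑ i, ∑ j, c i * c j * S.A q.t1 u i j) z := by
    rw [H785.Ax_sum hu.lip hu.B0 _ fun i _ => EG.sum _ fun j _ => (S.eg_A q.t1 i j).const_mul _]
    refine Finset.sum_congr rfl fun i _ => ?_
    rw [H785.Ax_sum hu.lip hu.B0 _ fun j _ => (S.eg_A q.t1 i j).const_mul _]
    refine Finset.sum_congr rfl fun j _ => ?_
    rw [H785.Ax_const_mul]
    rfl
  rw [e]
  have h1 := H785.Ax_mono hu.lip hu.B0 (EG.const 0) (EG.sum univ fun i _ => EG.sum univ fun j _ =>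
    (S.eg_A q.t1 i j).const_mul (c i * c j)) (fun u => (S.psd_A q.t1 u).2 c) y (√h) z
  rwa [H785.Ax_const hu.lip hu.B0] at h1

lemma Bf_psd (hy : 0 < y) (hyx : y ≤ q.x) (ht : 0 ≤ q.t1) (hh : h ≤ q.t1)
    (z0 z1 z2 : Pair n → ℝ) : (Bf S y h z0 z1 z2).PosSemidef := by
  refine psm_of ⟨?_, fun c => ?_⟩
  · ext i j
    rw [Matrix.transpose_apply]
    show (q.x - y) * (q.t1 * S.A q.t1 z1 j i) + y * ((q.t1 - h) * Br q y h S.F (H693.Ca S y h j i)
      z0 z1) = (q.x - y) * (q.t1 * S.A q.t1 z1 i j) + y * ((q.t1 - h) *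
        Br q y h S.F (H693.Ca S y h i j) z0 z1)
    rw [S.A_comm q.t1 z1 j i]
    have e : H693.Ca S y h j i = H693.Ca S y h i j := funext fun z => Ca_comm j i z
    rw [e]
  · have e : ∑ i, ∑ j, c i * c j * Bf S y h z0 z1 z2 i j =
        (q.x - y) * q.t1 * (∑ i, ∑ j, c i * c j * S.A q.t1 z1 i j) +
          y * (q.t1 - h) * Br q y h S.F (fun z => ∑ i, ∑ j, c i * c j * H693.Ca S y h i j z)
            z0 z1 := by
      rw [Br_sum S.c11 S.x0 hy _ fun i _ => EG.sum _ fun j _ => (eg_Ca i j).const_mul _,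
        Finset.mul_sum, Finset.mul_sum, ← Finset.sum_add_distrib]
      refine Finset.sum_congr rfl fun i _ => ?_
      rw [Br_sum S.c11 S.x0 hy _ fun j _ => (eg_Ca i j).const_mul _, Finset.mul_sum,
        Finset.mul_sum, ← Finset.sum_add_distrib]
      refine Finset.sum_congr rfl fun j _ => ?_
      rw [Br_const_mul]
      unfold Bf
      ring
    rw [e]
    have h1 := (S.psd_A q.t1 z1).2 c
    have h2 := Br_nonneg (q := q) (h := h) S.c11 S.x0 hy
      (EG.sum univ fun i _ => EG.sum univ fun j _ => (eg_Ca (S := S) (y := y) (h := h) i j).const_mul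
        (c i * c j)) (fun z => Ca_form c z) z0 z1
    have h3 : 0 ≤ (q.x - y) * q.t1 := mul_nonneg (by linarith) ht
    have h4 : 0 ≤ y * (q.t1 - h) := mul_nonneg hy.le (by linarith)
    exact add_nonneg (mul_nonneg h3 h1) (mul_nonneg h4 h2)

/-- the diagonal of the base matrix -/
noncomputable def cB (q : Par) (y h : ℝ) : ℝ := (q.x - y) * q.t1 + y * (q.t1 - h)

lemma cB_nonneg (hy : 0 < y) (hyx : y ≤ q.x) (ht : 0 ≤ q.t1) (hh : h ≤ q.t1) : 0 ≤ cB q y h :=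
  add_nonneg (mul_nonneg (by linarith) ht) (mul_nonneg hy.le (by linarith))

lemma cB_le (hy : 0 < y) (hyx : y ≤ q.x) (ht : q.t1 ≤ 1) (hh0 : 0 ≤ h) : cB q y h ≤ q.x := by
  unfold cB
  nlinarith

lemma Bf_diag (hy : 0 < y) (z0 z1 z2 : Pair n → ℝ) (i : Fin n) :
    Bf S y h z0 z1 z2 i i = cB q y h := by
  unfold Bf cB
  have e : H693.Ca S y h i i = fun _ => (1 : ℝ) := funext fun z => Ca_self i z
  rw [S.A_self, e, Br_const S.c11 S.x0 hy]
  ring

lemma abs_Bf (hy : 0 < y) (hyx : y ≤ q.x) (ht : 0 ≤ q.t1) (hh : h ≤ q.t1)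
    (z0 z1 z2 : Pair n → ℝ) (i j : Fin n) : |Bf S y h z0 z1 z2 i j| ≤ cB q y h := by
  have h1 := S.abs_A q.t1 z1 i j
  have h2 := abs_Br_le (q := q) (h := h) S.c11 S.x0 hy (eg_Ca (S := S) (y := y) (h := h) i j).meas
    (fun z => abs_Ca i j z) z0 z1
  have h3 : 0 ≤ (q.x - y) * q.t1 := mul_nonneg (by linarith) ht
  have h4 : 0 ≤ y * (q.t1 - h) := mul_nonneg hy.le (by linarith)
  have e : Bf S y h z0 z1 z2 i j = (q.x - y) * q.t1 * S.A q.t1 z1 i j +
      y * (q.t1 - h) * Br q y h S.F (H693.Ca S y h i j) z0 z1 := by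
    unfold Bf
    ring
  rw [e]
  obtain ⟨u, hu⟩ : ∃ u, u = (q.x - y) * q.t1 := ⟨_, rfl⟩
  obtain ⟨v, hv⟩ : ∃ v, v = y * (q.t1 - h) := ⟨_, rfl⟩
  have e2 : cB q y h = u + v := by rw [hu, hv]; rfl
  rw [← hu, ← hv, e2]
  rw [← hu] at h3
  rw [← hv] at h4
  refine (abs_add_le _ _).trans ?_
  rw [abs_mul u, abs_mul v, abs_of_nonneg h3, abs_of_nonneg h4]
  have h5 := mul_le_mul_of_nonneg_left h1 h3
  have h6 := mul_le_mul_of_nonneg_left h2 h4
  linarith

lemma nf_Bf (hy : 0 < y) (hyx : y ≤ q.x) (ht : 0 ≤ q.t1) (hh : h ≤ q.t1)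
    (z0 z1 z2 : Pair n → ℝ) : nf (Bf S y h z0 z1 z2) ≤ n * cB q y h := by
  have hc := cB_nonneg hy hyx ht hh
  have h1 : fr (Bf S y h z0 z1 z2) ≤ (n * cB q y h) ^ 2 := by
    unfold fr
    calc ∑ i, ∑ j, Bf S y h z0 z1 z2 i j ^ 2 ≤ ∑ _i : Fin n, ∑ _j : Fin n, cB q y h ^ 2 :=
          Finset.sum_le_sum fun i _ => Finset.sum_le_sum fun j _ => by
            rw [← sq_abs]
            exact pow_le_pow_left₀ (abs_nonneg _) (abs_Bf hy hyx ht hh z0 z1 z2 i j) 2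
      _ = (n * cB q y h) ^ 2 := by
          simp only [Finset.sum_const, Finset.card_univ, Fintype.card_fin, nsmul_eq_mul]
          ring
  calc nf (Bf S y h z0 z1 z2) ≤ √((n * cB q y h) ^ 2) := Real.sqrt_le_sqrt h1
    _ = n * cB q y h := Real.sqrt_sq (mul_nonneg (Nat.cast_nonneg n) hc)

lemma tr_Bf (hy : 0 < y) (z0 z1 z2 : Pair n → ℝ) :
    (Bf S y h z0 z1 z2).trace = n * cB q y h := by
  simp only [Matrix.trace, Matrix.diag_apply, Bf_diag hy, Finset.sum_const, Finset.card_univ,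
    Fintype.card_fin, nsmul_eq_mul]

end Vale.Agent.P146.H785.F2T
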