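import Vale.Agent.P146.H785.F2Mart
import Vale.Agent.P146.H785.F2Tot
import Vale.Agent.P146.H561.F2Glue
import Vale.Agent.P146.H698.Cw

/-!
Plan R2, row F2: **the base term.** The form `bs3 (C1, C2, B, r)` of a positive semidefinite base
matrix `B` is bounded by `|C2| tr (B (|C1| - C1) C2 (|C1| - C1))` up to rank one defects; `C2` is
then replaced by `C1` with the martingale identity, and `tr (B (|C1| - C1) C1 (|C1| - C1))` is a
rank one defect.
-/

set_option linter.all false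

open MeasureTheory ProbabilityTheory Finset Matrix

namespace Vale.Agent.P146.H785.F2B

open Vale.Agent.P157.Lv Vale.Agent.P146.H425 Vale.Agent.P146.H325 Vale.Agent.P146.H332
  Vale.Agent.P146.H712 Vale.Agent.P146.R1 Vale.Agent.P146.R1C Vale.Agent.P146.R1S
  Vale.Agent.P146.H706 Vale.Agent.P146.H522 Vale.Agent.P146.H633
  Vale.Agent.P146.H326.J1 Vale.Agent.P146.H561
open Vale.Agent.P146.H785 (Ax)
open Vale.Agent.P146.H191 (Im Im_add Im_congr Im_const_mul)
open Vale.Agent.P146.H785.F2N (bs3 bs3_sub_one q4)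
open Vale.Agent.P146.H698.Cw (tr_le_nf)

section det

variable {m : Type} [Fintype m] [DecidableEq m]

lemma fr_sc (P Q : Matrix m m ℝ) : fr (P - Q) = fr (Q - P) := by
  unfold fr
  refine Finset.sum_congr rfl fun i _ => Finset.sum_congr rfl fun j _ => ?_
  simp only [Matrix.sub_apply]
  ring

lemma tr_le_nf2 (P Q : Matrix m m ℝ) : |(P * Q).trace| ≤ nf P * nf Q := by
  have h := ip_le_nf Pᵀ Q
  rw [ip_eq_trace, transpose_transpose] at h
  have e : nf Pᵀ = nf P := by
    unfold nf fr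
    congr 1
    rw [Finset.sum_comm]
    rfl
  rwa [e] at h

lemma nf_mul_le (P Q : Matrix m m ℝ) : nf (P * Q) ≤ nf P * nf Q := by
  unfold nf
  rw [← Real.sqrt_mul (H332.fr_nonneg P)]
  refine Real.sqrt_le_sqrt ?_
  unfold fr
  rw [Finset.sum_mul]
  refine Finset.sum_le_sum fun i _ => ?_
  have h : ∀ j, (P * Q) i j ^ 2 ≤ (∑ l, P i l ^ 2) * ∑ l, Q l j ^ 2 := fun j => by
    rw [Matrix.mul_apply]
    exact Finset.sum_mul_sq_le_sq_mul_sq _ _ _
  refine (Finset.sum_le_sum fun j _ => h j).trans (le_of_eq ?_)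
  rw [← Finset.mul_sum, Finset.sum_comm]

/-- the matrix `(|A| - A) B (|A| - A)` -/
noncomputable def Bt (A B : Matrix m m ℝ) : Matrix m m ℝ :=
  (nf A • 1 - A) * B * (nf A • 1 - A)

variable {A B C : Matrix m m ℝ}

lemma Bt_psd (hA : A.PosSemidef) (hB : B.PosSemidef) : (Bt A B).PosSemidef := by
  have h := conj_psd (X := nf A • 1 - A) hB
  rw [transpose_sub, transpose_smul, transpose_one, sym_of hA] at h
  exact h

lemma tr_Bt (hA : Aᵀ = A) (hB : Bᵀ = B) (hC : Cᵀ = C) : (Bt A B * C).trace =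
    nf A ^ 2 * (B * C).trace - 2 * nf A * (B * (A * C)).trace + (B * (A * C * A)).trace := by
  unfold Bt
  have e1 : (B * (C * A)).trace = (B * (A * C)).trace := by
    rw [← Matrix.trace_transpose, transpose_mul, transpose_mul, hA, hB, hC,
      Matrix.trace_mul_comm]
  have e2 : (A * (B * C)).trace = (B * (A * C)).trace := by
    rw [Matrix.trace_mul_comm, Matrix.mul_assoc, e1]
  have e3 : (A * (B * (A * C))).trace = (B * (A * C * A)).trace := by
    rw [Matrix.trace_mul_comm]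
    simp only [Matrix.mul_assoc]
  simp only [Matrix.sub_mul, Matrix.mul_sub, Matrix.smul_mul, Matrix.mul_smul, Matrix.one_mul,
    Matrix.mul_one, Matrix.trace_sub, Matrix.trace_smul, smul_eq_mul, Matrix.mul_assoc, smul_sub]
  rw [e2, e3]
  simp only [Matrix.mul_assoc]
  ring

/-- `tr (Bt A) ≤ 2 |B| |A| √dfc A` -/
lemma tr_Bt_self (hA : A.PosSemidef) (hB : B.PosSemidef) :
    (Bt A B * A).trace ≤ 2 * (nf B * (nf A * √(dfc A))) := by
  have h1 : Bt A B * A = (nf A • 1 - A) * (B * (nf A • A - A * A)) := by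
    unfold Bt
    rw [Matrix.mul_assoc, Matrix.sub_mul (nf A • 1) A A, Matrix.smul_mul, Matrix.one_mul,
      Matrix.mul_assoc]
  set R := nf A • A - A * A with hR
  have hRn : nf R ≤ √(dfc A) := by
    have e : fr R = fr (A * A - nf A • A) := by
      rw [hR]
      exact fr_sc _ _
    unfold nf
    rw [e]
    exact Real.sqrt_le_sqrt (fr_sq_sub_le (H561.psd_of hA))
  have e2 : (Bt A B * A).trace = nf A * (B * R).trace - (A * (B * R)).trace := by
    rw [h1, Matrix.sub_mul, Matrix.smul_mul, Matrix.one_mul, Matrix.trace_sub,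
      Matrix.trace_smul, smul_eq_mul]
  have nA := nf_nonneg A
  have nB := nf_nonneg B
  have t1 : |(B * R).trace| ≤ nf B * √(dfc A) :=
    (tr_le_nf2 B R).trans (mul_le_mul_of_nonneg_left hRn nB)
  have t2 : |(A * (B * R)).trace| ≤ nf A * (nf B * √(dfc A)) :=
    (tr_le_nf2 A (B * R)).trans (mul_le_mul_of_nonneg_left
      ((nf_mul_le B R).trans (mul_le_mul_of_nonneg_left hRn nB)) nA)
  rw [e2]
  have h3 := mul_le_mul_of_nonneg_left (abs_le.1 t1).2 nA
  have h4 := (abs_le.1 t2).1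
  nlinarith

/-- the trivial bound -/
lemma tr_Bt_le (hA : A.PosSemidef) (hB : B.PosSemidef) (hC : C.PosSemidef) :
    (Bt A B * C).trace ≤ nf C * (nf A ^ 2 * B.trace) := by
  have h1 := tr_le_nf (Bt_psd hA hB) hC
  have hAt := sym_of hA
  have hBt := sym_of hB
  have e1 : (Bt A B).trace = nf A ^ 2 * B.trace - 2 * nf A * (B * A).trace + (B * (A * A)).trace := by
    have h := tr_Bt hAt hBt (transpose_one (n := m) (α := ℝ))
    simpa only [Matrix.mul_one, Matrix.one_mul] using h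
  have h2 := tr_sq_le hB hA
  have h3 := tr_nn hB hA
  have nA := nf_nonneg A
  have h4 : (Bt A B).trace ≤ nf A ^ 2 * B.trace := by
    rw [e1]
    nlinarith [mul_nonneg nA h3]
  exact h1.trans (mul_le_mul_of_nonneg_left h4 (nf_nonneg C))

/-- **The base form, deterministic.** -/
theorem bs3_le {r : ℝ} (hr0 : 0 ≤ r) (hr1 : r ≤ 1) (hA : A.PosSemidef) (hC : C.PosSemidef)
    (hB : B.PosSemidef) :
    (B * (A * (C * C) * A)).trace + r * (B * (C * (A * A) * C)).trace -
      2 * (A * A * (C * C) * B).trace ≤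
      nf C * (Bt A B * C).trace +
        2 * (nf B * (nf A ^ 2 * √(dfc C) + nf C ^ 2 * √(dfc A))) := by
  have hAt := sym_of hA
  have hBt := sym_of hB
  have hCt := sym_of hC
  have nA := nf_nonneg A
  have nB := nf_nonneg B
  have nC := nf_nonneg C
  -- first term
  have pABA : (A * B * A).PosSemidef := by
    have := conj_psd (X := A) hB
    rwa [hAt] at this
  have pCBC : (C * B * C).PosSemidef := by
    have := conj_psd (X := C) hB
    rwa [hCt] at this
  have f1 : (B * (A * (C * C) * A)).trace ≤ nf C * (B * (A * C * A)).trace := by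
    have e1 : (B * (A * (C * C) * A)).trace = (A * B * A * (C * C)).trace := by
      rw [show B * (A * (C * C) * A) = (B * A * (C * C)) * A by simp only [Matrix.mul_assoc],
        Matrix.trace_mul_comm]
      simp only [Matrix.mul_assoc]
    have e2 : (B * (A * C * A)).trace = (A * B * A * C).trace := by
      rw [show B * (A * C * A) = (B * A * C) * A by simp only [Matrix.mul_assoc],
        Matrix.trace_mul_comm]
      simp only [Matrix.mul_assoc]
    rw [e1, e2]
    exact tr_sq_le pABA hC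
  -- second term
  have f2 : (B * (C * (A * A) * C)).trace ≤ nf A ^ 2 * (nf C * (B * C).trace) := by
    have e1 : (B * (C * (A * A) * C)).trace = (C * B * C * (A * A)).trace := by
      rw [show B * (C * (A * A) * C) = (B * C * (A * A)) * C by simp only [Matrix.mul_assoc],
        Matrix.trace_mul_comm]
      simp only [Matrix.mul_assoc]
    have e2 : (C * B * C).trace = (B * (C * C)).trace := by
      rw [Matrix.mul_assoc, Matrix.trace_mul_comm, Matrix.mul_assoc]
    have h1 := tr_sq_le pCBC hA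
    have h2 := tr_le_nf pCBC hA
    have h3 := tr_sq_le hB hC
    rw [e1]
    calc (C * B * C * (A * A)).trace ≤ nf A * (C * B * C * A).trace := h1
      _ ≤ nf A * (nf A * (C * B * C).trace) := mul_le_mul_of_nonneg_left h2 nA
      _ ≤ nf A * (nf A * (nf C * (B * C).trace)) := by
          rw [e2]
          exact mul_le_mul_of_nonneg_left (mul_le_mul_of_nonneg_left h3 nA) nA
      _ = nf A ^ 2 * (nf C * (B * C).trace) := by ring
  have f2' : 0 ≤ (B * (C * (A * A) * C)).trace := by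
    have hAA : (A * A).PosSemidef := by
      have := conj_psd (X := A) (Matrix.PosSemidef.one (n := m) (R := ℝ))
      rwa [hAt, Matrix.mul_one] at this
    have := conj_psd (X := C) hAA
    rw [hCt] at this
    exact tr_nn hB this
  -- cross term
  set R1 := nf A • A - A * A with hR1
  set R2 := nf C • C - C * C with hR2
  have n1 : nf R1 ≤ √(dfc A) := by
    have e : fr R1 = fr (A * A - nf A • A) := by
      rw [hR1]
      exact fr_sc _ _
    unfold nf
    rw [e]
    exact Real.sqrt_le_sqrt (fr_sq_sub_le (H561.psd_of hA))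
  have n2 : nf R2 ≤ √(dfc C) := by
    have e : fr R2 = fr (C * C - nf C • C) := by
      rw [hR2]
      exact fr_sc _ _
    unfold nf
    rw [e]
    exact Real.sqrt_le_sqrt (fr_sq_sub_le (H561.psd_of hC))
  have eA : A * A = nf A • A - R1 := by rw [hR1]; abel
  have eC : C * C = nf C • C - R2 := by rw [hR2]; abel
  have e3 : (A * A * (C * C) * B).trace = nf A * nf C * (B * (A * C)).trace -
      nf A * (A * R2 * B).trace - (R1 * (C * C) * B).trace := by
    have e4 : A * A * (C * C) = (nf A * nf C) • (A * C) - nf A • (A * R2) - R1 * (C * C) := by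
      conv_lhs => rw [eA]
      rw [Matrix.sub_mul, Matrix.smul_mul]
      congr 1
      conv_lhs => rw [eC]
      rw [Matrix.mul_sub, Matrix.mul_smul, smul_sub, smul_smul]
    rw [e4]
    simp only [Matrix.sub_mul, Matrix.smul_mul, Matrix.trace_sub, Matrix.trace_smul, smul_eq_mul]
    rw [Matrix.trace_mul_comm (A * C) B]
  have s1 : |(A * R2 * B).trace| ≤ nf A * √(dfc C) * nf B := by
    refine (tr_le_nf2 _ _).trans (mul_le_mul_of_nonneg_right ?_ nB)
    exact (nf_mul_le A R2).trans (mul_le_mul_of_nonneg_left n2 nA)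
  have s2 : |(R1 * (C * C) * B).trace| ≤ √(dfc A) * nf C ^ 2 * nf B := by
    refine (tr_le_nf2 _ _).trans (mul_le_mul_of_nonneg_right ?_ nB)
    refine (nf_mul_le R1 _).trans ?_
    exact mul_le_mul n1 (nf_sq_le (H561.psd_of hC)) (nf_nonneg _) (Real.sqrt_nonneg _)
  have s1' := mul_le_mul_of_nonneg_left (abs_le.1 s1).2 nA
  have s2' := (abs_le.1 s2).2
  rw [e3, tr_Bt hAt hBt hCt]
  have f3 : r * (B * (C * (A * A) * C)).trace ≤ 1 * (B * (C * (A * A) * C)).trace :=
    mul_le_mul_of_nonneg_right hr1 f2'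
  nlinarith

end det

section mean

variable {n : ℕ} {k : ℝ}

lemma psm_of {m : Type} [Fintype m] [DecidableEq m] {A : Matrix m m ℝ} (hA : Psd A) :
    A.PosSemidef := by
  refine Matrix.PosSemidef.of_dotProduct_mulVec_nonneg ?_ fun u => ?_
  · rw [Matrix.IsHermitian, Matrix.conjTranspose_eq_transpose_of_trivial]
    exact hA.1
  · have h := hA.2 u
    have e : star u ⬝ᵥ (A *ᵥ u) = ∑ i, ∑ j, u i * u j * A i j := by
      simp only [dotProduct, mulVec, star_trivial, Finset.mul_sum]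
      exact Finset.sum_congr rfl fun i _ => Finset.sum_congr rfl fun j _ => by ring
    rw [e]
    exact h

lemma psm_A {x : ℝ} (S : CS n k x) (s : ℝ) (z : Pair n → ℝ) : (S.A s z).PosSemidef :=
  psm_of (S.psd_A s z)

/-- the martingale identity for a linear form of the matrix -/
theorem EwG_lin {q : Par} (S : CS n k q.x) {G : GD (Pair n)} (hG : G.Ok)
    {Ψ : Fin n → Fin n → (Pair n → ℝ) → (Pair n → ℝ) → (Pair n → ℝ) → ℝ}
    (hΨ : ∀ i j, E3 (Ψ i j)) (h1 : q.s1 ≤ q.s2) (h2 : q.s2 ≤ 1) :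
    EwG q G S.F (fun w => ∑ i, ∑ j, Ψ i j (P0 q w) (P1 q w) (P2 q w) *
        S.A q.s2 (P3 q w) i j) =
      EwG q G S.F (fun w => ∑ i, ∑ j, Ψ i j (P0 q w) (P1 q w) (P2 q w) *
        S.A q.s1 (P2 q w) i j) := by
  have hd := eg_densG (q := q) (G := G) S.c11 S.x0 hG
  have ei : ∀ i j, EG fun w : K4 (Pair n) → ℝ => densG q G S.F w *
      (Ψ i j (P0 q w) (P1 q w) (P2 q w) * S.A q.s2 (P3 q w) i j) :=
    fun i j => hd.mul (E4.eg_p ((E4.of_E3 (hΨ i j)).mul (E4.of3 (S.eg_A q.s2 i j)))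
      q.t0 q.t1 q.s1 q.s2)
  have ej : ∀ i j, EG fun w : K4 (Pair n) → ℝ => densG q G S.F w *
      (Ψ i j (P0 q w) (P1 q w) (P2 q w) * S.A q.s1 (P2 q w) i j) :=
    fun i j => hd.mul (E4.eg_p (E4.of_E3 ((hΨ i j).mul (E3.of2 (S.eg_A q.s1 i j))))
      q.t0 q.t1 q.s1 q.s2)
  have l1 : EwG q G S.F (fun w => ∑ i, ∑ j, Ψ i j (P0 q w) (P1 q w) (P2 q w) *
      S.A q.s2 (P3 q w) i j) =
      ∑ i, ∑ j, EwG q G S.F (fun w => Ψ i j (P0 q w) (P1 q w) (P2 q w) *
        S.A q.s2 (P3 q w) i j) := by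
    unfold EwG
    simp_rw [← integral_finsetSum univ fun j _ => (ei _ j).integrable]
    rw [← integral_finsetSum univ fun i _ => (EG.sum univ fun j _ => ei i j).integrable]
    refine integral_congr_ae (Filter.Eventually.of_forall fun w => ?_)
    simp only [Finset.mul_sum]
  have l2 : EwG q G S.F (fun w => ∑ i, ∑ j, Ψ i j (P0 q w) (P1 q w) (P2 q w) *
      S.A q.s1 (P2 q w) i j) =
      ∑ i, ∑ j, EwG q G S.F (fun w => Ψ i j (P0 q w) (P1 q w) (P2 q w) *
        S.A q.s1 (P2 q w) i j) := by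
    unfold EwG
    simp_rw [← integral_finsetSum univ fun j _ => (ej _ j).integrable]
    rw [← integral_finsetSum univ fun i _ => (EG.sum univ fun j _ => ej i j).integrable]
    refine integral_congr_ae (Filter.Eventually.of_forall fun w => ?_)
    simp only [Finset.mul_sum]
  rw [l1, l2]
  exact Finset.sum_congr rfl fun i _ => Finset.sum_congr rfl fun j _ =>
    F2M.EwG_A S hG (hΨ i j) h1 h2 i j

lemma e3_sqrt {Ψ : (Pair n → ℝ) → (Pair n → ℝ) → (Pair n → ℝ) → ℝ} (h : E3 Ψ) :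
    E3 fun z0 z1 z2 => √(Ψ z0 z1 z2) := H191.eg_sqrt h

lemma e3_sum {ι : Type*} (T : Finset ι)
    {Φ : ι → (Pair n → ℝ) → (Pair n → ℝ) → (Pair n → ℝ) → ℝ}
    (h : ∀ i ∈ T, E3 (Φ i)) : E3 fun z0 z1 z2 => ∑ i ∈ T, Φ i z0 z1 z2 :=
  EG.sum T h

lemma e3_mm {X Y : (Pair n → ℝ) → (Pair n → ℝ) → (Pair n → ℝ) → Matrix (Fin n) (Fin n) ℝ}
    (hX : ∀ i j, E3 fun z0 z1 z2 => X z0 z1 z2 i j) (hY : ∀ i j, E3 fun z0 z1 z2 => Y z0 z1 z2 i j)
    (i j : Fin n) : E3 fun z0 z1 z2 => (X z0 z1 z2 * Y z0 z1 z2) i j := by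
  simp only [Matrix.mul_apply]
  exact e3_sum _ fun l _ => (hX i l).mul (hY l j)

lemma e3_Bt {X Y : (Pair n → ℝ) → (Pair n → ℝ) → (Pair n → ℝ) → Matrix (Fin n) (Fin n) ℝ}
    (hX : ∀ i j, E3 fun z0 z1 z2 => X z0 z1 z2 i j) (hY : ∀ i j, E3 fun z0 z1 z2 => Y z0 z1 z2 i j)
    (i j : Fin n) : E3 fun z0 z1 z2 => Bt (X z0 z1 z2) (Y z0 z1 z2) i j := by
  have e1 : E3 fun z0 z1 z2 => nf (X z0 z1 z2) :=
    e3_sqrt (e3_sum _ fun i _ => e3_sum _ fun j _ => (hX i j).pow 2)
  have e2 : ∀ i j, E3 fun z0 z1 z2 => (nf (X z0 z1 z2) • (1 : Matrix (Fin n) (Fin n) ℝ) -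
      X z0 z1 z2) i j := fun i j => by
    simp only [Matrix.sub_apply, Matrix.smul_apply, smul_eq_mul]
    exact (e1.mul (E3.const _)).sub (hX i j)
  exact e3_mm (e3_mm e2 hY) e2 i j

/-- **The base number.** `B`, `w1` functions of the first three positions, `0 ≤ χ ≤ w1 / κ`. -/
theorem base_num {q : Par} (S : CS n k q.x) {G : GD (Pair n)} (hG : G.Ok) (h1 : q.s1 ≤ q.s2)
    (h2 : q.s2 ≤ 1) {W : (Pair n → ℝ) → (Pair n → ℝ) → (Pair n → ℝ) → ℝ} (hW : E3 W)
    {Bf : (Pair n → ℝ) → (Pair n → ℝ) → (Pair n → ℝ) → Matrix (Fin n) (Fin n) ℝ}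
    (hBf : ∀ i j, E3 fun z0 z1 z2 => Bf z0 z1 z2 i j)
    {B : (K4 (Pair n) → ℝ) → Matrix (Fin n) (Fin n) ℝ}
    (eB : ∀ w, B w = Bf (P0 q w) (P1 q w) (P2 q w)) (pB : ∀ w, (B w).PosSemidef)
    {χ w1 : (K4 (Pair n) → ℝ) → ℝ} (hχ : EG χ) (hχ0 : ∀ w, 0 ≤ χ w)
    (ew : ∀ w, w1 w = W (P0 q w) (P1 q w) (P2 q w)) {κ K r : ℝ} (hκ : 0 < κ) (hK : 0 ≤ K)
    (hχ1 : ∀ w, χ w ≤ 1 / κ * w1 w) (hr0 : 0 ≤ r) (hr1 : r ≤ 1) :
    Im (densG q G S.F) (fun w => χ w * bs3 (H941.Cm S q.s1 (k2 q) w) (H941.Cm S q.s2 (k3 q) w)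
        (B w) r) ≤
      K / κ * Im (densG q G S.F) (fun w => w1 w * (2 * (nf (B w) *
        (nf (H941.Cm S q.s1 (k2 q) w) * √(dfc (H941.Cm S q.s1 (k2 q) w)))))) +
      1 / κ * Im (densG q G S.F) (fun w => w1 w * (max (nf (H941.Cm S q.s2 (k3 q) w) - K) 0 *
        (nf (H941.Cm S q.s2 (k3 q) w) * (nf (H941.Cm S q.s1 (k2 q) w) ^ 2 * (B w).trace)))) +
      2 * Im (densG q G S.F) (fun w => χ w * (nf (B w) *
        (nf (H941.Cm S q.s1 (k2 q) w) ^ 2 * √(dfc (H941.Cm S q.s2 (k3 q) w)) +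
          nf (H941.Cm S q.s2 (k3 q) w) ^ 2 * √(dfc (H941.Cm S q.s1 (k2 q) w))))) := by
  set φ := densG q G S.F with hφ
  have hd : EG φ := eg_densG S.c11 S.x0 hG
  have h0 : ∀ w, 0 ≤ φ w := fun w => (Real.exp_pos _).le
  obtain ⟨A, hA⟩ : ∃ A, A = H941.Cm S q.s1 (k2 q) := ⟨_, rfl⟩
  obtain ⟨C, hC⟩ : ∃ C, C = H941.Cm S q.s2 (k3 q) := ⟨_, rfl⟩
  rw [← hA, ← hC]
  have eA : ∀ w, A w = S.A q.s1 (P2 q w) := fun w => by rw [hA, R1C.P2_lp]; rfl
  have eC : ∀ w, C w = S.A q.s2 (P3 q w) := fun w => by rw [hC, R1C.P3_lp]; rfl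
  have pA : ∀ w, (A w).PosSemidef := fun w => by rw [eA]; exact psm_A S _ _
  have pC : ∀ w, (C w).PosSemidef := fun w => by rw [eC]; exact psm_A S _ _
  have gA : ∀ i j, EG fun w => A w i j := fun i j => by rw [hA]; exact F2N.eg_CC i j _ _
  have gC : ∀ i j, EG fun w => C w i j := fun i j => by rw [hC]; exact F2N.eg_CC i j _ _
  have gB : ∀ i j, EG fun w => B w i j := fun i j => by
    have e : (fun w => B w i j) = fun w => Bf (P0 q w) (P1 q w) (P2 q w) i j :=
      funext fun w => by rw [eB]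
    rw [e]
    exact E4.eg_p (E4.of_E3 (hBf i j)) q.t0 q.t1 q.s1 q.s2
  have gw : EG w1 := by
    have e : w1 = fun w => W (P0 q w) (P1 q w) (P2 q w) := funext ew
    rw [e]
    exact E4.eg_p (E4.of_E3 hW) q.t0 q.t1 q.s1 q.s2
  have gnA := eg_nf gA
  have gnC := eg_nf gC
  have gnB := eg_nf gB
  have gdA := eg_dfc gA
  have gdC := eg_dfc gC
  have w0 : ∀ w, 0 ≤ w1 w := fun w => by
    have h := (hχ0 w).trans (hχ1 w)
    have hk : 0 < 1 / κ := by positivity
    by_contra hc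
    push Not at hc
    nlinarith
  obtain ⟨T, hT⟩ : ∃ T : (K4 (Pair n) → ℝ) → ℝ, T = fun w => (Bt (A w) (B w) * C w).trace :=
    ⟨_, rfl⟩
  have T0 : ∀ w, 0 ≤ T w := fun w => by rw [hT]; exact tr_nn (Bt_psd (pA w) (pB w)) (pC w)
  have gBt : ∀ i j, EG fun w => Bt (A w) (B w) i j := fun i j => by
    have e1 : ∀ i j, EG fun w => (nf (A w) • (1 : Matrix (Fin n) (Fin n) ℝ) - A w) i j :=
      fun i j => by
        simp only [Matrix.sub_apply, Matrix.smul_apply, smul_eq_mul]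
        exact (gnA.mul (EG.const _)).sub (gA i j)
    exact eg_mm' (eg_mm' e1 gB) e1 i j
  have gT : EG T := by
    rw [hT]
    simp only [Matrix.trace, Matrix.diag_apply]
    exact EG.sum _ fun i _ => eg_mm' gBt gC i i
  have gtrB : EG fun w => (B w).trace := by
    simp only [Matrix.trace, Matrix.diag_apply]
    exact EG.sum _ fun i _ => gB i i
  have gmax : EG fun w => max (nf (C w) - K) 0 := by
    have e : (fun w => max (nf (C w) - K) 0) = fun w => 1 / 2 * ((nf (C w) - K) +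
        |nf (C w) - K|) := funext fun w => by
      rcases le_total (nf (C w) - K) 0 with h | h
      · rw [max_eq_right h, abs_of_nonpos h]; ring
      · rw [max_eq_left h, abs_of_nonneg h]; ring
    rw [e]
    have g := gnC.sub (EG.const K)
    exact (g.add g.abs).const_mul _
  have gE : EG fun w => nf (B w) * (nf (A w) ^ 2 * √(dfc (C w)) + nf (C w) ^ 2 * √(dfc (A w))) :=
    gnB.mul (((gnA.pow 2).mul gdC).add ((gnC.pow 2).mul gdA))
  have gbs : EG fun w => bs3 (A w) (C w) (B w) r := by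
    have e : (fun w => bs3 (A w) (C w) (B w) r) = fun w =>
        (B w * (A w * (C w * C w) * A w)).trace + r * (B w * (C w * (A w * A w) * C w)).trace -
          2 * (A w * A w * (C w * C w) * B w).trace := rfl
    rw [e]
    simp only [Matrix.trace, Matrix.diag_apply]
    exact ((EG.sum _ fun i _ => eg_mm' gB (eg_mm' (eg_mm' gA (eg_mm' gC gC)) gA) i i).add
      ((EG.sum _ fun i _ => eg_mm' gB (eg_mm' (eg_mm' gC (eg_mm' gA gA)) gC) i i).const_mul r)).sub
      ((EG.sum _ fun i _ => eg_mm' (eg_mm' (eg_mm' gA gA) (eg_mm' gC gC)) gB i i).const_mul 2)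
  -- pointwise
  have s1 : Im φ (fun w => χ w * bs3 (A w) (C w) (B w) r) ≤
      Im φ (fun w => K / κ * (w1 w * T w) +
        1 / κ * (w1 w * (max (nf (C w) - K) 0 * (nf (C w) * (nf (A w) ^ 2 * (B w).trace)))) +
        2 * (χ w * (nf (B w) * (nf (A w) ^ 2 * √(dfc (C w)) + nf (C w) ^ 2 * √(dfc (A w)))))) := by
    refine Im_mono' hd h0 (hχ.mul gbs) ((((gw.mul gT).const_mul _).add
      ((gw.mul (gmax.mul (gnC.mul ((gnA.pow 2).mul gtrB)))).const_mul _)).add
      ((hχ.mul gE).const_mul 2)) fun w => ?_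
    have b1 := bs3_le hr0 hr1 (pA w) (pC w) (pB w)
    have b2 : (Bt (A w) (B w) * C w).trace = T w := by rw [hT]
    rw [b2] at b1
    have b3 := mul_le_mul_of_nonneg_left b1 (hχ0 w)
    have b4 := tr_Bt_le (pA w) (pB w) (pC w)
    rw [b2] at b4
    have nC := nf_nonneg (C w)
    have m0 : 0 ≤ max (nf (C w) - K) 0 := le_max_right _ _
    have m1 : nf (C w) ≤ K + max (nf (C w) - K) 0 := by
      linarith [le_max_left (nf (C w) - K) 0]
    have b5 : nf (C w) * T w ≤ K * T w +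
        max (nf (C w) - K) 0 * (nf (C w) * (nf (A w) ^ 2 * (B w).trace)) := by
      have c1 := mul_le_mul_of_nonneg_right m1 (T0 w)
      have c2 := mul_le_mul_of_nonneg_left b4 m0
      nlinarith
    have b6 : 0 ≤ nf (C w) * T w := mul_nonneg nC (T0 w)
    have b7 : χ w * (nf (C w) * T w) ≤ 1 / κ * w1 w * (K * T w +
        max (nf (C w) - K) 0 * (nf (C w) * (nf (A w) ^ 2 * (B w).trace))) :=
      (mul_le_mul_of_nonneg_right (hχ1 w) b6).trans
        (mul_le_mul_of_nonneg_left b5 (mul_nonneg (by positivity) (w0 w)))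
    have e : bs3 (A w) (C w) (B w) r = (B w * (A w * (C w * C w) * A w)).trace +
        r * (B w * (C w * (A w * A w) * C w)).trace -
          2 * (A w * A w * (C w * C w) * B w).trace := rfl
    rw [e]
    have e2 : K / κ = 1 / κ * K := by ring
    rw [e2]
    nlinarith
  -- the martingale identity
  have s2 : Im φ (fun w => w1 w * T w) = Im φ (fun w => w1 w * (Bt (A w) (B w) * A w).trace) := by
    have key := EwG_lin (q := q) (G := G) (Ψ := fun i j z0 z1 z2 => W z0 z1 z2 *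
      Bt (S.A q.s1 z2) (Bf z0 z1 z2) i j) S hG (fun i j => hW.mul
        (e3_Bt (fun i j => E3.of2 (S.eg_A q.s1 i j)) hBf i j)) h1 h2
    have e1 : ∀ (M N : Matrix (Fin n) (Fin n) ℝ), (∀ i j, N i j = N j i) →
        (M * N).trace = ∑ i, ∑ j, M i j * N i j := fun M N hN => by
      simp only [Matrix.trace, Matrix.diag_apply, Matrix.mul_apply]
      exact Finset.sum_congr rfl fun i _ => Finset.sum_congr rfl fun j _ => by rw [hN j i]
    have e2 : ∀ w, w1 w * T w = ∑ i, ∑ j, W (P0 q w) (P1 q w) (P2 q w) *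
        Bt (S.A q.s1 (P2 q w)) (Bf (P0 q w) (P1 q w) (P2 q w)) i j * S.A q.s2 (P3 q w) i j :=
      fun w => by
        rw [hT]
        simp only
        rw [e1 _ _ (fun i j => by rw [eC]; exact S.A_comm _ _ i j), ew, eA, eB, Finset.mul_sum]
        refine Finset.sum_congr rfl fun i _ => ?_
        rw [Finset.mul_sum]
        exact Finset.sum_congr rfl fun j _ => by rw [eC]; ring
    have e3 : ∀ w, w1 w * (Bt (A w) (B w) * A w).trace =
        ∑ i, ∑ j, W (P0 q w) (P1 q w) (P2 q w) *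
        Bt (S.A q.s1 (P2 q w)) (Bf (P0 q w) (P1 q w) (P2 q w)) i j * S.A q.s1 (P2 q w) i j :=
      fun w => by
        rw [e1 _ _ (fun i j => by rw [eA]; exact S.A_comm _ _ i j), ew, eB, Finset.mul_sum]
        refine Finset.sum_congr rfl fun i _ => ?_
        rw [Finset.mul_sum]
        exact Finset.sum_congr rfl fun j _ => by rw [eA]; ring
    rw [Im_congr e2, Im_congr e3]
    exact key
  have gTA : EG fun w => (Bt (A w) (B w) * A w).trace := by
    simp only [Matrix.trace, Matrix.diag_apply]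
    exact EG.sum _ fun i _ => eg_mm' gBt gA i i
  have s3 : Im φ (fun w => w1 w * (Bt (A w) (B w) * A w).trace) ≤
      Im φ (fun w => w1 w * (2 * (nf (B w) * (nf (A w) * √(dfc (A w)))))) :=
    Im_mono' hd h0 (gw.mul gTA) (gw.mul ((gnB.mul (gnA.mul gdA)).const_mul 2)) fun w =>
      mul_le_mul_of_nonneg_left (tr_Bt_self (pA w) (pB w)) (w0 w)
  rw [Im_add hd (((gw.mul gT).const_mul _).add
      ((gw.mul (gmax.mul (gnC.mul ((gnA.pow 2).mul gtrB)))).const_mul _))
      ((hχ.mul gE).const_mul 2), Im_add hd ((gw.mul gT).const_mul _)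
      ((gw.mul (gmax.mul (gnC.mul ((gnA.pow 2).mul gtrB)))).const_mul _),
      Im_const_mul, Im_const_mul, Im_const_mul, s2] at s1
  have hKκ : 0 ≤ K / κ := div_nonneg hK hκ.le
  have s4 := mul_le_mul_of_nonneg_left s3 hKκ
  linarith

end mean

end Vale.Agent.P146.H785.F2B
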