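import Vale.Agent.P146.H785.F2Tot

/-!
Plan R2, row F2: the numbers `vsq`, `eD`, `qd` of `f3_tot` in Frobenius norms.
-/

open MeasureTheory ProbabilityTheory Finset Matrix

namespace Vale.Agent.P146.H785.F2N

open Vale.Agent.P157.Lv Vale.Agent.P146.H425 Vale.Agent.P146.H325 Vale.Agent.P146.H332
  Vale.Agent.P146.H712 Vale.Agent.P146.R1 Vale.Agent.P146.R1C Vale.Agent.P146.H706
  Vale.Agent.P146.R1S Vale.Agent.P146.H191 Vale.Agent.P146.H350 Vale.Agent.P146.H941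

set_option linter.unusedSectionVars false

variable {n : ℕ} {k x : ℝ} {S : CS n k x} {s1 s2 β : ℝ} {a1 a2 : Fin 4 → ℝ}
  {φ χ : (K4 (Pair n) → ℝ) → ℝ} {ψ' : K4 (Pair n) → (K4 (Pair n) → ℝ) → ℝ} {xt1 xt2 : ℝ} {B : MF n}

lemma dt_self_eq (f : Fin n → ℝ) : dt f f = ven f ^ 2 := by
  rw [ven_sq]
  unfold dt
  exact Finset.sum_congr rfl fun i _ => (pow_two _).symm

lemma dt_mv_le (M : Fin n → Fin n → ℝ) (f : Fin n → ℝ) :
    dt (mv M f) (mv M f) ≤ H191.fro M ^ 2 * dt f f := by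
  rw [dt_self_eq f, ven_sq, H191.fro_sq, Finset.sum_mul]
  unfold dt mv
  refine Finset.sum_le_sum fun i _ => ?_
  have h := Finset.sum_mul_sq_le_sq_mul_sq Finset.univ (M i) f
  calc (∑ j, M i j * f j) * ∑ j, M i j * f j = (∑ j, M i j * f j) ^ 2 := (pow_two _).symm
    _ ≤ _ := h

/-- the three squares of the drifts, one row -/
lemma vsq_le {r : ℝ} (hr0 : 0 ≤ r) (hr1 : r ≤ 1) (b : Fin n) (M1 M2 : MF n)
    (w : K4 (Pair n) → ℝ) (hχ : 0 ≤ χ w) :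
    vsq k β r a1 a2 ψ' b χ M1 M2 w ≤ χ w * ((k / β) ^ 2 *
      (H191.fro (M1 w) ^ 2 * H191.fro (M2 w) ^ 2 * (ven (dv a1 ψ' b w) ^ 2 + ven (dv a2 ψ' b w) ^ 2) +
        2 * (H191.fro (M2 w) ^ 4 * ven (dv a2 ψ' b w) ^ 2))) := by
  unfold vsq
  refine mul_le_mul_of_nonneg_left (mul_le_mul_of_nonneg_left ?_ (sq_nonneg _)) hχ
  have two : ∀ (M M' : Fin n → Fin n → ℝ) (f : Fin n → ℝ),
      dt (mv M (mv M' f)) (mv M (mv M' f)) ≤ H191.fro M ^ 2 * (H191.fro M' ^ 2 * ven f ^ 2) := fun M M' f => by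
    refine (dt_mv_le M _).trans (mul_le_mul_of_nonneg_left ?_ (sq_nonneg _))
    rw [← dt_self_eq f]
    exact dt_mv_le M' f
  have h1 := two (M2 w) (M1 w) (dv a1 ψ' b w)
  have h2 := two (M1 w) (M2 w) (dv a2 ψ' b w)
  have h3 := two (M2 w) (M2 w) (dv a2 ψ' b w)
  have p2 : 0 ≤ H191.fro (M1 w) ^ 2 * (H191.fro (M2 w) ^ 2 * ven (dv a2 ψ' b w) ^ 2) := by positivity
  have h2' : r * dt (mv (M1 w) (mv (M2 w) (dv a2 ψ' b w))) (mv (M1 w) (mv (M2 w) (dv a2 ψ' b w))) ≤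
      1 * (H191.fro (M1 w) ^ 2 * (H191.fro (M2 w) ^ 2 * ven (dv a2 ψ' b w) ^ 2)) :=
    (mul_le_mul_of_nonneg_left h2 hr0).trans (mul_le_mul_of_nonneg_right hr1 p2)
  nlinarith [h1, h2', h3]

/-- the rows of the drift -/
lemma sum_dv {a : Fin 4 → ℝ} {xt : ℝ} (hB : ∀ w i j, B w i j = B w j i)
    (hdr : ∀ e w, dr a ψ' e w =
      k * (xt * S.A s2 (H712.lp a2 w) e.1.1 e.1.2 - B w e.1.1 e.1.2)) (w : K4 (Pair n) → ℝ) :
    ∑ b, ven (dv a ψ' b w) ^ 2 =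
      k ^ 2 * H191.fro (xt • (H941.Cm S s2 a2 w - 1) - od (B w)) ^ 2 := by
  rw [H191.fro_sq, Finset.sum_comm, Finset.mul_sum]
  refine Finset.sum_congr rfl fun b _ => ?_
  rw [ven_sq, Finset.mul_sum, dv_col hB hdr]
  refine Finset.sum_congr rfl fun i _ => ?_
  exact mul_pow _ _ 2

/-- every row of the drift is small -/
lemma dv_sq_le {a : Fin 4 → ℝ} {xt : ℝ} (hB : ∀ w i j, B w i j = B w j i)
    (hdr : ∀ e w, dr a ψ' e w =
      k * (xt * S.A s2 (H712.lp a2 w) e.1.1 e.1.2 - B w e.1.1 e.1.2)) (b : Fin n)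
    (w : K4 (Pair n) → ℝ) :
    ven (dv a ψ' b w) ^ 2 ≤ 2 * k ^ 2 * (xt ^ 2 * ven (Uv S s2 a2 b w) ^ 2 +
      ∑ i, od (B w) i b ^ 2) := by
  rw [ven_sq, ven_sq, dv_col hB hdr, Uv_col, Finset.mul_sum, ← Finset.sum_add_distrib,
    Finset.mul_sum]
  refine Finset.sum_le_sum fun i _ => ?_
  simp only [Matrix.smul_apply, Matrix.sub_apply, smul_eq_mul]
  set p := xt * (H941.Cm S s2 a2 w i b - (1 : Matrix (Fin n) (Fin n) ℝ) i b) with hp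
  set q := od (B w) i b with hq
  have e1 : (k * (p - q)) ^ 2 = k ^ 2 * (p - q) ^ 2 := by ring
  have e2 : (p - q) ^ 2 ≤ 2 * (p ^ 2 + q ^ 2) := by nlinarith [sq_nonneg (p + q)]
  have e3 := mul_le_mul_of_nonneg_left e2 (sq_nonneg k)
  have e4 : p ^ 2 = xt ^ 2 * (H941.Cm S s2 a2 w i b - (1 : Matrix (Fin n) (Fin n) ℝ) i b) ^ 2 := by
    rw [hp]; ring
  rw [e1]
  refine e3.trans (le_of_eq ?_)
  rw [e4]
  ring

lemma qd_le (w : K4 (Pair n) → ℝ) : qd S s1 s2 a1 a2 w ≤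
    2 * (H191.fro (H941.Cm S s1 a1 w) ^ 2 + H191.fro (H941.Cm S s2 a2 w) ^ 2) := by
  have h1 : ∀ i j, H941.Cm S s1 a1 w i j = H941.Cm S s1 a1 w j i := H941.Cm_comm S s1 a1 w
  have h2 : ∀ i j, H941.Cm S s2 a2 w i j = H941.Cm S s2 a2 w j i := H941.Cm_comm S s2 a2 w
  have f1 : H191.fro (H941.Cm S s1 a1 w) ^ 2 = ∑ i, ∑ j, H941.Cm S s1 a1 w i j ^ 2 :=
    H191.fro_sq _
  have f2 : H191.fro (H941.Cm S s2 a2 w) ^ 2 = ∑ i, ∑ j, H941.Cm S s2 a2 w i j ^ 2 :=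
    H191.fro_sq _
  have key : qd S s1 s2 a1 a2 w ≤ 2 * ((∑ i, ∑ j, H941.Cm S s1 a1 w i j ^ 2) +
      ∑ i, ∑ j, H941.Cm S s2 a2 w i j ^ 2) := ?_
  · linarith
  unfold qd
  rw [tr_two, ← Finset.sum_add_distrib, Finset.mul_sum]
  refine Finset.sum_le_sum fun i _ => ?_
  rw [← Finset.sum_add_distrib, Finset.mul_sum]
  refine Finset.sum_le_sum fun j _ => ?_
  simp only [Matrix.sub_apply]
  rw [h1 j i, h2 j i]
  nlinarith [sq_nonneg (H941.Cm S s2 a2 w i j + H941.Cm S s1 a1 w i j)]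

lemma q3'_le (w : K4 (Pair n) → ℝ) : |q3' S s1 s2 a1 a2 w| ≤
    H191.fro (H941.Cm S s1 a1 w) ^ 2 * H191.fro (H941.Cm S s2 a2 w) :=
  (tr3_le _ _ _).trans (le_of_eq (by ring))

end Vale.Agent.P146.H785.F2N
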