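import Vale.Agent.P146.H785.F2Base
import Vale.Agent.P146.H785.F2Vsq
import Vale.Agent.P146.H561.F2Size

/-!
Plan R2, row F2: the error numbers of the two-time row which carry no touch: the diagonal `qd`,
`eD`, and the base term `bs3`, from sizes (with a bad set) and rank one defects.
-/

set_option linter.all false

open MeasureTheory ProbabilityTheory Finset Matrix

namespace Vale.Agent.P146.H785.F2E

open Vale.Agent.P157.Lv Vale.Agent.P146.H425 Vale.Agent.P146.H325 Vale.Agent.P146.H332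
  Vale.Agent.P146.H712 Vale.Agent.P146.R1 Vale.Agent.P146.R1C Vale.Agent.P146.R1S
  Vale.Agent.P146.H706 Vale.Agent.P146.H522 Vale.Agent.P146.H633
  Vale.Agent.P146.H326.J1 Vale.Agent.P146.H561
open Vale.Agent.P146.H191 (Im Im_add Im_congr Im_const_mul)
open Vale.Agent.P146.H785.F2N (bs3 bs3_sub_one q4 qd eD K3)
open Vale.Agent.P146.H785.F2B

section gen

variable {κ' : Type} [Fintype κ'] [DecidableEq κ'] {φ : (K4 κ' → ℝ) → ℝ}

/-- good and bad parts -/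
lemma im_gb (h : EG φ) (h0 : ∀ w, 0 ≤ φ w) {W f bd : (K4 κ' → ℝ) → ℝ} {F T : ℝ} (hW : EG W)
    (W0 : ∀ w, 0 ≤ W w) (hf : EG f) (hbd : EG bd) (hle : ∀ w, f w ≤ F + T * bd w) :
    Im φ (fun w => W w * f w) ≤ F * Im φ W + T * Im φ (fun w => W w * bd w) := by
  have s : Im φ (fun w => W w * f w) ≤ Im φ (fun w => F * W w + T * (W w * bd w)) :=
    Im_mono' h h0 (hW.mul hf) ((hW.const_mul F).add ((hW.mul hbd).const_mul T)) fun w => by
      have := mul_le_mul_of_nonneg_left (hle w) (W0 w)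
      linarith
  rw [Im_add h (hW.const_mul F) ((hW.mul hbd).const_mul T), Im_const_mul, Im_const_mul] at s
  exact s

/-- the mean of a defect -/
lemma im_sqrt (h : EG φ) (h0 : ∀ w, 0 ≤ φ w) {W g : (K4 κ' → ℝ) → ℝ} {D : ℝ} (hD : 0 < D)
    (hW : EG W) (W0 : ∀ w, 0 ≤ W w) (hg : EG g)
    (hDn : Im φ (fun w => W w * g w ^ 2) ≤ D ^ 2 * Im φ W) :
    Im φ (fun w => W w * g w) ≤ D * Im φ W := by
  have s : Im φ (fun w => W w * g w) ≤
      Im φ (fun w => 1 / (2 * D) * (W w * g w ^ 2) + D / 2 * W w) :=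
    Im_mono' h h0 (hW.mul hg) (((hW.mul (hg.pow 2)).const_mul _).add (hW.const_mul _)) fun w => by
      have h1 : g w ≤ 1 / (2 * D) * g w ^ 2 + D / 2 := by
        have h2 : 0 ≤ (g w - D) ^ 2 / (2 * D) := by positivity
        have h3 : (g w - D) ^ 2 / (2 * D) = 1 / (2 * D) * g w ^ 2 + D / 2 - g w := by
          field_simp
          ring
        linarith
      have := mul_le_mul_of_nonneg_left h1 (W0 w)
      linarith
  rw [Im_add h ((hW.mul (hg.pow 2)).const_mul _) (hW.const_mul _), Im_const_mul,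
    Im_const_mul] at s
  have h4 := mul_le_mul_of_nonneg_left hDn (show 0 ≤ 1 / (2 * D) by positivity)
  have h5 : 1 / (2 * D) * (D ^ 2 * Im φ W) = D / 2 * Im φ W := by
    field_simp
  linarith

/-- **A size times a defect.** -/
lemma im_gbd (h : EG φ) (h0 : ∀ w, 0 ≤ φ w) {W f g bd : (K4 κ' → ℝ) → ℝ} {F T D g0 : ℝ}
    (hD : 0 < D) (hF : 0 ≤ F) (hT : 0 ≤ T) (hW : EG W) (W0 : ∀ w, 0 ≤ W w) (hf : EG f)
    (hg : EG g) (gn : ∀ w, 0 ≤ g w) (gb : ∀ w, g w ≤ g0) (hbd : EG bd) (b0 : ∀ w, 0 ≤ bd w)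
    (hle : ∀ w, f w ≤ F + T * bd w)
    (hDn : Im φ (fun w => W w * g w ^ 2) ≤ D ^ 2 * Im φ W) :
    Im φ (fun w => W w * (f w * g w)) ≤
      F * (D * Im φ W) + T * g0 * Im φ (fun w => W w * bd w) := by
  have s : Im φ (fun w => W w * (f w * g w)) ≤
      Im φ (fun w => F * (W w * g w) + T * g0 * (W w * bd w)) :=
    Im_mono' h h0 (hW.mul (hf.mul hg)) (((hW.mul hg).const_mul F).add
      ((hW.mul hbd).const_mul _)) fun w => by
      have h1 : f w * g w ≤ F * g w + T * g0 * bd w := by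
        have h2 := mul_le_mul_of_nonneg_right (hle w) (gn w)
        have h3 := mul_le_mul_of_nonneg_left (gb w) (mul_nonneg hT (b0 w))
        nlinarith
      have := mul_le_mul_of_nonneg_left h1 (W0 w)
      linarith
  rw [Im_add h ((hW.mul hg).const_mul F) ((hW.mul hbd).const_mul _), Im_const_mul,
    Im_const_mul] at s
  have h4 := mul_le_mul_of_nonneg_left (im_sqrt h h0 hD hW W0 hg hDn) hF
  linarith

end gen

section num

variable {n : ℕ} {φ : (K4 (Pair n) → ℝ) → ℝ}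
  {A C B : (K4 (Pair n) → ℝ) → Matrix (Fin n) (Fin n) ℝ} {W χ bd : (K4 (Pair n) → ℝ) → ℝ}

/-- from `χ ≤ W / (κ e²)` -/
lemma im_chi (h : EG φ) (h0 : ∀ w, 0 ≤ φ w) {f : (K4 (Pair n) → ℝ) → ℝ} {c : ℝ}
    (hχ : EG χ) (hW : EG W) (hf : EG f) (f0 : ∀ w, 0 ≤ f w) (hle : ∀ w, χ w ≤ c * W w) :
    Im φ (fun w => χ w * f w) ≤ c * Im φ (fun w => W w * f w) := by
  rw [← Im_const_mul]
  refine Im_mono' h h0 (hχ.mul hf) ((hW.mul hf).const_mul c) fun w => ?_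
  have := mul_le_mul_of_nonneg_right (hle w) (f0 w)
  linarith

lemma pw_le {a L N : ℝ} (ha : 0 ≤ a) {b : ℝ} (hb : 0 ≤ b) (hL : 0 ≤ L) (haN : a ≤ N)
    (hd : b = 1 ∨ a ≤ L) (m : ℕ) : a ^ m ≤ L ^ m + N ^ m * b := by
  have hN : 0 ≤ N := ha.trans haN
  rcases hd with h | h
  · rw [h, mul_one]
    have := pow_le_pow_left₀ ha haN m
    have h2 : 0 ≤ L ^ m := pow_nonneg hL m
    linarith
  · have := pow_le_pow_left₀ ha h m
    have h2 : 0 ≤ N ^ m * b := mul_nonneg (pow_nonneg hN m) hb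
    linarith

/-- `Im χ qd` -/
theorem qd_num {k x s1 s2 : ℝ} {S : CS n k x} {a1 a2 : Fin 4 → ℝ} (h : EG φ)
    (h0 : ∀ w, 0 ≤ φ w) {L c : ℝ} (hL : 0 ≤ L) (hc : 0 ≤ c)
    (hχ : EG χ) (hW : EG W) (W0 : ∀ w, 0 ≤ W w) (hle : ∀ w, χ w ≤ c * W w) (χ0 : ∀ w, 0 ≤ χ w)
    (hbd : EG bd) (b0 : ∀ w, 0 ≤ bd w)
    (dA : ∀ w, bd w = 1 ∨ nf (H941.Cm S s1 a1 w) ≤ L)
    (dC : ∀ w, bd w = 1 ∨ nf (H941.Cm S s2 a2 w) ≤ L)
    (nA : ∀ w, nf (H941.Cm S s1 a1 w) ≤ n) (nC : ∀ w, nf (H941.Cm S s2 a2 w) ≤ n) :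
    Im φ (fun w => χ w * qd S s1 s2 a1 a2 w) ≤
      c * (4 * L ^ 2 * Im φ W + 4 * (n : ℝ) ^ 2 * Im φ (fun w => W w * bd w)) := by
  have gA : ∀ i j, EG fun w => H941.Cm S s1 a1 w i j := fun i j => F2N.eg_CC i j _ _
  have gC : ∀ i j, EG fun w => H941.Cm S s2 a2 w i j := fun i j => F2N.eg_CC i j _ _
  have gf : EG fun w => 2 * (nf (H941.Cm S s1 a1 w) ^ 2 + nf (H941.Cm S s2 a2 w) ^ 2) :=
    (((eg_nf gA).pow 2).add ((eg_nf gC).pow 2)).const_mul 2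
  have gq : EG fun w => qd S s1 s2 a1 a2 w := by
    unfold F2N.qd
    simp only [Matrix.trace, Matrix.diag_apply]
    have e : ∀ i j, EG fun w => (H941.Cm S s2 a2 w - H941.Cm S s1 a1 w) i j := fun i j =>
      (gC i j).sub (gA i j)
    exact EG.sum _ fun i _ => eg_mm' e e i i
  have s1' : Im φ (fun w => χ w * qd S s1 s2 a1 a2 w) ≤
      Im φ (fun w => χ w * (2 * (nf (H941.Cm S s1 a1 w) ^ 2 + nf (H941.Cm S s2 a2 w) ^ 2))) := by
    refine Im_mono' h h0 (hχ.mul gq) (hχ.mul gf) fun w => ?_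
    refine mul_le_mul_of_nonneg_left ?_ (χ0 w)
    have h1 := F2N.qd_le (S := S) (s1 := s1) (s2 := s2) (a1 := a1) (a2 := a2) w
    exact h1
  refine s1'.trans ((im_chi h h0 hχ hW gf (fun w => by positivity) hle).trans ?_)
  refine mul_le_mul_of_nonneg_left ?_ hc
  refine im_gb h h0 hW W0 gf hbd fun w => ?_
  have p1 := pw_le (nf_nonneg _) (b0 w) hL (nA w) (dA w) 2
  have p2 := pw_le (nf_nonneg _) (b0 w) hL (nC w) (dC w) 2
  linarith

lemma fro_od (M : Matrix (Fin n) (Fin n) ℝ) : H191.fro (H941.od M) ≤ nf M := by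
  refine Real.sqrt_le_sqrt ?_
  unfold fr
  refine Finset.sum_le_sum fun i _ => Finset.sum_le_sum fun j _ => ?_
  unfold H941.od
  by_cases h : i = j
  · simp only [h, if_true]
    have := sq_nonneg (M j j)
    simpa using this
  · simp only [h, if_false]
    exact le_refl _

lemma eD_mono {a b d a' b' d' xt : ℝ} (hx : 0 ≤ xt) (ha : 0 ≤ a) (hb : 0 ≤ b) (hd : 0 ≤ d)
    (h1 : a ≤ a') (h2 : b ≤ b') (h3 : d ≤ d') : eD a b d xt ≤ eD a' b' d' xt := by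
  unfold F2N.eD
  have a0 : 0 ≤ a' := ha.trans h1
  have b0 : 0 ≤ b' := hb.trans h2
  have d0 : 0 ≤ d' := hd.trans h3
  gcongr

/-- `Im χ eD` -/
theorem eD_num {k x s1 s2 : ℝ} {S : CS n k x} {a1 a2 : Fin 4 → ℝ} (h : EG φ)
    (h0 : ∀ w, 0 ≤ φ w) {L LB c xt1 : ℝ} (hL : 0 ≤ L) (hLB : 0 ≤ LB) (hc : 0 ≤ c)
    (hn : 1 ≤ (n : ℝ)) (hx0 : 0 ≤ xt1) (hx1 : xt1 ≤ 1)
    (hB : ∀ i j, EG fun w => B w i j)
    (hχ : EG χ) (hW : EG W) (W0 : ∀ w, 0 ≤ W w) (hle : ∀ w, χ w ≤ c * W w)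
    (hbd : EG bd) (b0 : ∀ w, 0 ≤ bd w)
    (dd : ∀ w, bd w = 1 ∨ nf (H941.Cm S s1 a1 w) ≤ L ∧ nf (H941.Cm S s2 a2 w) ≤ L ∧
      nf (B w) ≤ LB)
    (nA : ∀ w, nf (H941.Cm S s1 a1 w) ≤ n) (nC : ∀ w, nf (H941.Cm S s2 a2 w) ≤ n)
    (nB : ∀ w, nf (B w) ≤ n) :
    Im φ (fun w => χ w * eD (H191.fro (H941.Cm S s1 a1 w)) (H191.fro (H941.Cm S s2 a2 w))
        (H191.fro (H941.od (B w))) xt1) ≤
      c * ((xt1 * (2 * L ^ 4 + 2 * L ^ 3) + 4 * (LB * L ^ 3)) * Im φ W +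
        8 * (n : ℝ) ^ 4 * Im φ (fun w => W w * bd w)) := by
  have gA : ∀ i j, EG fun w => H941.Cm S s1 a1 w i j := fun i j => F2N.eg_CC i j _ _
  have gC : ∀ i j, EG fun w => H941.Cm S s2 a2 w i j := fun i j => F2N.eg_CC i j _ _
  have god : ∀ i j, EG fun w => H941.od (B w) i j := fun i j => by
    unfold H941.od
    by_cases hij : i = j
    · simp only [hij, if_true]; exact EG.const 0
    · simp only [hij, if_false]; exact hB i j
  have g1 : EG fun w => H191.fro (H941.Cm S s1 a1 w) := eg_nf gA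
  have g2 : EG fun w => H191.fro (H941.Cm S s2 a2 w) := eg_nf gC
  have g3 : EG fun w => H191.fro (H941.od (B w)) := eg_nf god
  have gf : EG fun w => eD (H191.fro (H941.Cm S s1 a1 w)) (H191.fro (H941.Cm S s2 a2 w))
        (H191.fro (H941.od (B w))) xt1 := by
    unfold F2N.eD
    exact ((((((g1.pow 2).mul (g2.pow 2)).add (g1.mul (g2.pow 3))).add (g1.mul (g2.pow 2))).add
      ((g1.pow 2).mul g2)).const_mul xt1).add
      (g3.mul ((g1.mul (g2.pow 2)).add (((g1.pow 2).mul g2).const_mul 3)))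
  have f0 : ∀ w, 0 ≤ eD (H191.fro (H941.Cm S s1 a1 w)) (H191.fro (H941.Cm S s2 a2 w))
        (H191.fro (H941.od (B w))) xt1 := fun w => by
    have p1 : 0 ≤ H191.fro (H941.Cm S s1 a1 w) := Real.sqrt_nonneg _
    have p2 : 0 ≤ H191.fro (H941.Cm S s2 a2 w) := Real.sqrt_nonneg _
    have p3 : 0 ≤ H191.fro (H941.od (B w)) := Real.sqrt_nonneg _
    unfold F2N.eD
    positivity
  refine (im_chi h h0 hχ hW gf f0 hle).trans ?_
  refine mul_le_mul_of_nonneg_left ?_ hc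
  refine im_gb h h0 hW W0 gf hbd fun w => ?_
  have p1 : 0 ≤ H191.fro (H941.Cm S s1 a1 w) := Real.sqrt_nonneg _
  have p2 : 0 ≤ H191.fro (H941.Cm S s2 a2 w) := Real.sqrt_nonneg _
  have p3 : 0 ≤ H191.fro (H941.od (B w)) := Real.sqrt_nonneg _
  have q3 := fro_od (B w)
  have hN4 : (0 : ℝ) ≤ 8 * (n : ℝ) ^ 4 := by positivity
  rcases dd w with hb | ⟨l1, l2, l3⟩
  · have m := eD_mono hx0 p1 p2 p3 (nA w) (nC w) (q3.trans (nB w))
    refine m.trans ?_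
    rw [hb, mul_one]
    have e : eD (n : ℝ) n n xt1 = xt1 * (2 * (n : ℝ) ^ 4 + 2 * (n : ℝ) ^ 3) + 4 * (n : ℝ) ^ 4 := by
      unfold F2N.eD; ring
    rw [e]
    have h3 : (n : ℝ) ^ 3 ≤ (n : ℝ) ^ 4 := pow_le_pow_right₀ hn (by norm_num)
    have h4 : xt1 * (2 * (n : ℝ) ^ 4 + 2 * (n : ℝ) ^ 3) ≤ 1 * (2 * (n : ℝ) ^ 4 + 2 * (n : ℝ) ^ 3) :=
      mul_le_mul_of_nonneg_right hx1 (by positivity)
    have h5 : 0 ≤ xt1 * (2 * L ^ 4 + 2 * L ^ 3) + 4 * (LB * L ^ 3) := by positivity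
    linarith
  · have m := eD_mono hx0 p1 p2 p3 l1 l2 (q3.trans l3)
    refine m.trans ?_
    have e : eD L L LB xt1 = xt1 * (2 * L ^ 4 + 2 * L ^ 3) + 4 * (LB * L ^ 3) := by
      unfold F2N.eD; ring
    rw [e]
    have := mul_nonneg hN4 (b0 w)
    linarith

/-- **The base number in sizes.** -/
theorem bs_num {k : ℝ} {q : Par} (S : CS n k q.x) {G : GD (Pair n)} (hG : G.Ok) (h1 : q.s1 ≤ q.s2)
    (h2 : q.s2 ≤ 1) {Wf : (Pair n → ℝ) → (Pair n → ℝ) → (Pair n → ℝ) → ℝ} (hWf : E3 Wf)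
    {Bf : (Pair n → ℝ) → (Pair n → ℝ) → (Pair n → ℝ) → Matrix (Fin n) (Fin n) ℝ}
    (hBf : ∀ i j, E3 fun z0 z1 z2 => Bf z0 z1 z2 i j)
    (eB : ∀ w, B w = Bf (P0 q w) (P1 q w) (P2 q w)) (pB : ∀ w, (B w).PosSemidef)
    (hχ : EG χ) (hχ0 : ∀ w, 0 ≤ χ w) {w1 : (K4 (Pair n) → ℝ) → ℝ}
    (ew : ∀ w, w1 w = Wf (P0 q w) (P1 q w) (P2 q w)) {κ r cB c1 L LB D : ℝ} (hκ : 0 < κ)
    (hχ1 : ∀ w, χ w ≤ 1 / κ * w1 w) (hr0 : 0 ≤ r) (hr1 : r ≤ 1)
    (hW : EG W) (W0 : ∀ w, 0 ≤ W w) (hc1 : 0 ≤ c1) (hw1 : ∀ w, w1 w ≤ c1 * W w)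
    (hdg : ∀ w i, B w i i = cB) (hcB : 0 ≤ cB)
    (hbd : EG bd) (b0 : ∀ w, 0 ≤ bd w) (hL : 0 ≤ L) (hLn : L ≤ n) (hLB : 0 ≤ LB) (hD : 0 < D)
    (dd : ∀ w, bd w = 1 ∨ nf (H941.Cm S q.s1 (k2 q) w) ≤ L ∧
      nf (H941.Cm S q.s2 (k3 q) w) ≤ L ∧ nf (B w) ≤ LB)
    (nB : ∀ w, nf (B w) ≤ n) (tB : ∀ w, (B w).trace ≤ n)
    (hdA : Im (densG q G S.F) (fun w => W w * dfc (H941.Cm S q.s1 (k2 q) w)) ≤
      D ^ 2 * Im (densG q G S.F) W)
    (hdC : Im (densG q G S.F) (fun w => W w * dfc (H941.Cm S q.s2 (k3 q) w)) ≤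
      D ^ 2 * Im (densG q G S.F) W) :
    Im (densG q G S.F) (fun w => χ w * bs3 (H941.Cm S q.s1 (k2 q) w) (H941.Cm S q.s2 (k3 q) w)
        (H941.od (B w)) r) ≤
      1 / κ * c1 * ((6 * (LB * L ^ 2) * D + cB * (1 - r) * L ^ 4) * Im (densG q G S.F) W +
        (7 * (n : ℝ) ^ 5 + cB * (1 - r) * (n : ℝ) ^ 4) *
          Im (densG q G S.F) (fun w => W w * bd w)) := by
  have key := base_num S hG h1 h2 hWf hBf eB pB hχ hχ0 ew hκ hL hχ1 hr0 hr1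
  set φ := densG q G S.F with hφ
  have hd : EG φ := eg_densG S.c11 S.x0 hG
  have h0 : ∀ w, 0 ≤ φ w := fun w => (Real.exp_pos _).le
  obtain ⟨A, hA⟩ : ∃ A, A = H941.Cm S q.s1 (k2 q) := ⟨_, rfl⟩
  obtain ⟨C, hC⟩ : ∃ C, C = H941.Cm S q.s2 (k3 q) := ⟨_, rfl⟩
  rw [← hA, ← hC] at key dd ⊢
  rw [← hA] at hdA
  rw [← hC] at hdC
  have pA : ∀ w, (A w).PosSemidef := fun w => by rw [hA]; exact psm_A S _ _
  have pC : ∀ w, (C w).PosSemidef := fun w => by rw [hC]; exact psm_A S _ _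
  have nA : ∀ w, nf (A w) ≤ n := fun w => by
    rw [hA]
    have h5 := S.fr_A_le q.s1 (lp (k2 q) w)
    calc nf (H941.Cm S q.s1 (k2 q) w) ≤ √((n : ℝ) ^ 2) := Real.sqrt_le_sqrt h5
      _ = n := Real.sqrt_sq (Nat.cast_nonneg n)
  have nC : ∀ w, nf (C w) ≤ n := fun w => by
    rw [hC]
    have h5 := S.fr_A_le q.s2 (lp (k3 q) w)
    calc nf (H941.Cm S q.s2 (k3 q) w) ≤ √((n : ℝ) ^ 2) := Real.sqrt_le_sqrt h5
      _ = n := Real.sqrt_sq (Nat.cast_nonneg n)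
  have gA : ∀ i j, EG fun w => A w i j := fun i j => by rw [hA]; exact F2N.eg_CC i j _ _
  have gC : ∀ i j, EG fun w => C w i j := fun i j => by rw [hC]; exact F2N.eg_CC i j _ _
  have gB : ∀ i j, EG fun w => B w i j := fun i j => by
    have e : (fun w => B w i j) = fun w => Bf (P0 q w) (P1 q w) (P2 q w) i j :=
      funext fun w => by rw [eB]
    rw [e]
    exact E4.eg_p (E4.of_E3 (hBf i j)) q.t0 q.t1 q.s1 q.s2
  have gw : EG w1 := by
    have e : w1 = fun w => Wf (P0 q w) (P1 q w) (P2 q w) := funext ew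
    rw [e]
    exact E4.eg_p (E4.of_E3 hWf) q.t0 q.t1 q.s1 q.s2
  have gnA := eg_nf gA
  have gnC := eg_nf gC
  have gnB := eg_nf gB
  have gdA := eg_dfc gA
  have gdC := eg_dfc gC
  have gtrB : EG fun w => (B w).trace := by
    simp only [Matrix.trace, Matrix.diag_apply]
    exact EG.sum _ fun i _ => gB i i
  have gmax : EG fun w => max (nf (C w) - L) 0 := by
    have e : (fun w => max (nf (C w) - L) 0) = fun w => 1 / 2 * ((nf (C w) - L) +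
        |nf (C w) - L|) := funext fun w => by
      rcases le_total (nf (C w) - L) 0 with h | h
      · rw [max_eq_right h, abs_of_nonpos h]; ring
      · rw [max_eq_left h, abs_of_nonneg h]; ring
    rw [e]
    have g := gnC.sub (EG.const L)
    exact (g.add g.abs).const_mul _
  have n0 : (0 : ℝ) ≤ n := Nat.cast_nonneg n
  have trB0 : ∀ w, 0 ≤ (B w).trace := fun w => (pB w).trace_nonneg
  have dbA : ∀ w, √(dfc (A w)) ≤ (n : ℝ) ^ 2 := fun w =>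
    sq_dfc_le.trans (pow_le_pow_left₀ (nf_nonneg _) (nA w) 2)
  have dbC : ∀ w, √(dfc (C w)) ≤ (n : ℝ) ^ 2 := fun w =>
    sq_dfc_le.trans (pow_le_pow_left₀ (nf_nonneg _) (nC w) 2)
  have sqA : ∀ w, √(dfc (A w)) ^ 2 = dfc (A w) := fun w =>
    Real.sq_sqrt (H522.dfc_nonneg (H561.psd_of (pA w)))
  have sqC : ∀ w, √(dfc (C w)) ^ 2 = dfc (C w) := fun w =>
    Real.sq_sqrt (H522.dfc_nonneg (H561.psd_of (pC w)))
  have hdA' : Im φ (fun w => W w * √(dfc (A w)) ^ 2) ≤ D ^ 2 * Im φ W := by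
    rw [Im_congr fun w => by rw [sqA w]]; exact hdA
  have hdC' : Im φ (fun w => W w * √(dfc (C w)) ^ 2) ≤ D ^ 2 * Im φ W := by
    rw [Im_congr fun w => by rw [sqC w]]; exact hdC
  obtain ⟨U, hU⟩ : ∃ U, U = Im φ W := ⟨_, rfl⟩
  obtain ⟨V, hV⟩ : ∃ V, V = Im φ (fun w => W w * bd w) := ⟨_, rfl⟩
  have U0 : 0 ≤ U := by rw [hU]; exact Im_nonneg' h0 W0
  have V0 : 0 ≤ V := by rw [hV]; exact Im_nonneg' h0 fun w => mul_nonneg (W0 w) (b0 w)
  -- the three sizes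
  have zA : ∀ w, bd w = 1 ∨ nf (A w) ≤ L := fun w => (dd w).imp_right fun h => h.1
  have zC : ∀ w, bd w = 1 ∨ nf (C w) ≤ L := fun w => (dd w).imp_right fun h => h.2.1
  have b1 : Im φ (fun w => W w * ((2 * (nf (B w) * nf (A w))) * √(dfc (A w)))) ≤
      2 * (LB * L) * (D * U) + 2 * (n : ℝ) ^ 2 * (n : ℝ) ^ 2 * V := by
    rw [hU, hV]
    refine im_gbd hd h0 hD (by positivity) (by positivity) hW W0 ((gnB.mul gnA).const_mul 2) gdA
      (fun w => Real.sqrt_nonneg _) dbA hbd b0 (fun w => ?_) hdA'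
    rcases dd w with hb | ⟨l1, l2, l3⟩
    · rw [hb, mul_one]
      have := mul_le_mul (nB w) (nA w) (nf_nonneg _) n0
      nlinarith [mul_nonneg hLB hL]
    · have := mul_le_mul l3 l1 (nf_nonneg _) hLB
      nlinarith [mul_nonneg (mul_nonneg n0 n0) (b0 w)]
  have b3 : ∀ (X Y : (K4 (Pair n) → ℝ) → Matrix (Fin n) (Fin n) ℝ), (∀ i j, EG fun w => X w i j) →
      (∀ i j, EG fun w => Y w i j) → (∀ w, bd w = 1 ∨ nf (X w) ≤ L) → (∀ w, nf (X w) ≤ n) →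
      (∀ w, √(dfc (Y w)) ≤ (n : ℝ) ^ 2) →
      Im φ (fun w => W w * √(dfc (Y w)) ^ 2) ≤ D ^ 2 * Im φ W →
      Im φ (fun w => W w * ((nf (B w) * nf (X w) ^ 2) * √(dfc (Y w)))) ≤
        LB * L ^ 2 * (D * U) + (n : ℝ) ^ 3 * (n : ℝ) ^ 2 * V := by
    intro X Y gX gY zX nX dbY hdY
    rw [hU, hV]
    refine im_gbd hd h0 hD (by positivity) (by positivity) hW W0 (gnB.mul ((eg_nf gX).pow 2))
      (eg_dfc gY) (fun w => Real.sqrt_nonneg _) dbY hbd b0 (fun w => ?_) hdY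
    have c2 : ∀ t : ℝ, 0 ≤ t → nf (X w) ≤ t → nf (X w) ^ 2 ≤ t ^ 2 := fun t ht h =>
      pow_le_pow_left₀ (nf_nonneg _) h 2
    rcases dd w with hb | ⟨l1, l2, l3⟩
    · rw [hb, mul_one]
      have := mul_le_mul (nB w) (c2 n n0 (nX w)) (by positivity) n0
      have h6 : 0 ≤ LB * L ^ 2 := by positivity
      nlinarith
    · rcases zX w with hb | lX
      · rw [hb, mul_one]
        have := mul_le_mul (nB w) (c2 n n0 (nX w)) (by positivity) n0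
        have h6 : 0 ≤ LB * L ^ 2 := by positivity
        nlinarith
      · have := mul_le_mul l3 (c2 L hL lX) (by positivity) hLB
        have h6 : 0 ≤ (n : ℝ) ^ 3 * bd w := mul_nonneg (by positivity) (b0 w)
        linarith
  have b31 := b3 A C gA gC zA nA dbC hdC'
  have b32 := b3 C A gC gA zC nC dbA hdA'
  have b2 : Im φ (fun w => W w * (max (nf (C w) - L) 0 *
      (nf (C w) * (nf (A w) ^ 2 * (B w).trace)))) ≤ 0 * U + (n : ℝ) ^ 5 * V := by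
    rw [hU, hV]
    refine im_gb hd h0 hW W0 (gmax.mul (gnC.mul ((gnA.pow 2).mul gtrB))) hbd fun w => ?_
    have m1 : max (nf (C w) - L) 0 ≤ n * bd w := by
      rcases zC w with hb | l
      · rw [hb, mul_one]
        exact max_le (by linarith [nC w]) n0
      · rw [max_eq_right (by linarith)]
        exact mul_nonneg n0 (b0 w)
    have m2 : nf (C w) * (nf (A w) ^ 2 * (B w).trace) ≤ n * ((n : ℝ) ^ 2 * n) :=
      mul_le_mul (nC w) (mul_le_mul (pow_le_pow_left₀ (nf_nonneg _) (nA w) 2) (tB w) (trB0 w)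
        (by positivity)) (mul_nonneg (by positivity) (trB0 w)) n0
    have m3 : 0 ≤ nf (C w) * (nf (A w) ^ 2 * (B w).trace) :=
      mul_nonneg (nf_nonneg _) (mul_nonneg (by positivity) (trB0 w))
    have := mul_le_mul m1 m2 m3 (mul_nonneg n0 (b0 w))
    calc _ ≤ n * bd w * (n * ((n : ℝ) ^ 2 * n)) := this
      _ = 0 + (n : ℝ) ^ 5 * bd w := by ring
  -- from `w1`, `χ` to `W`
  have hκ' : 0 ≤ 1 / κ := by positivity
  have t1 : Im φ (fun w => w1 w * (2 * (nf (B w) * (nf (A w) * √(dfc (A w)))))) ≤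
      c1 * (2 * (LB * L) * (D * U) + 2 * (n : ℝ) ^ 2 * (n : ℝ) ^ 2 * V) := by
    refine (im_chi hd h0 gw hW ((gnB.mul (gnA.mul gdA)).const_mul 2) (fun w => ?_) hw1).trans ?_
    · have := nf_nonneg (B w)
      have := nf_nonneg (A w)
      have := Real.sqrt_nonneg (dfc (A w))
      positivity
    · refine mul_le_mul_of_nonneg_left ?_ hc1
      refine le_trans (le_of_eq (Im_congr fun w => ?_)) b1
      ring
  have t2 : Im φ (fun w => w1 w * (max (nf (C w) - L) 0 *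
      (nf (C w) * (nf (A w) ^ 2 * (B w).trace)))) ≤ c1 * (0 * U + (n : ℝ) ^ 5 * V) := by
    refine (im_chi hd h0 gw hW (gmax.mul (gnC.mul ((gnA.pow 2).mul gtrB))) (fun w => ?_)
      hw1).trans (mul_le_mul_of_nonneg_left b2 hc1)
    exact mul_nonneg (le_max_right _ _) (mul_nonneg (nf_nonneg _)
      (mul_nonneg (by positivity) (trB0 w)))
  have hχW : ∀ w, χ w ≤ 1 / κ * c1 * W w := fun w => by
    have := mul_le_mul_of_nonneg_left (hw1 w) hκ'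
    exact (hχ1 w).trans (by rw [mul_assoc]; exact this)
  have t3 : Im φ (fun w => χ w * (nf (B w) *
        (nf (A w) ^ 2 * √(dfc (C w)) + nf (C w) ^ 2 * √(dfc (A w))))) ≤
      1 / κ * c1 * (2 * (LB * L ^ 2) * (D * U) + 2 * ((n : ℝ) ^ 3 * (n : ℝ) ^ 2) * V) := by
    refine (im_chi hd h0 hχ hW (gnB.mul (((gnA.pow 2).mul gdC).add ((gnC.pow 2).mul gdA)))
      (fun w => ?_) hχW).trans ?_
    · have := nf_nonneg (B w)
      have := Real.sqrt_nonneg (dfc (A w))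
      have := Real.sqrt_nonneg (dfc (C w))
      positivity
    · refine mul_le_mul_of_nonneg_left ?_ (mul_nonneg hκ' hc1)
      have e : Im φ (fun w => W w * (nf (B w) *
          (nf (A w) ^ 2 * √(dfc (C w)) + nf (C w) ^ 2 * √(dfc (A w))))) =
          Im φ (fun w => W w * ((nf (B w) * nf (A w) ^ 2) * √(dfc (C w)))) +
          Im φ (fun w => W w * ((nf (B w) * nf (C w) ^ 2) * √(dfc (A w)))) := by
        rw [← Im_add hd (hW.mul ((gnB.mul (gnA.pow 2)).mul gdC))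
          (hW.mul ((gnB.mul (gnC.pow 2)).mul gdA))]
        exact Im_congr fun w => by ring
      rw [e]
      linarith
  -- the diagonal
  have gq4 : EG fun w => (A w * (A w * (C w * C w))).trace := by
    simp only [Matrix.trace, Matrix.diag_apply]
    exact EG.sum _ fun i _ => eg_mm' gA (eg_mm' gA (eg_mm' gC gC)) i i
  have t4 : Im φ (fun w => χ w * (A w * (A w * (C w * C w))).trace) ≤
      1 / κ * c1 * (L ^ 4 * U + (n : ℝ) ^ 4 * V) := by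
    have e0 : ∀ w, (A w * (A w * (C w * C w))).trace = (A w * A w * (C w * C w)).trace :=
      fun w => by simp only [Matrix.mul_assoc]
    have p0 : ∀ w, 0 ≤ (A w * (A w * (C w * C w))).trace := fun w => by
      rw [e0, tr_AACC (sym_of (pA w)) (sym_of (pC w))]
      exact H332.fr_nonneg _
    have q0 : ∀ w, (A w * (A w * (C w * C w))).trace ≤ nf (A w) ^ 2 * nf (C w) ^ 2 := fun w => by
      rw [e0, tr_AACC (sym_of (pA w)) (sym_of (pC w))]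
      have := nf_mul_le (A w) (C w)
      have h7 := pow_le_pow_left₀ (nf_nonneg _) this 2
      rw [nf_sq, mul_pow] at h7
      exact h7
    refine (im_chi hd h0 hχ hW gq4 p0 hχW).trans ?_
    refine mul_le_mul_of_nonneg_left ?_ (mul_nonneg hκ' hc1)
    rw [hU, hV]
    refine im_gb hd h0 hW W0 gq4 hbd fun w => (q0 w).trans ?_
    rcases dd w with hb | ⟨l1, l2, l3⟩
    · rw [hb, mul_one]
      have := mul_le_mul (pow_le_pow_left₀ (nf_nonneg _) (nA w) 2)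
        (pow_le_pow_left₀ (nf_nonneg _) (nC w) 2) (by positivity) (by positivity)
      have h8 : 0 ≤ L ^ 4 := by positivity
      calc _ ≤ (n : ℝ) ^ 2 * (n : ℝ) ^ 2 := this
        _ = (n : ℝ) ^ 4 := by ring
        _ ≤ _ := by linarith
    · have := mul_le_mul (pow_le_pow_left₀ (nf_nonneg _) l1 2)
        (pow_le_pow_left₀ (nf_nonneg _) l2 2) (by positivity) (by positivity)
      have h8 : 0 ≤ (n : ℝ) ^ 4 * bd w := mul_nonneg (by positivity) (b0 w)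
      calc _ ≤ L ^ 2 * L ^ 2 := this
        _ = L ^ 4 := by ring
        _ ≤ _ := by linarith
  have eod : ∀ w, H941.od (B w) = B w - cB • (1 : Matrix (Fin n) (Fin n) ℝ) := fun w => by
    ext i j
    unfold H941.od
    simp only [Matrix.sub_apply, Matrix.smul_apply, Matrix.one_apply, smul_eq_mul]
    by_cases hij : i = j
    · subst hij; simp [hdg w i]
    · simp [hij]
  have gbs : EG fun w => bs3 (A w) (C w) (B w) r := by
    have e : (fun w => bs3 (A w) (C w) (B w) r) = fun w =>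
        (B w * (A w * (C w * C w) * A w)).trace + r * (B w * (C w * (A w * A w) * C w)).trace -
          2 * (A w * A w * (C w * C w) * B w).trace := rfl
    rw [e]
    simp only [Matrix.trace, Matrix.diag_apply]
    exact ((EG.sum _ fun i _ => eg_mm' gB (eg_mm' (eg_mm' gA (eg_mm' gC gC)) gA) i i).add
      ((EG.sum _ fun i _ => eg_mm' gB (eg_mm' (eg_mm' gC (eg_mm' gA gA)) gC) i i).const_mul r)).sub
      ((EG.sum _ fun i _ => eg_mm' (eg_mm' (eg_mm' gA gA) (eg_mm' gC gC)) gB i i).const_mul 2)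
  have t5 : Im φ (fun w => χ w * bs3 (A w) (C w) (H941.od (B w)) r) =
      Im φ (fun w => χ w * bs3 (A w) (C w) (B w) r) +
        cB * (1 - r) * Im φ (fun w => χ w * (A w * (A w * (C w * C w))).trace) := by
    rw [← Im_const_mul, ← Im_add hd (hχ.mul gbs) ((hχ.mul gq4).const_mul _)]
    refine Im_congr fun w => ?_
    rw [eod w, bs3_sub_one]
    ring
  rw [t5]
  have hr : 0 ≤ cB * (1 - r) := mul_nonneg hcB (by linarith)
  have u1 := mul_le_mul_of_nonneg_left t1 (show 0 ≤ L / κ by positivity)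
  have u2 := mul_le_mul_of_nonneg_left t2 hκ'
  have u4 := mul_le_mul_of_nonneg_left t4 hr
  have hc2 : 0 ≤ 1 / κ * c1 := mul_nonneg hκ' hc1
  rw [← hU, ← hV]
  have f1 : L / κ * (c1 * (2 * (LB * L) * (D * U) + 2 * (n : ℝ) ^ 2 * (n : ℝ) ^ 2 * V)) =
      1 / κ * c1 * (2 * (LB * L ^ 2) * D * U + 2 * L * (n : ℝ) ^ 4 * V) := by ring
  have f2 : 1 / κ * c1 * (2 * L * (n : ℝ) ^ 4 * V) ≤ 1 / κ * c1 * (2 * (n : ℝ) ^ 5 * V) := by
    refine mul_le_mul_of_nonneg_left ?_ hc2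
    refine mul_le_mul_of_nonneg_right ?_ V0
    have := mul_le_mul_of_nonneg_right hLn (show 0 ≤ 2 * (n : ℝ) ^ 4 by positivity)
    calc 2 * L * (n : ℝ) ^ 4 = L * (2 * (n : ℝ) ^ 4) := by ring
      _ ≤ n * (2 * (n : ℝ) ^ 4) := this
      _ = _ := by ring
  rw [f1] at u1
  have e9 : 1 / κ * c1 * ((6 * (LB * L ^ 2) * D + cB * (1 - r) * L ^ 4) * U +
        (7 * (n : ℝ) ^ 5 + cB * (1 - r) * (n : ℝ) ^ 4) * V) =
      (1 / κ * c1 * (2 * (LB * L ^ 2) * D * U) + 1 / κ * c1 * (2 * (n : ℝ) ^ 5 * V)) +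
      1 / κ * (c1 * (0 * U + (n : ℝ) ^ 5 * V)) +
      2 * (1 / κ * c1 * (2 * (LB * L ^ 2) * (D * U) + 2 * ((n : ℝ) ^ 3 * (n : ℝ) ^ 2) * V)) +
      cB * (1 - r) * (1 / κ * c1 * (L ^ 4 * U + (n : ℝ) ^ 4 * V)) := by ring
  rw [e9]
  have e10 : 1 / κ * c1 * (2 * (LB * L ^ 2) * D * U + 2 * L * (n : ℝ) ^ 4 * V) =
      1 / κ * c1 * (2 * (LB * L ^ 2) * D * U) + 1 / κ * c1 * (2 * L * (n : ℝ) ^ 4 * V) := by ring
  rw [e10] at u1
  linarith

/-- **The error numbers without touches**, together: `Im χ qd + (k²/β) (Im χ bs3 + Im χ eD)`. -/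
theorem err_A {k : ℝ} {q : Par} (S : CS n k q.x) {G : GD (Pair n)} (hG : G.Ok) (h1 : q.s1 ≤ q.s2)
    (h2 : q.s2 ≤ 1) {Wf : (Pair n → ℝ) → (Pair n → ℝ) → (Pair n → ℝ) → ℝ} (hWf : E3 Wf)
    {Bf : (Pair n → ℝ) → (Pair n → ℝ) → (Pair n → ℝ) → Matrix (Fin n) (Fin n) ℝ}
    (hBf : ∀ i j, E3 fun z0 z1 z2 => Bf z0 z1 z2 i j)
    (eB : ∀ w, B w = Bf (P0 q w) (P1 q w) (P2 q w)) (pB : ∀ w, (B w).PosSemidef)
    (hχ : EG χ) (hχ0 : ∀ w, 0 ≤ χ w) {w1 : (K4 (Pair n) → ℝ) → ℝ}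
    (ew : ∀ w, w1 w = Wf (P0 q w) (P1 q w) (P2 q w)) {κ r cB c1 L LB D xt1 β : ℝ} (hκ : 0 < κ)
    (hχ1 : ∀ w, χ w ≤ 1 / κ * w1 w) (hr0 : 0 ≤ r) (hr1 : r ≤ 1)
    (hW : EG W) (W0 : ∀ w, 0 ≤ W w) (hc1 : 0 ≤ c1) (hw1 : ∀ w, w1 w ≤ c1 * W w)
    (hdg : ∀ w i, B w i i = cB) (hcB : 0 ≤ cB) (hβ : 0 < β) (hn : 1 ≤ (n : ℝ))
    (hx0 : 0 ≤ xt1) (hx1 : xt1 ≤ 1)
    (hbd : EG bd) (b0 : ∀ w, 0 ≤ bd w) (hL : 0 ≤ L) (hLn : L ≤ n) (hLB : 0 ≤ LB) (hD : 0 < D)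
    (dd : ∀ w, bd w = 1 ∨ nf (H941.Cm S q.s1 (k2 q) w) ≤ L ∧
      nf (H941.Cm S q.s2 (k3 q) w) ≤ L ∧ nf (B w) ≤ LB)
    (nB : ∀ w, nf (B w) ≤ n) (tB : ∀ w, (B w).trace ≤ n)
    (hdA : Im (densG q G S.F) (fun w => W w * dfc (H941.Cm S q.s1 (k2 q) w)) ≤
      D ^ 2 * Im (densG q G S.F) W)
    (hdC : Im (densG q G S.F) (fun w => W w * dfc (H941.Cm S q.s2 (k3 q) w)) ≤
      D ^ 2 * Im (densG q G S.F) W) :
    Im (densG q G S.F) (fun w => χ w * qd S q.s1 q.s2 (k2 q) (k3 q) w) +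
      k ^ 2 / β * (Im (densG q G S.F) (fun w => χ w * bs3 (H941.Cm S q.s1 (k2 q) w)
          (H941.Cm S q.s2 (k3 q) w) (H941.od (B w)) r) +
        Im (densG q G S.F) (fun w => χ w * eD (H191.fro (H941.Cm S q.s1 (k2 q) w))
          (H191.fro (H941.Cm S q.s2 (k3 q) w)) (H191.fro (H941.od (B w))) xt1)) ≤
      1 / κ * c1 * ((4 * L ^ 2 + k ^ 2 / β * (6 * (LB * L ^ 2) * D + cB * (1 - r) * L ^ 4 +
          xt1 * (2 * L ^ 4 + 2 * L ^ 3) + 4 * (LB * L ^ 3))) * Im (densG q G S.F) W +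
        (4 * (n : ℝ) ^ 2 + k ^ 2 / β * (7 * (n : ℝ) ^ 5 + cB * (1 - r) * (n : ℝ) ^ 4 +
          8 * (n : ℝ) ^ 4)) * Im (densG q G S.F) (fun w => W w * bd w)) := by
  have hd : EG (densG q G S.F) := eg_densG S.c11 S.x0 hG
  have h0 : ∀ w, 0 ≤ densG q G S.F w := fun w => (Real.exp_pos _).le
  have hκ' : 0 ≤ 1 / κ := by positivity
  have hc2 : 0 ≤ 1 / κ * c1 := mul_nonneg hκ' hc1
  have hχW : ∀ w, χ w ≤ 1 / κ * c1 * W w := fun w => by
    have := mul_le_mul_of_nonneg_left (hw1 w) hκ'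
    exact (hχ1 w).trans (by rw [mul_assoc]; exact this)
  have nA : ∀ w, nf (H941.Cm S q.s1 (k2 q) w) ≤ n := fun w => by
    have h5 := S.fr_A_le q.s1 (lp (k2 q) w)
    calc nf (H941.Cm S q.s1 (k2 q) w) ≤ √((n : ℝ) ^ 2) := Real.sqrt_le_sqrt h5
      _ = n := Real.sqrt_sq (Nat.cast_nonneg n)
  have nC : ∀ w, nf (H941.Cm S q.s2 (k3 q) w) ≤ n := fun w => by
    have h5 := S.fr_A_le q.s2 (lp (k3 q) w)
    calc nf (H941.Cm S q.s2 (k3 q) w) ≤ √((n : ℝ) ^ 2) := Real.sqrt_le_sqrt h5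
      _ = n := Real.sqrt_sq (Nat.cast_nonneg n)
  have gB : ∀ i j, EG fun w => B w i j := fun i j => by
    have e : (fun w => B w i j) = fun w => Bf (P0 q w) (P1 q w) (P2 q w) i j :=
      funext fun w => by rw [eB]
    rw [e]
    exact E4.eg_p (E4.of_E3 (hBf i j)) q.t0 q.t1 q.s1 q.s2
  have u1 := qd_num (S := S) (a1 := k2 q) (a2 := k3 q) hd h0 hL hc2 hχ hW W0 hχW hχ0 hbd b0
    (fun w => (dd w).imp_right fun h => h.1) (fun w => (dd w).imp_right fun h => h.2.1) nA nC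
  have u2 := eD_num (S := S) (a1 := k2 q) (a2 := k3 q) (xt1 := xt1) hd h0 hL hLB hc2 hn hx0 hx1
    gB hχ hW W0 hχW hbd b0 dd nA nC nB
  have u3 := bs_num S hG h1 h2 hWf hBf eB pB hχ hχ0 ew hκ hχ1 hr0 hr1 hW W0 hc1 hw1 hdg hcB
    hbd b0 hL hLn hLB hD dd nB tB hdA hdC
  have hk : 0 ≤ k ^ 2 / β := by positivity
  have u4 := mul_le_mul_of_nonneg_left (add_le_add u3 u2) hk
  refine (add_le_add u1 u4).trans (le_of_eq ?_)
  ring

end num

end Vale.Agent.P146.H785.F2E
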