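import Vale.Agent.P146.H785.F2Mart
import Vale.Agent.P146.H350.F2Mat
import Vale.Agent.P146.H130.GTwo
import Vale.Agent.P146.H797.H826_LawP

/-!
Plan R2, row F2: **the time `s2` drops out.** The mean of a function of the first three positions
under the law of `q` is the mean of the same function of the positions 0, 1, 3 under the law of
`q' = {q with s1 := s', s2 := q.s1}`; the row sums of the nonlinear part at the time `s1` of `q`
are the row sums at the time `s2` of `q'`.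
-/

set_option linter.all false

open MeasureTheory ProbabilityTheory Finset

namespace Vale.Agent.P146.H785.F2S

open Vale.Agent.P157.Lv Vale.Agent.P146.H425 Vale.Agent.P146.H325 Vale.Agent.P146.H332
  Vale.Agent.P146.H712 Vale.Agent.P146.R1 Vale.Agent.P146.R1C Vale.Agent.P146.R1S
  Vale.Agent.P146.H706 Vale.Agent.P146.H191
open Vale.Agent.P146.H785 (Ax)
open Vale.Agent.P146.H350 (Nv)

section gen

variable {κ : Type} [Fintype κ] [DecidableEq κ] {F : (κ → ℝ) → ℝ} {D : κ → (κ → ℝ) → ℝ}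
  {B L : ℝ} {q : Par} {G : GD κ}

/-- the parameters with the last two times `s' ≤ q.s1` -/
def sh (q : Par) (s' : ℝ) : Par := {q with s1 := s', s2 := q.s1}

@[simp] lemma sh_x (s' : ℝ) : (sh q s').x = q.x := rfl
@[simp] lemma sh_t0 (s' : ℝ) : (sh q s').t0 = q.t0 := rfl
@[simp] lemma sh_t1 (s' : ℝ) : (sh q s').t1 = q.t1 := rfl
@[simp] lemma sh_s1 (s' : ℝ) : (sh q s').s1 = s' := rfl
@[simp] lemma sh_s2 (s' : ℝ) : (sh q s').s2 = q.s1 := rfl

lemma sh_OkS (hq : q.OkS) {s' : ℝ} (h0 : q.t1 ≤ s') (h1 : s' ≤ q.s1) : (sh q s').OkS :=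
  ⟨hq.x0, hq.x1, hq.θ0, hq.θ1, hq.h0, hq.h01, h0, h1, hq.h12.trans hq.h2⟩

/-- **The law of the first three positions.** -/
theorem EwG_sh (h : C11 F D B L) (hx : 0 < q.x) (hG : G.Ok)
    {Ψ : (κ → ℝ) → (κ → ℝ) → (κ → ℝ) → ℝ} (hΨ : E3 Ψ) {s' : ℝ} (h0 : q.t1 ≤ s')
    (h1 : s' ≤ q.s1) (h2 : q.s1 ≤ q.s2) (h3 : q.s2 ≤ 1) :
    EwG q G F (fun w => Ψ (P0 q w) (P1 q w) (P2 q w)) =
      EwG (sh q s') G F (fun w => Ψ (P0 (sh q s') w) (P1 (sh q s') w) (P3 (sh q s') w)) := by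
  rw [EwG_123 h hx hG hΨ h2 h3]
  exact (EwG_124 (q := sh q s') h hx hG hΨ h0 h1).symm

theorem EnG_sh (h : C11 F D B L) (hx : 0 < q.x) (hG : G.Ok)
    {Ψ : (κ → ℝ) → (κ → ℝ) → (κ → ℝ) → ℝ} (hΨ : E3 Ψ) {s' : ℝ} (h0 : q.t1 ≤ s')
    (h1 : s' ≤ q.s1) (h2 : q.s1 ≤ q.s2) (h3 : q.s2 ≤ 1) :
    EnG q G F (fun w => Ψ (P0 q w) (P1 q w) (P2 q w)) =
      EnG (sh q s') G F (fun w => Ψ (P0 (sh q s') w) (P1 (sh q s') w) (P3 (sh q s') w)) := by
  rw [EnG_123 h hx hG hΨ h2 h3]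
  exact (EnG_124 (q := sh q s') h hx hG hΨ h0 h1).symm

/-- the same in the letters `Im`, `lp` -/
theorem Im_sh (h : C11 F D B L) (hx : 0 < q.x) (hG : G.Ok)
    {Ψ : (κ → ℝ) → (κ → ℝ) → (κ → ℝ) → ℝ} (hΨ : E3 Ψ) {s' : ℝ} (h0 : q.t1 ≤ s')
    (h1 : s' ≤ q.s1) (h2 : q.s1 ≤ q.s2) (h3 : q.s2 ≤ 1) :
    Im (densG q G F) (fun w => Ψ (lp (k0 q) w) (lp (k1 q) w) (lp (k2 q) w)) =
      Im (densG (sh q s') G F) (fun w => Ψ (lp (k0 (sh q s')) w) (lp (k1 (sh q s')) w)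
        (lp (k3 (sh q s')) w)) := by
  have key := EwG_sh h hx hG hΨ h0 h1 h2 h3
  simp only [R1C.P0_lp, R1C.P1_lp, R1C.P2_lp, R1C.P3_lp] at key
  exact key

/-- the base data do not see the last two times -/
lemma GTwo_sh (y h s' : ℝ) : GTwo (sh q s') y h F D = GTwo q y h F D := rfl

end gen

section row

variable {n : ℕ} {k : ℝ} {q : Par}

/-- the rest `N_b = U_b - (k/β) M y` as a function of the position -/
noncomputable def NvP {x : ℝ} (S : CS n k x) (s β : ℝ) (b : Fin n)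
    (Mf : (Pair n → ℝ) → Matrix (Fin n) (Fin n) ℝ) (z : Pair n → ℝ) (i : Fin n) : ℝ :=
  Uz S s b i z - k * ∑ e ∈ row b, Mf z i (oth b e) / β * z e

lemma Nv_lp {x : ℝ} (S : CS n k x) (s β : ℝ) (a : Fin 4 → ℝ) (b : Fin n)
    (Mf : (Pair n → ℝ) → Matrix (Fin n) (Fin n) ℝ) (w : K4 (Pair n) → ℝ) (i : Fin n) :
    Nv S s a β b (fun w => Mf (lp a w)) w i = NvP S s β b Mf (lp a w) i := rfl

lemma eg_coord {κ : Type} [Fintype κ] (e : κ) : EG fun z : κ → ℝ => z e :=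
  ⟨measurable_pi_apply e, 1, 1, zero_le_one, zero_le_one, fun z => by
    rw [one_mul, one_mul]
    have h1 : |z e| ≤ ‖z‖ := norm_le_pi_norm z e
    have h2 := Real.add_one_le_exp ‖z‖
    linarith⟩

lemma eg_NvP {x : ℝ} (S : CS n k x) (s β : ℝ) (b : Fin n)
    {Mf : (Pair n → ℝ) → Matrix (Fin n) (Fin n) ℝ} (hM : ∀ i j, EG fun z => Mf z i j)
    (i : Fin n) : EG fun z => NvP S s β b Mf z i := by
  have e : ∀ j, EG fun z => Mf z i j / β := fun j => by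
    have : (fun z => Mf z i j / β) = fun z => 1 / β * Mf z i j := funext fun w => by ring
    rw [this]
    exact (hM i j).const_mul _
  exact (eg_Uz S s b i).sub ((EG.sum _ fun j _ => (e _).mul (eg_coord j)).const_mul k)

lemma e3_sum' {κ : Type} [Fintype κ] {ι : Type*} (T : Finset ι)
    {Φ : ι → (κ → ℝ) → (κ → ℝ) → (κ → ℝ) → ℝ} (h : ∀ i ∈ T, E3 (Φ i)) :
    E3 fun z0 z1 z2 => ∑ i ∈ T, Φ i z0 z1 z2 := EG.sum T h

/-- **The row sums at the time `s1` of `q` are the row sums at the last time of `sh q s'`.** `Yf`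
the frozen weight (a function of the first two positions), `Mf` the frozen matrix (a function of
the position). -/
theorem rows_sh (S : CS n k q.x) {G : GD (Pair n)} (hG : G.Ok) {β s' : ℝ} (h0 : q.t1 ≤ s')
    (h1 : s' ≤ q.s1) (h2 : q.s1 ≤ q.s2) (h3 : q.s2 ≤ 1)
    {Yf : Fin n → (Pair n → ℝ) → (Pair n → ℝ) → (Pair n → ℝ) → Matrix (Fin n) (Fin n) ℝ}
    (hY : ∀ b i j, E3 fun z0 z1 z2 => Yf b z0 z1 z2 i j)
    {Mf : Fin n → (Pair n → ℝ) → Matrix (Fin n) (Fin n) ℝ}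
    (hM : ∀ b i j, EG fun z => Mf b z i j) :
    ∑ b, Im (densG q G S.F) (fun w => ∑ i, ∑ j, Yf b (lp (k0 q) w) (lp (k1 q) w) (lp (k2 q) w) i j *
      (Nv S q.s1 (k2 q) β b (fun w => Mf b (lp (k2 q) w)) w i *
        Nv S q.s1 (k2 q) β b (fun w => Mf b (lp (k2 q) w)) w j)) =
    ∑ b, Im (densG (sh q s') G S.F) (fun w => ∑ i, ∑ j,
      Yf b (lp (k0 (sh q s')) w) (lp (k1 (sh q s')) w) (lp (k3 (sh q s')) w) i j *
      (Nv S (sh q s').s2 (k3 (sh q s')) β b (fun w => Mf b (lp (k3 (sh q s')) w)) w i *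
        Nv S (sh q s').s2 (k3 (sh q s')) β b (fun w => Mf b (lp (k3 (sh q s')) w)) w j)) := by
  refine Finset.sum_congr rfl fun b _ => ?_
  have hN := eg_NvP S q.s1 β b (hM b)
  exact Im_sh (Ψ := fun z0 z1 z2 => ∑ i, ∑ j, Yf b z0 z1 z2 i j *
    (NvP S q.s1 β b (Mf b) z2 i * NvP S q.s1 β b (Mf b) z2 j)) S.c11 S.x0 hG
    (e3_sum' _ fun i _ => e3_sum' _ fun j _ => (hY b i j).mul
      (E3.of2 ((hN i).mul (hN j)))) h0 h1 h2 h3

/-- the row average at the time `s1` of a function of the position, letters `lp` -/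
lemma Av_k2 (hq : q.OkS) {f : (Pair n → ℝ) → ℝ} (hf : EG f) (R : Finset (Pair n))
    (w : K4 (Pair n) → ℝ) :
    Av (R1C.lf R) (fun w => f (lp (k2 q) w)) w = AvP q.s1 R f (lp (k2 q) w) := by
  have h := Av_lf_P2_s hq hf R w
  simp only [R1C.P2_lp] at h
  exact h

lemma Av_k3 (hq : q.OkS) {f : (Pair n → ℝ) → ℝ} (hf : EG f) (R : Finset (Pair n))
    (w : K4 (Pair n) → ℝ) :
    Av (R1C.lf R) (fun w => f (lp (k3 q) w)) w = AvP q.s2 R f (lp (k3 q) w) := by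
  have h := Av_lf_P3_s hq hf R w
  simp only [R1C.P3_lp] at h
  exact h

end row

end Vale.Agent.P146.H785.F2S
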