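import Vale.Agent.P146.H645.CSys
import Vale.Agent.P146.H706G.Mart
import Vale.Agent.P146.H191.F1Ibp

/-!
Plan R2, row F2: **the martingale identity.** The conditional two point matrix at the time `s1` is
the tilted mean of the matrix at the time `s2`; hence, under the law with the density `densG`,
the mean of `f ⟨C1, C2⟩` is the mean of `f |C1|²`, for every weight `f` of the first three
positions.
-/

set_option linter.all false

open MeasureTheory ProbabilityTheory Finset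

namespace Vale.Agent.P146.H785.F2M

open Vale.Agent.P157.Lv Vale.Agent.P146.H425 Vale.Agent.P146.H325 Vale.Agent.P146.H332
  Vale.Agent.P146.H712 Vale.Agent.P146.R1 Vale.Agent.P146.R1C Vale.Agent.P146.R1S
  Vale.Agent.P146.H706
open Vale.Agent.P146.H785 (Ax)
open Vale.Agent.P146.H191 (Im)

/-- Two layers with the same exponent are one layer. -/
theorem Ax_rot {κ : Type} [Fintype κ] {U φ : (κ → ℝ) → ℝ} {D : κ → (κ → ℝ) → ℝ}
    {B L x a b c : ℝ} (h : C11 U D B L) (hx : 0 < x) (hφ : EG φ) (habc : a ^ 2 + b ^ 2 = c ^ 2)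
    (z : κ → ℝ) : Ax x a (W x b U) (Ax x b U φ) z = Ax x c U φ z := by
  have hE : EG fun u => Real.exp (x * U u) := h.eg_exp x
  have e1 : ∀ v, Real.exp (x * W x b U v) = ∫ g, Real.exp (x * U (v + b • g)) ∂(gI κ) :=
    fun v => h.lip.exp_W h.B0 hx v
  have e2 : ∀ v, Real.exp (x * W x b U v) * Ax x b U φ v =
      ∫ g, Real.exp (x * U (v + b • g)) * φ (v + b • g) ∂(gI κ) := by
    intro v
    rw [e1 v]
    unfold Ax
    exact mul_div_cancel₀ _ (h.lip.pos h.B0 v b x).ne'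
  show (∫ y, Real.exp (x * W x b U (z + a • y)) * Ax x b U φ (z + a • y) ∂(gI κ)) /
    (∫ y, Real.exp (x * W x b U (z + a • y)) ∂(gI κ)) = Ax x c U φ z
  simp_rw [e2, e1]
  rw [gI_rot (hE.mul hφ) habc z, gI_rot hE habc z]
  rfl

variable {n : ℕ} {k x : ℝ}

/-- **The matrix is a martingale under the tilted kernels.** -/
theorem Ax_A (S : CS n k x) {s1 s2 : ℝ} (h12 : s1 ≤ s2) (h2 : s2 ≤ 1) (i j : Fin n)
    (z : Pair n → ℝ) :
    Ax x (√(s2 - s1)) (uu x s2 S.F) (fun z => S.A s2 z i j) z = S.A s1 z i j := by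
  have hu := c11_uu S.c11 S.x0 s2
  have key : ∀ e : Pair n, Ax x (√(s2 - s1)) (uu x s2 S.F)
      (fun z => S.A s2 z e.1.1 e.1.2) z = S.A s1 z e.1.1 e.1.2 := by
    intro e
    have h := Ax_rot (a := √(s2 - s1)) (b := √(1 - s2)) (c := √(1 - s1)) S.c11 S.x0
      (S.c11.eg_D e) (by
        rw [Real.sq_sqrt (by linarith), Real.sq_sqrt (by linarith), Real.sq_sqrt (by linarith)]
        ring) z
    have h3 : Ax x (√(s2 - s1)) (uu x s2 S.F) (dd x s2 S.F S.D e) z = dd x s1 S.F S.D e z := h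
    have e1 : dd x s2 S.F S.D e = fun z => k * S.A s2 z e.1.1 e.1.2 :=
      funext fun z => S.dd_eq s2 e z
    rw [e1, S.dd_eq s1 e z, H785.Ax_const_mul] at h3
    exact mul_left_cancel₀ S.k0.ne' h3
  rcases lt_trichotomy i j with h | h | h
  · exact key ⟨(i, j), h⟩
  · subst h
    have e1 : (fun z => S.A s2 z i i) = fun _ => (1 : ℝ) := funext fun z => S.A_self s2 z i
    rw [e1, S.A_self s1 z i]
    exact H785.Ax_const hu.lip hu.B0 1 _ _ z
  · have e1 : (fun z => S.A s2 z i j) = fun z => S.A s2 z j i :=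
      funext fun z => S.A_comm s2 z i j
    rw [e1, S.A_comm s1 z i j]
    exact key ⟨(j, i), h⟩

/-- **The martingale identity**, entries. -/
theorem EwG_A {q : Par} (S : CS n k q.x) {G : GD (Pair n)} (hG : G.Ok)
    {Ψ : (Pair n → ℝ) → (Pair n → ℝ) → (Pair n → ℝ) → ℝ} (hΨ : E3 Ψ) (h1 : q.s1 ≤ q.s2)
    (h2 : q.s2 ≤ 1) (i j : Fin n) :
    EwG q G S.F (fun w => Ψ (P0 q w) (P1 q w) (P2 q w) * S.A q.s2 (P3 q w) i j) =
      EwG q G S.F (fun w => Ψ (P0 q w) (P1 q w) (P2 q w) * S.A q.s1 (P2 q w) i j) := by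
  have h := EwG_tower (φ := fun z => S.A q.s2 z i j) S.c11 S.x0 hG hΨ (S.eg_A q.s2 i j) h1 h2
  rw [h]
  congr 1
  funext w
  rw [Ax_A S h1 h2 i j (P2 q w)]

/-- **The martingale identity** for `⟨C1, C2⟩`: the hypothesis `hm` of `F2Alg`. -/
theorem EwG_ip {q : Par} (S : CS n k q.x) {G : GD (Pair n)} (hG : G.Ok)
    {Ψ : (Pair n → ℝ) → (Pair n → ℝ) → (Pair n → ℝ) → ℝ} (hΨ : E3 Ψ) (h1 : q.s1 ≤ q.s2)
    (h2 : q.s2 ≤ 1) :
    EwG q G S.F (fun w => Ψ (P0 q w) (P1 q w) (P2 q w) *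
        ∑ i, ∑ j, S.A q.s1 (P2 q w) i j * S.A q.s2 (P3 q w) i j) =
      EwG q G S.F (fun w => Ψ (P0 q w) (P1 q w) (P2 q w) * fr (S.A q.s1 (P2 q w))) := by
  have g : ∀ i j, E3 fun z0 z1 z2 => Ψ z0 z1 z2 * S.A q.s1 z2 i j := fun i j =>
    hΨ.mul (E3.of2 (S.eg_A q.s1 i j))
  have hd := eg_densG (q := q) (G := G) S.c11 S.x0 hG
  have ei : ∀ i j, EG fun w : K4 (Pair n) → ℝ => densG q G S.F w *
      (Ψ (P0 q w) (P1 q w) (P2 q w) * S.A q.s1 (P2 q w) i j * S.A q.s2 (P3 q w) i j) :=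
    fun i j => hd.mul (E4.eg_p ((E4.of_E3 (g i j)).mul (E4.of3 (S.eg_A q.s2 i j)))
      q.t0 q.t1 q.s1 q.s2)
  have ej : ∀ i j, EG fun w : K4 (Pair n) → ℝ => densG q G S.F w *
      (Ψ (P0 q w) (P1 q w) (P2 q w) * S.A q.s1 (P2 q w) i j * S.A q.s1 (P2 q w) i j) :=
    fun i j => hd.mul (E4.eg_p (E4.of_E3 ((g i j).mul (E3.of2 (S.eg_A q.s1 i j))))
      q.t0 q.t1 q.s1 q.s2)
  have l1 : EwG q G S.F (fun w => Ψ (P0 q w) (P1 q w) (P2 q w) *
      ∑ i, ∑ j, S.A q.s1 (P2 q w) i j * S.A q.s2 (P3 q w) i j) =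
      ∑ i, ∑ j, EwG q G S.F (fun w => Ψ (P0 q w) (P1 q w) (P2 q w) * S.A q.s1 (P2 q w) i j *
        S.A q.s2 (P3 q w) i j) := by
    unfold EwG
    simp_rw [← integral_finsetSum univ fun j _ => (ei _ j).integrable]
    rw [← integral_finsetSum univ fun i _ => (EG.sum univ fun j _ => ei i j).integrable]
    refine integral_congr_ae (Filter.Eventually.of_forall fun w => ?_)
    simp only [Finset.mul_sum]
    exact Finset.sum_congr rfl fun i _ => Finset.sum_congr rfl fun j _ => by ring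
  have l2 : EwG q G S.F (fun w => Ψ (P0 q w) (P1 q w) (P2 q w) *
      fr (S.A q.s1 (P2 q w))) =
      ∑ i, ∑ j, EwG q G S.F (fun w => Ψ (P0 q w) (P1 q w) (P2 q w) * S.A q.s1 (P2 q w) i j *
        S.A q.s1 (P2 q w) i j) := by
    unfold EwG fr
    simp_rw [← integral_finsetSum univ fun j _ => (ej _ j).integrable]
    rw [← integral_finsetSum univ fun i _ => (EG.sum univ fun j _ => ej i j).integrable]
    refine integral_congr_ae (Filter.Eventually.of_forall fun w => ?_)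
    simp only [Finset.mul_sum]
    exact Finset.sum_congr rfl fun i _ => Finset.sum_congr rfl fun j _ => by ring
  rw [l1, l2]
  exact Finset.sum_congr rfl fun i _ => Finset.sum_congr rfl fun j _ =>
    EwG_A S hG (g i j) h1 h2 i j

/-- the same for `Im`, in the letters `lp (k2 q)`, `lp (k3 q)` -/
theorem hm_ip {q : Par} (S : CS n k q.x) {G : GD (Pair n)} (hG : G.Ok)
    {Ψ : (Pair n → ℝ) → (Pair n → ℝ) → (Pair n → ℝ) → ℝ} (hΨ : E3 Ψ) (h1 : q.s1 ≤ q.s2)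
    (h2 : q.s2 ≤ 1) :
    Im (densG q G S.F) (fun w => Ψ (P0 q w) (P1 q w) (P2 q w) *
        ∑ i, ∑ j, S.A q.s1 (lp (k2 q) w) i j * S.A q.s2 (lp (k3 q) w) i j) =
      Im (densG q G S.F) (fun w => Ψ (P0 q w) (P1 q w) (P2 q w) *
        fr (S.A q.s1 (lp (k2 q) w))) := by
  have h := EwG_ip S hG hΨ h1 h2
  simp only [R1C.P2_lp, R1C.P3_lp] at h ⊢
  exact h

/-- **The hypothesis `hm` of `H561.f2_alg`**: `w1`, `N` functions of the first three positions,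
`q1² = |C1|²`, `ip = ⟨C1, C2⟩`. -/
theorem hm_f2 {q : Par} (S : CS n k q.x) {G : GD (Pair n)} (hG : G.Ok)
    {W N : (Pair n → ℝ) → (Pair n → ℝ) → (Pair n → ℝ) → ℝ} (hW : E3 W) (hN : E3 N)
    (h1 : q.s1 ≤ q.s2) (h2 : q.s2 ≤ 1) {w1 Nf q1 ip : (K4 (Pair n) → ℝ) → ℝ}
    (ew : ∀ w, w1 w = W (P0 q w) (P1 q w) (P2 q w))
    (eN : ∀ w, Nf w = N (P0 q w) (P1 q w) (P2 q w))
    (eq1 : ∀ w, q1 w ^ 2 = fr (S.A q.s1 (lp (k2 q) w)))
    (ei : ∀ w, ip w = ∑ i, ∑ j, S.A q.s1 (lp (k2 q) w) i j * S.A q.s2 (lp (k3 q) w) i j) :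
    Im (densG q G S.F) (fun w => w1 w * Nf w * q1 w ^ 2 * ip w) =
      Im (densG q G S.F) (fun w => w1 w * Nf w * q1 w ^ 2 * q1 w ^ 2) := by
  have ef : E3 fun _ _ z2 : Pair n → ℝ => fr (S.A q.s1 z2) :=
    E3.of2 (EG.sum univ fun i _ => EG.sum univ fun j _ => (S.eg_A q.s1 i j).pow 2)
  have h := hm_ip S hG ((hW.mul hN).mul ef) h1 h2
  refine Eq.trans ?_ (h.trans ?_)
  · congr 1
    funext w
    rw [ew, eN, eq1, ei, R1C.P2_lp]
  · congr 1
    funext w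
    rw [ew, eN, eq1, R1C.P2_lp]

end Vale.Agent.P146.H785.F2M
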