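import Vale.Agent.P146.H785.F2Tot
import Vale.Agent.P146.H508.F2SumS

/-!
Plan R2, row F2: the total two-time inequality with a general error of the change of the frozen
weights (`f3_totE`), and with the signed error of the deep matrix (`f3_totY`).
-/

open MeasureTheory ProbabilityTheory Finset Matrix

namespace Vale.Agent.P146.H785.F2N

open Vale.Agent.P157.Lv Vale.Agent.P146.H425 Vale.Agent.P146.H325 Vale.Agent.P146.H332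
  Vale.Agent.P146.H712 Vale.Agent.P146.R1 Vale.Agent.P146.R1C Vale.Agent.P146.H706
  Vale.Agent.P146.R1S Vale.Agent.P146.H191 Vale.Agent.P146.H350 Vale.Agent.P146.H941

set_option linter.unusedSectionVars false

variable {n : ℕ} {k x : ℝ} {S : CS n k x} {s1 s2 β : ℝ} {a1 a2 : Fin 4 → ℝ}
  {φ χ : (K4 (Pair n) → ℝ) → ℝ} {ψ' : K4 (Pair n) → (K4 (Pair n) → ℝ) → ℝ} {xt1 xt2 : ℝ} {B : MF n}

/-- **(F2), total, with a general error of the weights**: `E` bounds the difference between the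
sum of the frozen right sides and the right side with the weight `χ` and the matrices `C1`, `C2`. -/
theorem f3_totE {η E : ℝ} (hv0 : 0 ≤ vr a1) (hv : 0 < vr a2)
    (hv1 : vr a1 ≤ vr a2) (h : Den φ ψ') (hφ : ∀ w, 0 ≤ φ w) (hβ : 0 < β)
    (hk : 0 ≤ k) (hx1 : 0 ≤ xt1) (hr : vr a1 / vr a2 * xt2 = xt1) (hη : 0 < η)
    (hB : ∀ w i j, B w i j = B w j i) (hBe : ∀ i l, EG fun w => B w i l)
    (hdr1 : ∀ e w, dr a1 ψ' e w =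
      k * (xt1 * S.A s2 (H712.lp a2 w) e.1.1 e.1.2 - B w e.1.1 e.1.2))
    (hdr2 : ∀ e w, dr a2 ψ' e w =
      k * (xt2 * S.A s2 (H712.lp a2 w) e.1.1 e.1.2 - B w e.1.1 e.1.2))
    (hχ : EG χ) (hχ0 : ∀ w, 0 ≤ χ w) {χb : Fin n → (K4 (Pair n) → ℝ) → ℝ}
    (hχb : ∀ b, EG (χb b)) (hχb0 : ∀ b w, 0 ≤ χb b w)
    {M1 M2 : Fin n → MF n} (hM1 : ∀ b i l, EG fun w => M1 b w i l)
    (hM2 : ∀ b i l, EG fun w => M2 b w i l)
    (hE : |∑ b, Im φ (H561.n3row S s1 s2 β (vr a1 / vr a2) a1 a2 ψ' b (χb b) (M1 b) (M2 b)) -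
      Im φ (fun w => χ w * ∑ b, H508.m3 S s1 s2 β (vr a1 / vr a2) a1 a2 ψ' b
        (Cf S s1 a1) (Cf S s2 a2) w)| ≤ E) :
    ∑ b, Im φ (nlf S s1 s2 β (vr a1 / vr a2) a1 a2 b (χb b) (M1 b) (M2 b)) +
      (1 - vr a1 / vr a2) * (Im φ (fun w => χ w * q4 S s1 s2 a1 a2 w) -
        2 * Im φ (fun w => χ w * q3' S s1 s2 a1 a2 w)) ≤
      Im φ (fun w => χ w * qd S s1 s2 a1 a2 w) +
      k ^ 2 / β * (xt1 * Im φ (fun w => χ w * K3 (H941.Cm S s1 a1 w) (H941.Cm S s2 a2 w)) +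
        Im φ (fun w => χ w * bs3 (H941.Cm S s1 a1 w) (H941.Cm S s2 a2 w) (od (B w))
          (vr a1 / vr a2)) +
        Im φ (fun w => χ w * eD (H191.fro (H941.Cm S s1 a1 w)) (H191.fro (H941.Cm S s2 a2 w))
          (H191.fro (od (B w))) xt1)) +
      (E +
        η / 2 * ∑ b, Im φ (nsq S s1 s2 β (vr a1 / vr a2) a1 a2 b (χb b) (M1 b) (M2 b)) +
        1 / (2 * η) * ∑ b, Im φ (vsq k β (vr a1 / vr a2) a1 a2 ψ' b (χb b) (M1 b) (M2 b))) := by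
  have hr0 : 0 ≤ vr a1 / vr a2 := div_nonneg hv0 hv.le
  have hr1 : vr a1 / vr a2 ≤ 1 := (div_le_one hv).2 hv1
  have key := (abs_le.1 hE).2
  refine f3_num h hφ hβ hk hx1 hr hr0 hr1 hη hB hBe hdr1 hdr2 hχ hχ0 hχb hχb0 hM1 hM2 ?_
  have e1 : ∀ w, ∑ b, m2k S s1 s2 β (vr a1 / vr a2) a1 a2 ψ' b χ (Cf S s1 a1) (Cf S s2 a2) w =
      χ w * ∑ b, H508.m3 S s1 s2 β (vr a1 / vr a2) a1 a2 ψ' b (Cf S s1 a1) (Cf S s2 a2) w :=
    fun w => by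
      rw [Finset.mul_sum]
      rfl
  rw [Im_congr e1]
  have e2 : ∑ b, Im φ (n2k S s1 s2 β (vr a1 / vr a2) a1 a2 ψ' b (χb b) (M1 b) (M2 b)) =
      ∑ b, Im φ (H561.n3row S s1 s2 β (vr a1 / vr a2) a1 a2 ψ' b (χb b) (M1 b) (M2 b)) := rfl
  rw [e2]
  linarith

/-- **(F2), total, the weights unfrozen with a signed deep part** (508's `f3_sumY`). -/
theorem f3_totY {η : ℝ} (hs1 : 0 < s1) (hs2 : 0 < s2) (hv0 : 0 ≤ vr a1) (hv : 0 < vr a2)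
    (hv1 : vr a1 ≤ vr a2) (hc : cv a1 a2 = vr a1) (h : Den φ ψ') (hφ : ∀ w, 0 ≤ φ w) (hβ : 0 < β)
    (hk : 0 ≤ k) (hx1 : 0 ≤ xt1) (hr : vr a1 / vr a2 * xt2 = xt1) (hη : 0 < η)
    (hB : ∀ w i j, B w i j = B w j i) (hBe : ∀ i l, EG fun w => B w i l)
    (hdr1 : ∀ e w, dr a1 ψ' e w =
      k * (xt1 * S.A s2 (H712.lp a2 w) e.1.1 e.1.2 - B w e.1.1 e.1.2))
    (hdr2 : ∀ e w, dr a2 ψ' e w =
      k * (xt2 * S.A s2 (H712.lp a2 w) e.1.1 e.1.2 - B w e.1.1 e.1.2))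
    (hχ : EG χ) (hχ0 : ∀ w, 0 ≤ χ w) {χb : Fin n → (K4 (Pair n) → ℝ) → ℝ}
    (hχb : ∀ b, EG (χb b)) (hχf : ∀ b, Fr b (χb b)) (hχb0 : ∀ b w, 0 ≤ χb b w)
    {M1 M2 : Fin n → MF n} (hM1 : ∀ b, Frz b (M1 b)) (hM2 : ∀ b, Frz b (M2 b))
    (h1b : ∀ b w i, M1 b w i b = 0) (h2b : ∀ b w i, M2 b w i b = 0)
    {R : Finset (K4 (Pair n))} {D : Fin n → MF n} {hw : (K4 (Pair n) → ℝ) → ℝ}
    {ρ : Fin n → (K4 (Pair n) → ℝ) → ℝ}
    (hD : ∀ b i l, EG fun w => D b w i l) (hi : ∀ b i l, Ind R fun w => D b w i l)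
    (hhw : EG hw) (hρ : ∀ b, EG (ρ b))
    (hdec : ∀ b w, χb b w - χ w =
      (∑ i, ∑ j, D b w i j * ∑ l, Cf S s1 a1 w i l * Cf S s1 a1 w l j) * hw w + ρ b w) :
    ∑ b, Im φ (nlf S s1 s2 β (vr a1 / vr a2) a1 a2 b (χb b) (M1 b) (M2 b)) +
      (1 - vr a1 / vr a2) * (Im φ (fun w => χ w * q4 S s1 s2 a1 a2 w) -
        2 * Im φ (fun w => χ w * q3' S s1 s2 a1 a2 w)) ≤
      Im φ (fun w => χ w * qd S s1 s2 a1 a2 w) +
      k ^ 2 / β * (xt1 * Im φ (fun w => χ w * K3 (H941.Cm S s1 a1 w) (H941.Cm S s2 a2 w)) +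
        Im φ (fun w => χ w * bs3 (H941.Cm S s1 a1 w) (H941.Cm S s2 a2 w) (od (B w))
          (vr a1 / vr a2)) +
        Im φ (fun w => χ w * eD (H191.fro (H941.Cm S s1 a1 w)) (H191.fro (H941.Cm S s2 a2 w))
          (H191.fro (od (B w))) xt1)) +
      ((Im φ (fun w => ∑ b, (|χb b w| * H508.e3 S s1 s2 β a1 a2 ψ' b (Cf S s1 a1) (Cf S s2 a2)
            (M1 b) (M2 b) w +
          |ρ b w| * H508.z3 S s1 s2 β a1 a2 ψ' b (Cf S s1 a1) (Cf S s2 a2) w)) +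
        √(∫ w, ∑ b, ∑ i, ∑ j, D b w i j ^ 2 ∂(gI (K4 (Pair n)))) *
        √(Im φ fun w => ∑ b, (hw w * H508.m3 S s1 s2 β (vr a1 / vr a2) a1 a2 ψ' b
            (Cf S s1 a1) (Cf S s2 a2) w) ^ 2 *
          ∑ i, ∑ j, (∑ l, Cf S s1 a1 w i l * Cf S s1 a1 w l j) *
            Av R (fun w => φ w * ∑ l, Cf S s1 a1 w i l * Cf S s1 a1 w l j) w)) +
        η / 2 * ∑ b, Im φ (nsq S s1 s2 β (vr a1 / vr a2) a1 a2 b (χb b) (M1 b) (M2 b)) +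
        1 / (2 * η) * ∑ b, Im φ (vsq k β (vr a1 / vr a2) a1 a2 ψ' b (χb b) (M1 b) (M2 b))) := by
  have c1 : ∀ i l, EG fun w => Cf S s1 a1 w i l := fun i l => eg_lp a1 (S.eg_A s1 i l)
  have c2 : ∀ i l, EG fun w => Cf S s2 a2 w i l := fun i l => eg_lp a2 (S.eg_A s2 i l)
  exact f3_totE hv0 hv hv1 h hφ hβ hk hx1 hr hη hB hBe hdr1 hdr2 hχ hχ0 hχb hχb0
    (fun b => (hM1 b).eg) (fun b => (hM2 b).eg)
    (H508.f3_sumY (S := S) (β := β) (χ := χ) (χb := χb) hs1 hs2 hv hv1 hc h hφ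
      c1 c2 hM1 hM2 h1b h2b hχ hχb hχf (fun w i l => S.A_comm s1 _ i l) hD hi hhw hρ hdec)

end Vale.Agent.P146.H785.F2N
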