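import Vale.Agent.P146.H785.F2BT
import Vale.Agent.P146.H785.F2TotY

/-!
Plan R2, row F2: **the two-time inequality in the two-layer law**, with the base, diagonal and
drift numbers inserted; what is left are the touch number `E`, the product of the two square
numbers `NN`, `VV` of the drift terms.
-/

set_option linter.all false

open MeasureTheory ProbabilityTheory Finset Matrix

namespace Vale.Agent.P146.H785.F2T

open Vale.Agent.P157.Lv Vale.Agent.P146.H425 Vale.Agent.P146.H325 Vale.Agent.P146.H332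
  Vale.Agent.P146.H712 Vale.Agent.P146.R1 Vale.Agent.P146.R1C Vale.Agent.P146.R1S
  Vale.Agent.P146.H706 Vale.Agent.P146.H522 Vale.Agent.P146.H633
  Vale.Agent.P146.H326.J1 Vale.Agent.P146.H561
open Vale.Agent.P146.H785 (Ax)
open Vale.Agent.P146.H191 (Im Im_add Im_congr Im_const_mul vr vr_k3)
open Vale.Agent.P146.H130 (BT eg_Ca Ca_comm den_densG dr_two2 dr_two3 vr_k2 cv_k23 BT_comm eg_BT)
open Vale.Agent.P146.H785.F2B
open Vale.Agent.P146.H785.F2N (Cf nlf nsq vsq q4 q3' qd bs3 eD K3 f3_totE)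

variable {n : ℕ} {k : ℝ} {q : Par} {S : CS n k q.x} {y h : ℝ}
  {χ W bd : (K4 (Pair n) → ℝ) → ℝ}

/-- **(F2), total, in the two-layer law.** -/
theorem f3_two (hq : q.OkS) (ht : q.t0 < q.t1) (h12 : 0 < q.s1) (hy : 0 < y) (hyx : y ≤ q.x)
    (hh0 : 0 ≤ h) (hh : h ≤ q.t1) (hn : 1 ≤ (n : ℝ)) {β : ℝ} (hβ : 0 < β)
    {Wf : (Pair n → ℝ) → (Pair n → ℝ) → (Pair n → ℝ) → ℝ} (hWf : E3 Wf)
    (hχ : EG χ) (hχ0 : ∀ w, 0 ≤ χ w) {w1 : (K4 (Pair n) → ℝ) → ℝ}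
    (ew : ∀ w, w1 w = Wf (P0 q w) (P1 q w) (P2 q w)) {κ c1 L LB D : ℝ} (hκ : 0 < κ)
    (hχ1 : ∀ w, χ w ≤ 1 / κ * w1 w)
    (hW : EG W) (W0 : ∀ w, 0 ≤ W w) (hc1 : 0 ≤ c1) (hw1 : ∀ w, w1 w ≤ c1 * W w)
    (hbd : EG bd) (b0 : ∀ w, 0 ≤ bd w) (hL : 0 ≤ L) (hLn : L ≤ n) (hLB : 0 ≤ LB) (hD : 0 < D)
    (dd : ∀ w, bd w = 1 ∨ nf (H941.Cm S q.s1 (k2 q) w) ≤ L ∧
      nf (H941.Cm S q.s2 (k3 q) w) ≤ L ∧ nf (BM S y h w) ≤ LB)
    (hdA : Im (densG q (GTwo q y h S.F S.D) S.F)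
      (fun w => W w * dfc (H941.Cm S q.s1 (k2 q) w)) ≤
      D ^ 2 * Im (densG q (GTwo q y h S.F S.D) S.F) W)
    (hdC : Im (densG q (GTwo q y h S.F S.D) S.F)
      (fun w => W w * dfc (H941.Cm S q.s2 (k3 q) w)) ≤
      D ^ 2 * Im (densG q (GTwo q y h S.F S.D) S.F) W)
    {χb : Fin n → (K4 (Pair n) → ℝ) → ℝ} (hχb : ∀ b, EG (χb b)) (hχb0 : ∀ b w, 0 ≤ χb b w)
    {N1 N2 : Fin n → (K4 (Pair n) → ℝ) → Fin n → Fin n → ℝ}
    (hM1 : ∀ b i l, EG fun w => N1 b w i l) (hM2 : ∀ b i l, EG fun w => N2 b w i l)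
    {E NN VV : ℝ} (hNN : 0 < NN) (hVV : 0 < VV)
    (hE : |∑ b, Im (densG q (GTwo q y h S.F S.D) S.F) (H561.n3row S q.s1 q.s2 β (q.s1 / q.s2)
        (k2 q) (k3 q) (psiG' q (GTwo q y h S.F S.D) S.F S.D) b (χb b) (N1 b) (N2 b)) -
      Im (densG q (GTwo q y h S.F S.D) S.F) (fun w => χ w * ∑ b, H508.m3 S q.s1 q.s2 β
        (q.s1 / q.s2) (k2 q) (k3 q) (psiG' q (GTwo q y h S.F S.D) S.F S.D) b
        (Cf S q.s1 (k2 q)) (Cf S q.s2 (k3 q)) w)| ≤ E)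
    (hN : ∑ b, Im (densG q (GTwo q y h S.F S.D) S.F) (nsq S q.s1 q.s2 β (q.s1 / q.s2)
        (k2 q) (k3 q) b (χb b) (N1 b) (N2 b)) ≤ NN)
    (hV : ∑ b, Im (densG q (GTwo q y h S.F S.D) S.F) (vsq k β (q.s1 / q.s2)
        (k2 q) (k3 q) (psiG' q (GTwo q y h S.F S.D) S.F S.D) b (χb b) (N1 b) (N2 b)) ≤ VV) :
    ∑ b, Im (densG q (GTwo q y h S.F S.D) S.F) (nlf S q.s1 q.s2 β (q.s1 / q.s2)
        (k2 q) (k3 q) b (χb b) (N1 b) (N2 b)) +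
      (1 - q.s1 / q.s2) * (Im (densG q (GTwo q y h S.F S.D) S.F)
          (fun w => χ w * q4 S q.s1 q.s2 (k2 q) (k3 q) w) -
        2 * Im (densG q (GTwo q y h S.F S.D) S.F)
          (fun w => χ w * q3' S q.s1 q.s2 (k2 q) (k3 q) w)) ≤
      k ^ 2 / β * (q.x * q.s1) * Im (densG q (GTwo q y h S.F S.D) S.F)
        (fun w => χ w * K3 (H941.Cm S q.s1 (k2 q) w) (H941.Cm S q.s2 (k3 q) w)) +
      1 / κ * c1 * ((4 * L ^ 2 + k ^ 2 / β * (6 * (LB * L ^ 2) * D +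
          cB q y h * (1 - q.s1 / q.s2) * L ^ 4 +
          q.x * q.s1 * (2 * L ^ 4 + 2 * L ^ 3) + 4 * (LB * L ^ 3))) *
            Im (densG q (GTwo q y h S.F S.D) S.F) W +
        (4 * (n : ℝ) ^ 2 + k ^ 2 / β * (7 * (n : ℝ) ^ 5 +
          cB q y h * (1 - q.s1 / q.s2) * (n : ℝ) ^ 4 + 8 * (n : ℝ) ^ 4)) *
            Im (densG q (GTwo q y h S.F S.D) S.F) (fun w => W w * bd w)) +
      (E + √(NN * VV)) := by
  set G := GTwo q y h S.F S.D with hG'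
  have hG : G.Ok := GTwo_ok S.c11 S.x0 hy h
  have hs2 : 0 < q.s2 := h12.trans_le hq.h12
  have v1 := vr_k2 hq
  have v2 := vr_k3 hq
  have hr0 : 0 ≤ q.s1 / q.s2 := div_nonneg h12.le hs2.le
  have hr1 : q.s1 / q.s2 ≤ 1 := (div_le_one hs2).2 hq.h12
  have hden := den_densG (q := q) (G := G) S.c11 S.x0 hG
  have hφ : ∀ w, 0 ≤ densG q G S.F w := fun w => (Real.exp_pos _).le
  have hη : 0 < √(VV / NN) := Real.sqrt_pos.2 (div_pos hVV hNN)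
  have ht1 : 0 ≤ q.t1 := hq.h0.trans hq.h01
  have hs1 : q.s1 ≤ 1 := hq.h12.trans hq.h2
  have hx1 : 0 ≤ q.x * q.s1 := mul_nonneg S.x0.le h12.le
  have hx1' : q.x * q.s1 ≤ 1 := by
    have := mul_le_mul hq.x1 hs1 h12.le zero_le_one
    linarith
  have key := f3_totE (S := S) (s1 := q.s1) (s2 := q.s2) (β := β) (a1 := k2 q) (a2 := k3 q)
    (φ := densG q G S.F) (χ := χ) (ψ' := psiG' q G S.F S.D) (xt1 := q.x * q.s1)
    (xt2 := q.x * q.s2) (B := fun w => BM S y h w) (η := √(VV / NN)) (E := E)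
    (by rw [v1]; exact h12.le) (by rw [v2]; exact hs2) (by rw [v1, v2]; exact hq.h12) hden hφ hβ
    S.k0.le hx1 (by rw [v1, v2]; field_simp) hη
    (fun w i j => BT_comm w i j) (fun i l => eg_BT hy i l)
    (fun e w => dr_two2 hq ht e w) (fun e w => dr_two3 hq ht e w) hχ hχ0 hχb hχb0 hM1 hM2
    (by rw [v1, v2]; exact hE)
  rw [v1, v2] at key
  have hBfn : ∀ z0 z1 z2, nf (Bf S y h z0 z1 z2) ≤ n := fun z0 z1 z2 => by
    refine (nf_Bf hy hyx ht1 hh z0 z1 z2).trans ?_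
    have h5 : cB q y h ≤ 1 :=
      (cB_le hy hyx ((hq.h1).trans hs1) hh0).trans hq.x1
    have := mul_le_mul_of_nonneg_left h5 (Nat.cast_nonneg (α := ℝ) n)
    linarith
  have hBft : ∀ z0 z1 z2, (Bf S y h z0 z1 z2).trace ≤ n := fun z0 z1 z2 => by
    rw [tr_Bf hy]
    have h5 : cB q y h ≤ 1 :=
      (cB_le hy hyx ((hq.h1).trans hs1) hh0).trans hq.x1
    have := mul_le_mul_of_nonneg_left h5 (Nat.cast_nonneg (α := ℝ) n)
    linarith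
  have err := F2E.err_A (W := W) (χ := χ) (bd := bd) (B := BM S y h) (β := β)
    (xt1 := q.x * q.s1) (r := q.s1 / q.s2) (cB := cB q y h) S hG hq.h12 hq.h2 hWf
    (Bf := Bf S y h) (fun i j => e3_Bf hy i j) (fun w => BM_eq w)
    (fun w => Bf_psd hy hyx ht1 hh _ _ (P2 q w)) hχ hχ0 ew hκ hχ1 hr0 hr1 hW W0 hc1 hw1
    (fun w i => Bf_diag hy _ _ (P2 q w) i) (cB_nonneg hy hyx ht1 hh) hβ hn hx1 hx1' hbd b0 hL hLn
    hLB hD dd (fun w => hBfn _ _ (P2 q w)) (fun w => hBft _ _ (P2 q w)) hdA hdC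
  have hsq : √(VV / NN) / 2 * NN + 1 / (2 * √(VV / NN)) * VV = √(NN * VV) := by
    obtain ⟨a, ha⟩ : ∃ a, a = √NN := ⟨_, rfl⟩
    obtain ⟨b, hb⟩ : ∃ b, b = √VV := ⟨_, rfl⟩
    have a0 : 0 < a := by rw [ha]; exact Real.sqrt_pos.2 hNN
    have b0' : 0 < b := by rw [hb]; exact Real.sqrt_pos.2 hVV
    have a2 : NN = a ^ 2 := by rw [ha, Real.sq_sqrt hNN.le]
    have b2 : VV = b ^ 2 := by rw [hb, Real.sq_sqrt hVV.le]
    have e1 : √(VV / NN) = b / a := by rw [Real.sqrt_div hVV.le, ← ha, ← hb]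
    have e2 : √(NN * VV) = a * b := by rw [Real.sqrt_mul hNN.le, ← ha, ← hb]
    rw [e1, e2, a2, b2]
    field_simp
    ring
  have u1 := mul_le_mul_of_nonneg_left hN (show 0 ≤ √(VV / NN) / 2 by positivity)
  have u2 := mul_le_mul_of_nonneg_left hV (show 0 ≤ 1 / (2 * √(VV / NN)) by positivity)
  have e5 : k ^ 2 / β * (q.x * q.s1 * Im (densG q G S.F)
        (fun w => χ w * K3 (H941.Cm S q.s1 (k2 q) w) (H941.Cm S q.s2 (k3 q) w)) +
      Im (densG q G S.F) (fun w => χ w * bs3 (H941.Cm S q.s1 (k2 q) w)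
        (H941.Cm S q.s2 (k3 q) w) (H941.od (BM S y h w)) (q.s1 / q.s2)) +
      Im (densG q G S.F) (fun w => χ w * eD (H191.fro (H941.Cm S q.s1 (k2 q) w))
        (H191.fro (H941.Cm S q.s2 (k3 q) w)) (H191.fro (H941.od (BM S y h w))) (q.x * q.s1))) =
    k ^ 2 / β * (q.x * q.s1) * Im (densG q G S.F)
        (fun w => χ w * K3 (H941.Cm S q.s1 (k2 q) w) (H941.Cm S q.s2 (k3 q) w)) +
      k ^ 2 / β * (Im (densG q G S.F) (fun w => χ w * bs3 (H941.Cm S q.s1 (k2 q) w)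
        (H941.Cm S q.s2 (k3 q) w) (H941.od (BM S y h w)) (q.s1 / q.s2)) +
      Im (densG q G S.F) (fun w => χ w * eD (H191.fro (H941.Cm S q.s1 (k2 q) w))
        (H191.fro (H941.Cm S q.s2 (k3 q) w)) (H191.fro (H941.od (BM S y h w)))
          (q.x * q.s1))) := by ring
  rw [e5] at key
  linarith

end Vale.Agent.P146.H785.F2T
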