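import Vale.Agent.P146.H785.F2Two

/-!
Plan R2, row F2: the number `VV` of `f3_two` (the squares of the drifts of the rows with frozen
weights), from sizes, the mass of the frozen weights and the touch numbers.
-/

set_option linter.all false

open MeasureTheory ProbabilityTheory Finset Matrix

namespace Vale.Agent.P146.H785.F2T

open Vale.Agent.P157.Lv Vale.Agent.P146.H425 Vale.Agent.P146.H325 Vale.Agent.P146.H332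
  Vale.Agent.P146.H712 Vale.Agent.P146.R1 Vale.Agent.P146.R1C Vale.Agent.P146.R1S
  Vale.Agent.P146.H706 Vale.Agent.P146.H522 Vale.Agent.P146.H633
  Vale.Agent.P146.H326.J1 Vale.Agent.P146.H561
open Vale.Agent.P146.H785 (Ax)
open Vale.Agent.P146.H191 (Im Im_add Im_congr Im_const_mul vr vr_k3 ven dv Uv)
open Vale.Agent.P146.H130 (BT den_densG dr_two2 dr_two3 BT_comm eg_BT)
open Vale.Agent.P146.H785.F2B
open Vale.Agent.P146.H785.F2N (Cf vsq vsq_le dv_sq_le eg_vsq)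

section det

variable {m : Type} [Fintype m] [DecidableEq m]

/-- a column of a positive semidefinite matrix -/
lemma col_sq_le {A : Matrix m m ℝ} (hA : A.PosSemidef) (b : m) :
    ∑ i, A i b ^ 2 ≤ nf A * A b b := by
  have h1 := tr_sq_le (vv_psd (Pi.single b (1 : ℝ))) hA
  have e1 : ∀ M : Matrix m m ℝ, (vecMulVec (Pi.single b (1 : ℝ)) (Pi.single b (1 : ℝ)) * M).trace =
      M b b := fun M => by
    rw [Matrix.trace_mul_comm, tr_vv]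
    simp [Matrix.mulVec_single, Matrix.col]
  rw [e1, e1] at h1
  have e2 : (A * A) b b = ∑ i, A i b ^ 2 := by
    rw [Matrix.mul_apply]
    refine Finset.sum_congr rfl fun i _ => ?_
    have h2 : A b i = A i b := by
      conv_lhs => rw [← sym_of hA]
      rfl
    rw [h2, pow_two]
  rwa [e2] at h1

/-- fourth powers: `|M|⁴ ≤ 8 |C|⁴ + 32 n² |M - C|²` -/
lemma pow4_le {a c d N : ℝ} (ha : 0 ≤ a) (hc : 0 ≤ c) (hd : 0 ≤ d) (h1 : a ≤ c + d)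
    (h2 : d ≤ 2 * N) : a ^ 4 ≤ 8 * c ^ 4 + 32 * N ^ 2 * d ^ 2 := by
  have h3 : a ^ 4 ≤ (c + d) ^ 4 := pow_le_pow_left₀ ha h1 4
  have h4 : (c + d) ^ 4 ≤ 8 * c ^ 4 + 8 * d ^ 4 := by
    nlinarith [sq_nonneg (c - d), sq_nonneg (c + d), sq_nonneg (c ^ 2 - d ^ 2),
      mul_nonneg hc hd, sq_nonneg (c * d)]
  have h5 : d ^ 4 ≤ 4 * N ^ 2 * d ^ 2 := by
    have h6 : d ^ 2 ≤ (2 * N) ^ 2 := pow_le_pow_left₀ hd h2 2
    nlinarith [sq_nonneg d]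
  linarith

/-- pure real: the two drift squares -/
lemma vv_alg {m1 m2 D1 D2 Q : ℝ} (hQ : 0 ≤ Q) (d1 : D1 ≤ Q) (d2 : D2 ≤ Q) :
    m1 ^ 2 * m2 ^ 2 * (D1 + D2) + 2 * (m2 ^ 4 * D2) ≤ Q * (m1 ^ 4 + 3 * m2 ^ 4) := by
  have a1 : m1 ^ 2 * m2 ^ 2 * (D1 + D2) ≤ m1 ^ 2 * m2 ^ 2 * (2 * Q) :=
    mul_le_mul_of_nonneg_left (by linarith) (by positivity)
  have a2 : m2 ^ 4 * D2 ≤ m2 ^ 4 * Q := mul_le_mul_of_nonneg_left d2 (by positivity)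
  have a3 : 2 * (m1 ^ 2 * m2 ^ 2) ≤ m1 ^ 4 + m2 ^ 4 := by
    have := sq_nonneg (m1 ^ 2 - m2 ^ 2)
    have e : (m1 ^ 2 - m2 ^ 2) ^ 2 = m1 ^ 4 + m2 ^ 4 - 2 * (m1 ^ 2 * m2 ^ 2) := by ring
    linarith
  have a4 := mul_le_mul_of_nonneg_right a3 hQ
  have e1 : m1 ^ 2 * m2 ^ 2 * (2 * Q) = 2 * (m1 ^ 2 * m2 ^ 2) * Q := by ring
  have e2 : Q * (m1 ^ 4 + 3 * m2 ^ 4) = (m1 ^ 4 + m2 ^ 4) * Q + 2 * (m2 ^ 4 * Q) := by ring
  linarith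

/-- pure real: the rows of the drift, bad set -/
lemma qd_bad {k N x2 c a b : ℝ} (hx : x2 ≤ 1) (hc : c ≤ 1) (ha0 : 0 ≤ a) (hb0 : 0 ≤ b)
    (ha : a ≤ N) (hb : b ≤ N) : 2 * k ^ 2 * (x2 * a + c * b) ≤ 4 * k ^ 2 * N := by
  have c1 : x2 * a ≤ N := (mul_le_mul_of_nonneg_right hx ha0).trans (by linarith)
  have c2 : c * b ≤ N := (mul_le_mul_of_nonneg_right hc hb0).trans (by linarith)
  have c3 : 2 * k ^ 2 * (x2 * a + c * b) ≤ 2 * k ^ 2 * (2 * N) :=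
    mul_le_mul_of_nonneg_left (by linarith) (by positivity)
  linarith

/-- pure real: bad set -/
lemma vv_bad {k N Q Q0 m1 m2 L T : ℝ} (hQ0 : 0 ≤ Q0) (hL : 0 ≤ L) (hT : 0 ≤ T)
    (hN : 0 ≤ N) (m10 : 0 ≤ m1) (m20 : 0 ≤ m2) (p1 : m1 ≤ N) (p2 : m2 ≤ N)
    (a1 : Q ≤ 4 * k ^ 2 * N) :
    Q * (m1 ^ 4 + 3 * m2 ^ 4) ≤ Q0 * (32 * L ^ 4 + 32 * N ^ 2 * T) + 16 * k ^ 2 * N ^ 5 := by
  have a2 : m1 ^ 4 + 3 * m2 ^ 4 ≤ 4 * N ^ 4 := by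
    have b1 := pow_le_pow_left₀ m10 p1 4
    have b2 := pow_le_pow_left₀ m20 p2 4
    linarith
  have a3 := mul_le_mul a1 a2 (by positivity) (by positivity)
  have a4 : 0 ≤ Q0 * (32 * L ^ 4 + 32 * N ^ 2 * T) := by positivity
  have e : 4 * k ^ 2 * N * (4 * N ^ 4) = 16 * k ^ 2 * N ^ 5 := by ring
  linarith

/-- pure real: good set -/
lemma vv_good {Q Q0 m1 m2 c1 c2 d1 d2 N L E : ℝ} (hQ0 : 0 ≤ Q0) (hE : 0 ≤ E)
    (m10 : 0 ≤ m1) (m20 : 0 ≤ m2) (c10 : 0 ≤ c1) (c20 : 0 ≤ c2) (d10 : 0 ≤ d1) (d20 : 0 ≤ d2)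
    (t1 : m1 ≤ c1 + d1) (t2 : m2 ≤ c2 + d2) (e1 : d1 ≤ 2 * N) (e2 : d2 ≤ 2 * N)
    (l1 : c1 ≤ L) (l2 : c2 ≤ L) (a1 : Q ≤ Q0) :
    Q * (m1 ^ 4 + 3 * m2 ^ 4) ≤ Q0 * (32 * L ^ 4 + 32 * N ^ 2 * (d1 ^ 2 + 3 * d2 ^ 2)) + E := by
  have b1 := pow4_le m10 c10 d10 t1 e1
  have b3 := pow4_le m20 c20 d20 t2 e2
  have b5 := pow_le_pow_left₀ c10 l1 4
  have b6 := pow_le_pow_left₀ c20 l2 4
  have a2 : m1 ^ 4 + 3 * m2 ^ 4 ≤ 32 * L ^ 4 + 32 * N ^ 2 * (d1 ^ 2 + 3 * d2 ^ 2) := by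
    have e : 32 * N ^ 2 * (d1 ^ 2 + 3 * d2 ^ 2) = 32 * N ^ 2 * d1 ^ 2 + 3 * (32 * N ^ 2 * d2 ^ 2) := by
      ring
    linarith
  have a3 := mul_le_mul a1 a2 (by positivity) hQ0
  linarith

end det

section num

variable {n : ℕ} {k : ℝ} {q : Par} {S : CS n k q.x} {y h : ℝ}
  {W bd : (K4 (Pair n) → ℝ) → ℝ}

/-- the size of the rows of the drift -/
noncomputable def Qd (S : CS n k q.x) (y h : ℝ) (w : K4 (Pair n) → ℝ) : ℝ :=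
  2 * k ^ 2 * (q.x ^ 2 * nf (H941.Cm S q.s2 (k3 q) w) + cB q y h * nf (BM S y h w))

lemma Qd_nonneg (hy : 0 < y) (hyx : y ≤ q.x) (ht : 0 ≤ q.t1) (hh : h ≤ q.t1)
    (w : K4 (Pair n) → ℝ) : 0 ≤ Qd S y h w := by
  have h1 := nf_nonneg (H941.Cm S q.s2 (k3 q) w)
  have h2 := nf_nonneg (BM S y h w)
  have h3 := cB_nonneg hy hyx ht hh
  unfold Qd
  positivity

lemma dv_le (hq : q.OkS) (ht : q.t0 < q.t1) (h12 : 0 < q.s1) (hy : 0 < y) (hyx : y ≤ q.x)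
    (hh : h ≤ q.t1) (b : Fin n) (w : K4 (Pair n) → ℝ) :
    ven (dv (k2 q) (psiG' q (GTwo q y h S.F S.D) S.F S.D) b w) ^ 2 ≤ Qd S y h w ∧
      ven (dv (k3 q) (psiG' q (GTwo q y h S.F S.D) S.F S.D) b w) ^ 2 ≤ Qd S y h w := by
  have ht1 : 0 ≤ q.t1 := hq.h0.trans hq.h01
  have hs1 : q.s1 ≤ 1 := hq.h12.trans hq.h2
  have hs2 : 0 < q.s2 := h12.trans_le hq.h12
  have hU : ven (Uv S q.s2 (k3 q) b w) ^ 2 ≤ nf (H941.Cm S q.s2 (k3 q) w) := by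
    have h1 := col_sq_le (psm_A S q.s2 (lp (k3 q) w)) b
    rw [S.A_self, mul_one] at h1
    refine le_trans ?_ h1
    rw [H191.ven_sq]
    refine Finset.sum_le_sum fun i _ => ?_
    show (H191.Uz S q.s2 b i (lp (k3 q) w)) ^ 2 ≤ S.A q.s2 (lp (k3 q) w) i b ^ 2
    unfold H191.Uz
    by_cases hi : i = b
    · simp only [hi, if_true]
      have := sq_nonneg (S.A q.s2 (lp (k3 q) w) b b)
      simpa using this
    · simp only [hi, if_false]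
      exact le_refl _
  have hBc : ∑ i, H941.od (BM S y h w) i b ^ 2 ≤ cB q y h * nf (BM S y h w) := by
    have h1 := col_sq_le (Bf_psd (S := S) hy hyx ht1 hh (P0 q w) (P1 q w) (P2 q w)) b
    rw [Bf_diag hy, mul_comm] at h1
    refine le_trans ?_ h1
    refine Finset.sum_le_sum fun i _ => ?_
    unfold H941.od
    by_cases hi : i = b
    · simp only [hi, if_true]
      have := sq_nonneg (Bf S y h (P0 q w) (P1 q w) (P2 q w) b b)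
      simpa using this
    · simp only [hi, if_false]
      exact le_refl _
  have key : ∀ (a : Fin 4 → ℝ) (xt : ℝ), 0 ≤ xt → xt ≤ q.x →
      (∀ e w, H191.dr a (psiG' q (GTwo q y h S.F S.D) S.F S.D) e w =
        k * (xt * S.A q.s2 (H712.lp (k3 q) w) e.1.1 e.1.2 - BM S y h w e.1.1 e.1.2)) →
      ven (dv a (psiG' q (GTwo q y h S.F S.D) S.F S.D) b w) ^ 2 ≤ Qd S y h w := by
    intro a xt hx0 hx1 hdr
    have h1 := dv_sq_le (S := S) (s2 := q.s2) (a2 := k3 q) (a := a) (xt := xt)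
      (ψ' := psiG' q (GTwo q y h S.F S.D) S.F S.D) (B := fun w => BM S y h w)
      (fun w i j => BT_comm w i j) hdr b w
    refine h1.trans ?_
    unfold Qd
    refine mul_le_mul_of_nonneg_left ?_ (by positivity)
    have h2 : xt ^ 2 ≤ q.x ^ 2 := pow_le_pow_left₀ hx0 hx1 2
    have h3 := mul_le_mul h2 hU (sq_nonneg _) (sq_nonneg _)
    exact add_le_add h3 hBc
  have hx0 := S.x0
  refine ⟨key (k2 q) (q.x * q.s1) (mul_nonneg hx0.le h12.le) ?_ fun e w => dr_two2 hq ht e w,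
    key (k3 q) (q.x * q.s2) (mul_nonneg hx0.le hs2.le) ?_ fun e w => dr_two3 hq ht e w⟩
  · nlinarith
  · nlinarith [hq.h2]

/-- the size step, pointwise -/
lemma vv_pt (hq : q.OkS) (h12 : 0 < q.s1) (hy : 0 < y) (hyx : y ≤ q.x)
    (hh0 : 0 ≤ h) (hh : h ≤ q.t1) {L LB : ℝ} (hL : 0 ≤ L) (hLB : 0 ≤ LB)
    (w : K4 (Pair n) → ℝ) {m1 m2 δ1 δ2 : ℝ} (m10 : 0 ≤ m1) (m20 : 0 ≤ m2)
    (p1 : m1 ≤ n) (p2 : m2 ≤ n) (z1 : 0 ≤ δ1) (z2 : 0 ≤ δ2)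
    (e1 : δ1 ≤ 2 * n) (e2 : δ2 ≤ 2 * n)
    (t1 : m1 ≤ nf (H941.Cm S q.s1 (k2 q) w) + δ1)
    (t2 : m2 ≤ nf (H941.Cm S q.s2 (k3 q) w) + δ2)
    (b0 : 0 ≤ bd w)
    (dd : bd w = 1 ∨ nf (H941.Cm S q.s1 (k2 q) w) ≤ L ∧
      nf (H941.Cm S q.s2 (k3 q) w) ≤ L ∧ nf (BM S y h w) ≤ LB) :
    Qd S y h w * (m1 ^ 4 + 3 * m2 ^ 4) ≤
      (2 * k ^ 2 * (q.x ^ 2 * L + cB q y h * LB)) *
        (32 * L ^ 4 + 32 * (n : ℝ) ^ 2 * (δ1 ^ 2 + 3 * δ2 ^ 2)) +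
        16 * k ^ 2 * (n : ℝ) ^ 5 * bd w := by
  have ht1 : 0 ≤ q.t1 := hq.h0.trans hq.h01
  have hs1 : q.s1 ≤ 1 := hq.h12.trans hq.h2
  have hcB0 := cB_nonneg (q := q) hy hyx ht1 hh
  have hcBx : cB q y h ≤ 1 := (cB_le hy hyx (hq.h1.trans hs1) hh0).trans hq.x1
  have nn : (0 : ℝ) ≤ n := Nat.cast_nonneg n
  have hx2 : q.x ^ 2 ≤ 1 := pow_le_one₀ S.x0.le hq.x1
  have Q00 : 0 ≤ 2 * k ^ 2 * (q.x ^ 2 * L + cB q y h * LB) :=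
    mul_nonneg (by positivity) (add_nonneg (mul_nonneg (sq_nonneg _) hL) (mul_nonneg hcB0 hLB))
  have nC : nf (H941.Cm S q.s2 (k3 q) w) ≤ n := by
    have h5 := S.fr_A_le q.s2 (lp (k3 q) w)
    calc nf (H941.Cm S q.s2 (k3 q) w) ≤ √((n : ℝ) ^ 2) := Real.sqrt_le_sqrt h5
      _ = n := Real.sqrt_sq nn
  have nBM : nf (BM S y h w) ≤ n := by
    refine (nf_Bf hy hyx ht1 hh (P0 q w) (P1 q w) (P2 q w)).trans ?_
    have := mul_le_mul_of_nonneg_left hcBx nn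
    linarith
  rcases dd with hb | ⟨l1, l2, l3⟩
  · rw [hb, mul_one]
    have a1 : Qd S y h w ≤ 4 * k ^ 2 * n := by
      unfold Qd
      exact qd_bad hx2 hcBx (nf_nonneg _) (nf_nonneg _) nC nBM
    exact vv_bad Q00 hL (by positivity) nn m10 m20 p1 p2 a1
  · have a1 : Qd S y h w ≤ 2 * k ^ 2 * (q.x ^ 2 * L + cB q y h * LB) := by
      unfold Qd
      refine mul_le_mul_of_nonneg_left ?_ (by positivity)
      exact add_le_add (mul_le_mul_of_nonneg_left l2 (sq_nonneg _))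
        (mul_le_mul_of_nonneg_left l3 hcB0)
    exact vv_good Q00 (mul_nonneg (by positivity) b0) m10 m20 (nf_nonneg _) (nf_nonneg _)
      z1 z2 t1 t2 e1 e2 l1 l2 a1

/-- pointwise bound of `vsq` -/
lemma vsq_pt (hq : q.OkS) (ht : q.t0 < q.t1) (h12 : 0 < q.s1) (hy : 0 < y) (hyx : y ≤ q.x)
    (hh0 : 0 ≤ h) (hh : h ≤ q.t1) {β c2 L LB : ℝ} (hL : 0 ≤ L) (hLB : 0 ≤ LB)
    {χ Wb : (K4 (Pair n) → ℝ) → ℝ} {N1 N2 : (K4 (Pair n) → ℝ) → Fin n → Fin n → ℝ}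
    {δ1 δ2 : ℝ} (b : Fin n) (w : K4 (Pair n) → ℝ)
    (hχ0 : 0 ≤ χ w) (hle : χ w ≤ c2 * Wb w)
    (n1 : H191.fro (N1 w) ≤ n) (n2 : H191.fro (N2 w) ≤ n) (z1 : 0 ≤ δ1) (z2 : 0 ≤ δ2)
    (e1 : δ1 ≤ 2 * n) (e2 : δ2 ≤ 2 * n)
    (t1 : H191.fro (N1 w) ≤ nf (H941.Cm S q.s1 (k2 q) w) + δ1)
    (t2 : H191.fro (N2 w) ≤ nf (H941.Cm S q.s2 (k3 q) w) + δ2)
    (b0 : 0 ≤ bd w)
    (dd : bd w = 1 ∨ nf (H941.Cm S q.s1 (k2 q) w) ≤ L ∧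
      nf (H941.Cm S q.s2 (k3 q) w) ≤ L ∧ nf (BM S y h w) ≤ LB) :
    vsq k β (q.s1 / q.s2) (k2 q) (k3 q) (psiG' q (GTwo q y h S.F S.D) S.F S.D) b χ N1 N2 w ≤
      c2 * ((k / β) ^ 2 * (2 * k ^ 2 * (q.x ^ 2 * L + cB q y h * LB)) * (32 * L ^ 4 * Wb w +
        32 * (n : ℝ) ^ 2 * (Wb w * (δ1 ^ 2 + 3 * δ2 ^ 2))) +
        (k / β) ^ 2 * (16 * k ^ 2 * (n : ℝ) ^ 5) * (Wb w * bd w)) := by
  have ht1 : 0 ≤ q.t1 := hq.h0.trans hq.h01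
  have hs2 : 0 < q.s2 := h12.trans_le hq.h12
  have hcB0 := cB_nonneg (q := q) hy hyx ht1 hh
  have hr0 : 0 ≤ q.s1 / q.s2 := div_nonneg h12.le hs2.le
  have hr1 : q.s1 / q.s2 ≤ 1 := (div_le_one hs2).2 hq.h12
  have v := vsq_le (k := k) (β := β) (a1 := k2 q) (a2 := k3 q)
    (ψ' := psiG' q (GTwo q y h S.F S.D) S.F S.D)
    (χ := χ) hr0 hr1 b N1 N2 w hχ0
  obtain ⟨d1, d2⟩ := dv_le (S := S) hq ht h12 hy hyx hh b w
  have m10 : 0 ≤ H191.fro (N1 w) := Real.sqrt_nonneg _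
  have m20 : 0 ≤ H191.fro (N2 w) := Real.sqrt_nonneg _
  have s1 := vv_alg (m1 := H191.fro (N1 w)) (m2 := H191.fro (N2 w))
    (Qd_nonneg (S := S) hy hyx ht1 hh w) d1 d2
  have s2 := vv_pt (S := S) (bd := bd) hq h12 hy hyx hh0 hh hL hLB w m10 m20 n1 n2 z1 z2 e1 e2
    t1 t2 b0 dd
  have s3 := mul_le_mul_of_nonneg_left (s1.trans s2) (sq_nonneg (k / β))
  have s3' : 0 ≤ (k / β) ^ 2 * ((2 * k ^ 2 * (q.x ^ 2 * L + cB q y h * LB)) *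
      (32 * L ^ 4 + 32 * (n : ℝ) ^ 2 * (δ1 ^ 2 + 3 * δ2 ^ 2)) +
      16 * k ^ 2 * (n : ℝ) ^ 5 * bd w) := by
    refine mul_nonneg (sq_nonneg _) (add_nonneg (mul_nonneg (mul_nonneg (by positivity)
      (add_nonneg (mul_nonneg (sq_nonneg _) hL) (mul_nonneg hcB0 hLB))) (by positivity))
      (mul_nonneg (by positivity) b0))
  have s4 := (mul_le_mul_of_nonneg_left s3 hχ0).trans (mul_le_mul_of_nonneg_right hle s3')
  refine v.trans (s4.trans (le_of_eq ?_))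
  ring

/-- **The number `VV`.** `W_b` the frozen weights, `SW` their mass, `ST` the touch numbers. -/
theorem vsq_num (hq : q.OkS) (ht : q.t0 < q.t1) (h12 : 0 < q.s1) (hy : 0 < y) (hyx : y ≤ q.x)
    (hh0 : 0 ≤ h) (hh : h ≤ q.t1) {β c2 L LB SW ST R : ℝ} (hc2 : 0 ≤ c2) (hL : 0 ≤ L)
    (hLB : 0 ≤ LB)
    {χb Wb : Fin n → (K4 (Pair n) → ℝ) → ℝ} (hχb : ∀ b, EG (χb b)) (hχb0 : ∀ b w, 0 ≤ χb b w)
    (hWb : ∀ b, EG (Wb b)) (hle : ∀ b w, χb b w ≤ c2 * Wb b w)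
    {N1 N2 : Fin n → (K4 (Pair n) → ℝ) → Fin n → Fin n → ℝ}
    (hM1 : ∀ b i l, EG fun w => N1 b w i l) (hM2 : ∀ b i l, EG fun w => N2 b w i l)
    (n1 : ∀ b w, H191.fro (N1 b w) ≤ n) (n2 : ∀ b w, H191.fro (N2 b w) ≤ n)
    {δ1 δ2 : Fin n → (K4 (Pair n) → ℝ) → ℝ} (g1 : ∀ b, EG (δ1 b)) (g2 : ∀ b, EG (δ2 b))
    (z1 : ∀ b w, 0 ≤ δ1 b w) (z2 : ∀ b w, 0 ≤ δ2 b w)
    (e1 : ∀ b w, δ1 b w ≤ 2 * n) (e2 : ∀ b w, δ2 b w ≤ 2 * n)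
    (t1 : ∀ b w, H191.fro (N1 b w) ≤ nf (H941.Cm S q.s1 (k2 q) w) + δ1 b w)
    (t2 : ∀ b w, H191.fro (N2 b w) ≤ nf (H941.Cm S q.s2 (k3 q) w) + δ2 b w)
    (hbd : EG bd) (b0 : ∀ w, 0 ≤ bd w)
    (dd : ∀ w, bd w = 1 ∨ nf (H941.Cm S q.s1 (k2 q) w) ≤ L ∧
      nf (H941.Cm S q.s2 (k3 q) w) ≤ L ∧ nf (BM S y h w) ≤ LB)
    (hSW : ∑ b, Im (densG q (GTwo q y h S.F S.D) S.F) (Wb b) ≤ SW)
    (hST : ∑ b, Im (densG q (GTwo q y h S.F S.D) S.F)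
      (fun w => Wb b w * (δ1 b w ^ 2 + 3 * δ2 b w ^ 2)) ≤ ST)
    (hR : ∑ b, Im (densG q (GTwo q y h S.F S.D) S.F) (fun w => Wb b w * bd w) ≤ R) :
    ∑ b, Im (densG q (GTwo q y h S.F S.D) S.F) (vsq k β (q.s1 / q.s2)
        (k2 q) (k3 q) (psiG' q (GTwo q y h S.F S.D) S.F S.D) b (χb b) (N1 b) (N2 b)) ≤
      c2 * ((k / β) ^ 2 * (2 * k ^ 2 * (q.x ^ 2 * L + cB q y h * LB)) *
        (32 * L ^ 4 * SW + 32 * (n : ℝ) ^ 2 * ST) +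
        (k / β) ^ 2 * (16 * k ^ 2 * (n : ℝ) ^ 5) * R) := by
  have hG : (GTwo q y h S.F S.D).Ok := GTwo_ok S.c11 S.x0 hy h
  have hd : EG (densG q (GTwo q y h S.F S.D) S.F) := eg_densG S.c11 S.x0 hG
  have h0 : ∀ w, 0 ≤ densG q (GTwo q y h S.F S.D) S.F w := fun w => (Real.exp_pos _).le
  have hden := den_densG (q := q) (G := GTwo q y h S.F S.D) S.c11 S.x0 hG
  have ht1 : 0 ≤ q.t1 := hq.h0.trans hq.h01
  have hcB0 := cB_nonneg (q := q) hy hyx ht1 hh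
  obtain ⟨Q0, hQ0⟩ : ∃ Q0, Q0 = 2 * k ^ 2 * (q.x ^ 2 * L + cB q y h * LB) := ⟨_, rfl⟩
  have Q00 : 0 ≤ Q0 := by
    rw [hQ0]
    exact mul_nonneg (by positivity)
      (add_nonneg (mul_nonneg (sq_nonneg _) hL) (mul_nonneg hcB0 hLB))
  have pt := fun b w => vsq_pt (S := S) (bd := bd) (β := β) (c2 := c2) hq ht h12 hy hyx hh0 hh hL
    hLB b w (hχb0 b w) (hle b w) (n1 b w) (n2 b w) (z1 b w) (z2 b w) (e1 b w) (e2 b w)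
    (t1 b w) (t2 b w) (b0 w) (dd w)
  rw [← hQ0] at pt ⊢
  generalize densG q (GTwo q y h S.F S.D) S.F = φ at *
  have gT : ∀ b, EG fun w => Wb b w * (δ1 b w ^ 2 + 3 * δ2 b w ^ 2) := fun b =>
    (hWb b).mul (((g1 b).pow 2).add (((g2 b).pow 2).const_mul 3))
  have gR : ∀ b, EG fun w => Wb b w * bd w := fun b => (hWb b).mul hbd
  have e5 : ∀ b, Im φ (vsq k β (q.s1 / q.s2) (k2 q) (k3 q)
      (psiG' q (GTwo q y h S.F S.D) S.F S.D) b (χb b) (N1 b) (N2 b)) ≤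
      c2 * ((k / β) ^ 2 * Q0 * (32 * L ^ 4 * Im φ (Wb b) +
        32 * (n : ℝ) ^ 2 * Im φ (fun w => Wb b w * (δ1 b w ^ 2 + 3 * δ2 b w ^ 2))) +
        (k / β) ^ 2 * (16 * k ^ 2 * (n : ℝ) ^ 5) * Im φ (fun w => Wb b w * bd w)) := by
    intro b
    have g3 : EG fun w => 32 * L ^ 4 * Wb b w +
        32 * (n : ℝ) ^ 2 * (Wb b w * (δ1 b w ^ 2 + 3 * δ2 b w ^ 2)) :=
      ((hWb b).const_mul _).add ((gT b).const_mul _)
    have s := Im_mono' hd h0 (eg_vsq hden (hχb b) (hM1 b) (hM2 b))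
      (((g3.const_mul ((k / β) ^ 2 * Q0)).add
        ((gR b).const_mul ((k / β) ^ 2 * (16 * k ^ 2 * (n : ℝ) ^ 5)))).const_mul c2) (pt b)
    rw [Im_const_mul, Im_add hd (g3.const_mul _) ((gR b).const_mul _), Im_const_mul, Im_const_mul,
      Im_add hd ((hWb b).const_mul _) ((gT b).const_mul _), Im_const_mul, Im_const_mul] at s
    exact s
  refine (Finset.sum_le_sum fun b _ => e5 b).trans ?_
  rw [← Finset.mul_sum]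
  refine mul_le_mul_of_nonneg_left ?_ hc2
  rw [Finset.sum_add_distrib, ← Finset.mul_sum, ← Finset.mul_sum, Finset.sum_add_distrib,
    ← Finset.mul_sum, ← Finset.mul_sum]
  have f1 := mul_le_mul_of_nonneg_left hSW (show 0 ≤ 32 * L ^ 4 by positivity)
  have f2 := mul_le_mul_of_nonneg_left hST (show 0 ≤ 32 * (n : ℝ) ^ 2 by positivity)
  have f3 := mul_le_mul_of_nonneg_left (add_le_add f1 f2)
    (show 0 ≤ (k / β) ^ 2 * Q0 by positivity)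
  have f4 := mul_le_mul_of_nonneg_left hR
    (show 0 ≤ (k / β) ^ 2 * (16 * k ^ 2 * (n : ℝ) ^ 5) by positivity)
  exact add_le_add f3 f4

end num

end Vale.Agent.P146.H785.F2T
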