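import Vale.Agent.P146.H191.F1Sum

/-!
Plan R2, row F2: exact integration by parts for products of linear forms in two rows, at two
positions, under a law with a smooth density (191's `Den`).
-/

open MeasureTheory ProbabilityTheory Finset

namespace Vale.Agent.P146.H785.F2

open Vale.Agent.P157.Lv Vale.Agent.P146.H425 Vale.Agent.P146.H325 Vale.Agent.P146.H332
  Vale.Agent.P146.H712 Vale.Agent.P146.R1 Vale.Agent.P146.R1C Vale.Agent.P146.H706
  Vale.Agent.P146.R1S Vale.Agent.P146.H191

set_option linter.unusedSectionVars false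

/-- The covariance of the positions `lp a`, `lp a'`. -/
def cv (a a' : Fin 4 → ℝ) : ℝ := a 0 * a' 0 + a 1 * a' 1 + a 2 * a' 2 + a 3 * a' 3

lemma cv_self (a : Fin 4 → ℝ) : cv a a = vr a := by unfold cv vr; ring

lemma cv_comm (a a' : Fin 4 → ℝ) : cv a a' = cv a' a := by unfold cv; ring

section gen

variable {κ : Type} [Fintype κ] [DecidableEq κ] {φ : (K4 κ → ℝ) → ℝ}
  {ψ' : K4 κ → (K4 κ → ℝ) → ℝ}

/-- **Integration by parts, two positions.** -/
theorem ibp2 (h : Den φ ψ') (a a' : Fin 4 → ℝ) {e : κ} {c : (K4 κ → ℝ) → ℝ}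
    {f f' : (κ → ℝ) → ℝ} (hc : EG c) (hci : ∀ j : K4 κ, bs j = e → PD j c (fun _ => 0))
    (hf : EG f) (hf' : EG f') (hd : PD e f f') :
    Im φ (fun w => c w * (H712.lp a w e * f (H712.lp a' w))) =
      Im φ (fun w => c w * (cv a a' * f' (H712.lp a' w) + f (H712.lp a' w) * dr a ψ' e w)) := by
  have ef : EG fun w => f (H712.lp a' w) := eg_lp _ hf
  have ef' : EG fun w => f' (H712.lp a' w) := eg_lp _ hf'
  have one : ∀ j : K4 κ, bs j = e →
      Im φ (fun w => w j * (c w * f (H712.lp a' w))) =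
        Im φ (fun w => c w * (a' (bl j) * f' (H712.lp a' w)) +
          c w * f (H712.lp a' w) * ψ' j w) := by
    intro j hj
    have hdj : PD j (fun w => c w * f (H712.lp a' w))
        (fun w => c w * (a' (bl j) * f' (H712.lp a' w))) := by
      have h1 : PD (bs j) f f' := by rw [hj]; exact hd
      refine ((hci j hj).mul (pd_lp a' h1)).congr fun w => ?_
      ring
    exact h.ibp_j hdj (hc.mul ef) (hc.mul (ef'.const_mul _))
  have eg1 : ∀ j : K4 κ, EG fun w : K4 κ → ℝ => w j * (c w * f (H712.lp a' w)) := fun j =>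
    (EG.coord j).mul (hc.mul ef)
  have eg2 : ∀ j : K4 κ, EG fun w => c w * (a' (bl j) * f' (H712.lp a' w)) +
      c w * f (H712.lp a' w) * ψ' j w := fun j =>
    (hc.mul (ef'.const_mul _)).add ((hc.mul ef).mul (h.eg' j))
  have o0 := one (Sum.inl e) rfl
  have o1 := one (Sum.inr (Sum.inl e)) rfl
  have o2 := one (Sum.inr (Sum.inr (Sum.inl e))) rfl
  have o3 := one (Sum.inr (Sum.inr (Sum.inr e))) rfl
  have hL : Im φ (fun w => c w * (H712.lp a w e * f (H712.lp a' w))) =
      a 0 * Im φ (fun w => w (Sum.inl e) * (c w * f (H712.lp a' w))) +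
      a 1 * Im φ (fun w => w (Sum.inr (Sum.inl e)) * (c w * f (H712.lp a' w))) +
      a 2 * Im φ (fun w => w (Sum.inr (Sum.inr (Sum.inl e))) * (c w * f (H712.lp a' w))) +
      a 3 * Im φ (fun w => w (Sum.inr (Sum.inr (Sum.inr e))) * (c w * f (H712.lp a' w))) := by
    rw [← Im_const_mul, ← Im_const_mul, ← Im_const_mul, ← Im_const_mul,
      ← Im_add h.eg ((eg1 _).const_mul _) ((eg1 _).const_mul _),
      ← Im_add h.eg (((eg1 _).const_mul _).add ((eg1 _).const_mul _)) ((eg1 _).const_mul _),
      ← Im_add h.eg ((((eg1 _).const_mul _).add ((eg1 _).const_mul _)).add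
        ((eg1 _).const_mul _)) ((eg1 _).const_mul _)]
    refine Im_congr fun w => ?_
    simp only [H712.lp]
    ring
  rw [hL, o0, o1, o2, o3, ← Im_const_mul, ← Im_const_mul, ← Im_const_mul, ← Im_const_mul,
      ← Im_add h.eg ((eg2 _).const_mul _) ((eg2 _).const_mul _),
      ← Im_add h.eg (((eg2 _).const_mul _).add ((eg2 _).const_mul _)) ((eg2 _).const_mul _),
      ← Im_add h.eg ((((eg2 _).const_mul _).add ((eg2 _).const_mul _)).add
        ((eg2 _).const_mul _)) ((eg2 _).const_mul _)]
  refine Im_congr fun w => ?_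
  simp only [dr, cv, bl]
  ring

end gen

variable {n : ℕ} {φ : (K4 (Pair n) → ℝ) → ℝ} {ψ' : K4 (Pair n) → (K4 (Pair n) → ℝ) → ℝ}

/-- The row `b` of the position `lp a`, as a vector. -/
noncomputable def yr (a : Fin 4 → ℝ) (b : Fin n) (w : K4 (Pair n) → ℝ) (j : Fin n) : ℝ :=
  rw' (H712.lp a w) b j

/-- the scalar product -/
def dt (u v : Fin n → ℝ) : ℝ := ∑ j, u j * v j

lemma dt_comm (u v : Fin n → ℝ) : dt u v = dt v u := by
  unfold dt; exact Finset.sum_congr rfl fun _ _ => mul_comm _ _

lemma eg_yr (a : Fin 4 → ℝ) (b j : Fin n) : EG fun w : K4 (Pair n) → ℝ => yr a b w j :=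
  eg_rw' (g := fun e w => H712.lp a w e) (fun e => eg_lp a (EG.coord e)) b j

/-- Vectors seen from the coordinates. -/
abbrev VF (n : ℕ) : Type := (K4 (Pair n) → ℝ) → Fin n → ℝ

lemma eg_dt {u v : VF n} (hu : ∀ j, EG fun w => u w j) (hv : ∀ j, EG fun w => v w j) :
    EG fun w => dt (u w) (v w) := EG.sum _ fun j _ => (hu j).mul (hv j)

/-- A vector which does not see the row `b` and whose component `b` vanishes. -/
structure Fv (b : Fin n) (u : VF n) : Prop where
  eg : ∀ j, EG fun w => u w j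
  fr : ∀ j, Fr b fun w => u w j
  z : ∀ w, u w b = 0

lemma dt_yr (u : VF n) (a : Fin 4 → ℝ) (b : Fin n) (w : K4 (Pair n) → ℝ) :
    dt (u w) (yr a b w) = ∑ e ∈ row b, u w (oth b e) * H712.lp a w e :=
  (sum_rw' (H712.lp a w) b (u w)).symm

lemma dt_dv (u : VF n) (a : Fin 4 → ℝ) (b : Fin n) (w : K4 (Pair n) → ℝ) :
    dt (u w) (dv a ψ' b w) = ∑ e ∈ row b, u w (oth b e) * dr a ψ' e w :=
  (sum_rw' (fun e => dr a ψ' e w) b (u w)).symm

/-- **two linear forms in the same row, at two positions** -/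
theorem dot_ibp (h : Den φ ψ') {b : Fin n} {u v : VF n} (hu : Fv b u) (hv : Fv b v)
    (a a' : Fin 4 → ℝ) :
    Im φ (fun w => dt (u w) (yr a b w) * dt (v w) (yr a' b w)) =
      cv a a' * Im φ (fun w => dt (u w) (v w)) +
      Im φ (fun w => dt (u w) (dv a ψ' b w) * dt (v w) (yr a' b w)) := by
  have el : ∀ (a : Fin 4 → ℝ) (e : Pair n), EG fun w : K4 (Pair n) → ℝ => H712.lp a w e :=
    fun a e => eg_lp a (EG.coord e)
  have one : ∀ e ∈ row b, ∀ e' ∈ row b,
      Im φ (fun w => (u w (oth b e) * v w (oth b e')) * (H712.lp a w e * H712.lp a' w e')) =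
      Im φ (fun w => (u w (oth b e) * v w (oth b e')) * (cv a a' * (if e' = e then 1 else 0) +
        H712.lp a' w e' * dr a ψ' e w)) := fun e he e' _ =>
    ibp2 h a a' (c := fun w => u w (oth b e) * v w (oth b e')) (f := fun z => z e')
      (f' := fun _ => if e' = e then 1 else 0) ((hu.eg _).mul (hv.eg _))
      (fun j hj => ((hu.fr (oth b e)).mul (hv.fr (oth b e'))) j (by rw [hj]; exact he))
      (EG.coord e') (EG.const _) (PD.coord e')
  have e1 : ∀ e e', EG fun w : K4 (Pair n) → ℝ =>
      (u w (oth b e) * v w (oth b e')) * (H712.lp a w e * H712.lp a' w e') := fun e e' =>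
    ((hu.eg _).mul (hv.eg _)).mul ((el a e).mul (el a' e'))
  have e2 : ∀ e e', EG fun w : K4 (Pair n) → ℝ =>
      (u w (oth b e) * v w (oth b e')) * (cv a a' * (if e' = e then 1 else 0) +
        H712.lp a' w e' * dr a ψ' e w) := fun e e' =>
    ((hu.eg _).mul (hv.eg _)).mul ((EG.const _).add ((el a' e').mul (h.eg_dr a e)))
  have e3 : EG fun w => dt (u w) (v w) := eg_dt hu.eg hv.eg
  have e4 : EG fun w => dt (u w) (dv a ψ' b w) * dt (v w) (yr a' b w) :=
    (eg_dt hu.eg fun j => eg_dv h b j).mul (eg_dt hv.eg fun j => eg_yr a' b j)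
  calc Im φ (fun w => dt (u w) (yr a b w) * dt (v w) (yr a' b w))
      = Im φ (fun w => ∑ e ∈ row b, ∑ e' ∈ row b,
          (u w (oth b e) * v w (oth b e')) * (H712.lp a w e * H712.lp a' w e')) := by
        refine Im_congr fun w => ?_
        rw [dt_yr u, dt_yr v, Finset.sum_mul_sum]
        exact Finset.sum_congr rfl fun e _ => Finset.sum_congr rfl fun e' _ => by ring
    _ = ∑ e ∈ row b, ∑ e' ∈ row b, Im φ (fun w =>
          (u w (oth b e) * v w (oth b e')) * (H712.lp a w e * H712.lp a' w e')) := by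
        rw [Im_sum h.eg _ fun e _ => EG.sum _ fun e' _ => e1 e e']
        exact Finset.sum_congr rfl fun e _ => Im_sum h.eg _ fun e' _ => e1 e e'
    _ = ∑ e ∈ row b, ∑ e' ∈ row b, Im φ (fun w => (u w (oth b e) * v w (oth b e')) *
          (cv a a' * (if e' = e then 1 else 0) + H712.lp a' w e' * dr a ψ' e w)) :=
        Finset.sum_congr rfl fun e he => Finset.sum_congr rfl fun e' he' => one e he e' he'
    _ = Im φ (fun w => ∑ e ∈ row b, ∑ e' ∈ row b, (u w (oth b e) * v w (oth b e')) *
          (cv a a' * (if e' = e then 1 else 0) + H712.lp a' w e' * dr a ψ' e w)) := by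
        rw [Im_sum h.eg _ fun e _ => EG.sum _ fun e' _ => e2 e e']
        exact Finset.sum_congr rfl fun e _ => (Im_sum h.eg _ fun e' _ => e2 e e').symm
    _ = Im φ (fun w => cv a a' * dt (u w) (v w) +
          dt (u w) (dv a ψ' b w) * dt (v w) (yr a' b w)) := by
        refine Im_congr fun w => ?_
        have e5 : dt (u w) (v w) = ∑ e ∈ row b, u w (oth b e) * v w (oth b e) :=
          (sum_row_all b (G := fun j => u w j * v w j) (by simp only [hu.z w, zero_mul])).symm
        rw [dt_yr v, dt_dv u, e5, Finset.sum_mul_sum, Finset.mul_sum, ← Finset.sum_add_distrib]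
        refine Finset.sum_congr rfl fun e he => ?_
        have e6 : ∑ e' ∈ row b, (u w (oth b e) * v w (oth b e')) *
            (cv a a' * (if e' = e then 1 else 0)) = cv a a' * (u w (oth b e) * v w (oth b e)) := by
          rw [Finset.sum_eq_single e]
          · simp only [if_true]
            ring
          · intro e' _ hne
            rw [if_neg hne]
            ring
          · intro hn
            exact absurd he hn
        rw [← e6, ← Finset.sum_add_distrib]
        exact Finset.sum_congr rfl fun e' _ => by ring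
    _ = _ := by rw [Im_add h.eg (e3.const_mul _) e4, Im_const_mul]

/-! ### matrices which do not see two rows -/

/-- A matrix which does not see the rows `b`, `b'` and whose rows and columns `b`, `b'` vanish. -/
structure Fm (b b' : Fin n) (A : MF n) : Prop where
  eg : ∀ i l, EG fun w => A w i l
  fr : ∀ i l, Fr b fun w => A w i l
  fr' : ∀ i l, Fr b' fun w => A w i l
  r : ∀ w i, A w b i = 0
  r' : ∀ w i, A w b' i = 0
  c : ∀ w i, A w i b = 0
  c' : ∀ w i, A w i b' = 0

/-- the product of two matrices -/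
def mm (A B : Fin n → Fin n → ℝ) (i l : Fin n) : ℝ := ∑ j, A i j * B j l

/-- the transposed matrix -/
def tp (A : Fin n → Fin n → ℝ) (i l : Fin n) : ℝ := A l i

/-- matrix times vector -/
def mv (A : Fin n → Fin n → ℝ) (u : Fin n → ℝ) (i : Fin n) : ℝ := dt (A i) u

variable {b b' : Fin n} {A B : MF n}

lemma Fm.symm (h : Fm b b' A) : Fm b' b A := ⟨h.eg, h.fr', h.fr, h.r', h.r, h.c', h.c⟩

lemma Fm.tp (h : Fm b b' A) : Fm b b' fun w => tp (A w) :=
  ⟨fun i l => h.eg l i, fun i l => h.fr l i, fun i l => h.fr' l i, fun w i => h.c w i,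
    fun w i => h.c' w i, fun w i => h.r w i, fun w i => h.r' w i⟩

lemma Fm.mm (h : Fm b b' A) (g : Fm b b' B) : Fm b b' fun w => mm (A w) (B w) where
  eg i l := EG.sum _ fun j _ => (h.eg i j).mul (g.eg j l)
  fr i l := Fr.sum _ fun j _ => (h.fr i j).mul (g.fr j l)
  fr' i l := Fr.sum _ fun j _ => (h.fr' i j).mul (g.fr' j l)
  r w i := by simp only [F2.mm, h.r, zero_mul, Finset.sum_const_zero]
  r' w i := by simp only [F2.mm, h.r', zero_mul, Finset.sum_const_zero]
  c w i := by simp only [F2.mm, g.c, mul_zero, Finset.sum_const_zero]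
  c' w i := by simp only [F2.mm, g.c', mul_zero, Finset.sum_const_zero]

/-- a row of a frozen matrix -/
lemma Fm.fv (h : Fm b b' A) (i : Fin n) : Fv b fun w => A w i := ⟨h.eg i, h.fr i, fun w => h.c w i⟩

lemma Fm.fv' (h : Fm b b' A) (i : Fin n) : Fv b' fun w => A w i := h.symm.fv i

/-- the other row is not seen, except in its component `b` -/
lemma fr_yr (a : Fin 4 → ℝ) (hb : b ≠ b') {j : Fin n} (hj : j ≠ b) :
    Fr b fun w => yr a b' w j := by
  intro i hi
  refine PD.of_indep fun w t => ?_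
  unfold yr rw'
  by_cases h : j = b'
  · simp only [h, dif_pos]
  · simp only [h, dif_neg, not_false_eq_true]
    have h2 : cp b' j h ≠ bs i := by
      intro h3
      rw [← h3, mem_row] at hi
      unfold cp at hi
      split_ifs at hi with h4
      · rcases hi with h5 | h5
        · exact hb h5.symm
        · exact hj h5
      · rcases hi with h5 | h5
        · exact hj h5
        · exact hb h5.symm
    rw [lp_update, Function.update_of_ne h2]

/-- a frozen matrix times the other row -/
lemma Fm.mv_fv (h : Fm b b' A) (hb : b ≠ b') (a : Fin 4 → ℝ) :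
    Fv b fun w => mv (A w) (yr a b' w) where
  eg i := eg_dt (h.eg i) fun j => eg_yr a b' j
  fr i := by
    show Fr b fun w => ∑ j, A w i j * yr a b' w j
    refine Fr.sum _ fun j _ => ?_
    by_cases hj : j = b
    · have e1 : (fun w : K4 (Pair n) → ℝ => A w i j * yr a b' w j) = fun _ => 0 := by
        funext w
        rw [hj, h.c, zero_mul]
      rw [e1]
      exact fun e _ => PD.const 0
    · exact (h.fr i j).mul (fr_yr a hb hj)
  z w := by
    show dt (A w b) _ = 0
    unfold dt
    simp only [h.r, zero_mul, Finset.sum_const_zero]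

/-- the Frobenius scalar product -/
def ip (A B : Fin n → Fin n → ℝ) : ℝ := ∑ i, dt (A i) (B i)

/-- **products of bilinear forms of two rows, at four positions**: `a`, `c` for the row `b`,
`a'`, `c'` for the row `b'` -/
theorem bil_ibp (h : Den φ ψ') (hb : b ≠ b') (hA : Fm b b' A) (hB : Fm b b' B)
    (a c a' c' : Fin 4 → ℝ) :
    Im φ (fun w => dt (mv (A w) (yr a' b' w)) (yr a b w) * dt (mv (B w) (yr c' b' w)) (yr c b w)) =
      cv a c * (cv a' c' * Im φ (fun w => ip (A w) (B w)) +
        Im φ (fun w => dt (mv (A w) (dv a' ψ' b' w)) (mv (B w) (yr c' b' w)))) +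
      Im φ (fun w => dt (mv (A w) (yr a' b' w)) (dv a ψ' b w) *
        dt (mv (B w) (yr c' b' w)) (yr c b w)) := by
  rw [dot_ibp h (hA.mv_fv hb a') (hB.mv_fv hb c') a c]
  congr 2
  have e1 : ∀ i, EG fun w => dt (A w i) (yr a' b' w) * dt (B w i) (yr c' b' w) := fun i =>
    (eg_dt (hA.eg i) fun j => eg_yr a' b' j).mul (eg_dt (hB.eg i) fun j => eg_yr c' b' j)
  have e2 : ∀ i, EG fun w => dt (A w i) (B w i) := fun i => eg_dt (hA.eg i) (hB.eg i)
  have e3 : ∀ i, EG fun w => dt (A w i) (dv a' ψ' b' w) * dt (B w i) (yr c' b' w) := fun i =>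
    (eg_dt (hA.eg i) fun j => eg_dv h b' j).mul (eg_dt (hB.eg i) fun j => eg_yr c' b' j)
  calc Im φ (fun w => dt (mv (A w) (yr a' b' w)) (mv (B w) (yr c' b' w)))
      = ∑ i, Im φ (fun w => dt (A w i) (yr a' b' w) * dt (B w i) (yr c' b' w)) :=
        Im_sum h.eg _ fun i _ => e1 i
    _ = ∑ i, (cv a' c' * Im φ (fun w => dt (A w i) (B w i)) +
          Im φ (fun w => dt (A w i) (dv a' ψ' b' w) * dt (B w i) (yr c' b' w))) :=
        Finset.sum_congr rfl fun i _ => dot_ibp h (hA.fv' i) (hB.fv' i) a' c'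
    _ = _ := by
        rw [Finset.sum_add_distrib, ← Finset.mul_sum, ← Im_sum h.eg _ fun i _ => e2 i,
          ← Im_sum h.eg _ fun i _ => e3 i]
        rfl

end Vale.Agent.P146.H785.F2
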