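import Vale.Agent.P146.H784.Sand

set_option linter.all false

/-!
Conditional integration by parts, and the response identities of a field of the level `l + 1`:
with `z_a` the coordinates of the field of the level `l + 1` and `chi_l` the derivative of the
magnetization `M_l` in the field of the level `l`,
`T_l (z_a x_b) - T_l z_a M_l,b = s chi_l(a,b)` and
`T_l (z_a z_b) - T_l z_a T_l z_b = 1_{a = b} + m s² chi_l(a,b)`.
-/

open MeasureTheory ProbabilityTheory Filter Topology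

namespace Vale.Agent.P146.H785

open Vale.Agent.P157.Lv Vale.Agent.P157.Lv.Sy Vale.Agent.P146.H784

section stein

variable {ι : Type} [Fintype ι] [DecidableEq ι]

omit [Fintype ι] in
lemma mix_update_right {lev : ι → ℕ} {l : ℕ} {e : ι} (he : l < lev e) (z w : ι → ℝ) (t : ℝ) :
    mix lev l z (Function.update w e t) = Function.update (mix lev l z w) e t := by
  funext j
  unfold mix
  by_cases hj : j = e
  · subst hj
    rw [Function.update_self, Function.update_self, if_neg (not_le.2 he)]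
  · rw [Function.update_of_ne hj, Function.update_of_ne hj]

lemma eg_mix {lev : ι → ℕ} {l : ℕ} {h : (ι → ℝ) → ℝ} (hh : EG h) (z : ι → ℝ) :
    EG fun w => h (mix lev l z w) := by
  obtain ⟨C, a, hC, ha, hb⟩ := hh.bdd
  refine ⟨hh.meas.comp (measurable_mix_right lev l z), C * Real.exp (a * ‖z‖), a, by positivity,
    ha, fun w => ?_⟩
  refine (hb _).trans ?_
  rw [mul_assoc, ← Real.exp_add, ← mul_add]
  gcongr
  exact norm_mix_le z w

/-- conditional Gaussian integration by parts -/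
lemma stein_J {lev : ι → ℕ} {l : ℕ} {e : ι} {H H' : (ι → ℝ) → ℝ} (hd : PD e H H') (hg : EG H)
    (hg' : EG H') (he : l < lev e) (z : ι → ℝ) :
    J lev l (fun z => z e * H z) z = J lev l H' z := by
  have h1 : PD e (fun w => H (mix lev l z w)) (fun w => H' (mix lev l z w)) := by
    intro y x
    simp only [mix_update_right he]
    exact hd _ _
  have h2 := h1.stein (eg_mix hg z) (eg_mix hg' z)
  unfold J
  rw [← h2]
  refine integral_congr_ae (Filter.Eventually.of_forall fun w => ?_)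
  have h3 : mix lev l z w e = w e := by
    unfold mix
    rw [if_neg (not_le.2 he)]
  simp only [h3]

end stein

variable {ι X : Type} [Fintype ι] [DecidableEq ι] [Fintype X] [DecidableEq X] [Nonempty X]
  {S : Sy ι X} {D : ι → (ι → ℝ) → X → ℝ} {N : ℕ} {φ : X → Fin N → ℝ} {zc : ℕ → Fin N → ι}
  {s : ℕ → ℝ}

/-- the derivative of the density of the levels larger than `l`, for a coordinate of a level
larger than `l` -/
lemma pd_dn_gt (hS : S.RegD D) {l : ℕ} (hl : l ≤ S.K) {e : ι} (he : l < S.lev e) :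
    PD e (S.dn l) (fun z => S.dn l z * (S.T S.K (D e) z -
      ∑ i ∈ Finset.Ico (S.lev e) (S.K + 1), S.p i * S.T i (D e) z)) := by
  have hlg : ∀ i ≤ S.K, PD e (S.lg i) (fun z => if S.lev e ≤ i then S.T i (D e) z else 0) := by
    intro i hi
    by_cases he : S.lev e ≤ i
    · simp only [he, if_true]
      exact hS.pd_lg hi he
    · simp only [he, if_false]
      exact (hS.toReg.dep_lg hi).pd (not_le.1 he)
  have h1 : PD e (fun z => ∑ i ∈ Finset.Ico l S.K, S.m (i + 1) * (S.lg (i + 1) z - S.lg i z))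
      (fun z => ∑ i ∈ Finset.Ico l S.K, S.m (i + 1) *
        ((if S.lev e ≤ i + 1 then S.T (i + 1) (D e) z else 0) -
          (if S.lev e ≤ i then S.T i (D e) z else 0))) := by
    refine PD.sum _ fun i hi => ?_
    obtain ⟨_, hi2⟩ := Finset.mem_Ico.1 hi
    exact ((hlg (i + 1) hi2).sub (hlg i hi2.le)).const_mul _
  refine h1.exp.congr fun z => ?_
  rw [abel S.m (fun i => if S.lev e ≤ i then S.T i (D e) z else 0) hl, hS.mK,
    one_mul, if_pos (hS.lev e), if_neg (not_le.2 he), mul_zero, sub_zero]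
  have h2 : ∑ i ∈ Finset.Ico (S.lev e) (S.K + 1), S.p i * S.T i (D e) z =
      ∑ i ∈ Finset.Ico (l + 1) (S.K + 1), S.p i * (if S.lev e ≤ i then S.T i (D e) z else 0) := by
    have : Finset.Ico (S.lev e) (S.K + 1) =
        (Finset.Ico (l + 1) (S.K + 1)).filter fun i => S.lev e ≤ i := by
      ext i; simp only [Finset.mem_Ico, Finset.mem_filter]; omega
    rw [this, Finset.sum_filter]
    exact Finset.sum_congr rfl fun i _ => by split_ifs <;> simp
  rw [h2]
  rfl

/-- **Conditional integration by parts.** -/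
theorem T_ibp (hS : S.RegD D) {l : ℕ} (hl : l ≤ S.K) {e : ι} (he : l < S.lev e)
    {h h' : (ι → ℝ) → X → ℝ} (hd : ∀ x, PD e (fun z => h z x) (fun z => h' z x)) (hh : Nh h)
    (hh' : Nh h') (z : ι → ℝ) :
    S.T l (fun z x => z e * h z x) z = S.T l (fun z x => h' z x + h z x * (D e z x -
      ∑ k ∈ Finset.Ico (S.lev e) (S.K + 1), S.p k * S.T k (D e) z)) z := by
  have hT : ∀ i ≤ S.K, EG (S.T i (D e)) := fun i hi => hS.toReg.eg_T hi (hS.nh e)
  have hA : EG (fun z => ∑ i ∈ Finset.Ico (S.lev e) (S.K + 1), S.p i * S.T i (D e) z) :=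
    EG.sum _ fun i hi => (hT i (by have := Finset.mem_Ico.1 hi; omega)).const_mul _
  have hN : Nh (fun z x => h' z x + h z x * (D e z x -
      ∑ i ∈ Finset.Ico (S.lev e) (S.K + 1), S.p i * S.T i (D e) z)) :=
    Nh.add hh' (Nh.mul hh (Nh.sub (hS.nh e) (Nh.fst hA)))
  have h1 := hS.pd_mul_av (pd_dn_gt hS hl he) hd
  have h2 := stein_J (lev := S.lev) h1 ((hS.toReg.eg_dn hl).mul (hS.toReg.eg_av hh))
    ((hS.toReg.eg_dn hl).mul (hS.toReg.eg_av hN)) he z
  have e1 : S.T l (fun z x => z e * h z x) z = J S.lev l (fun z => z e * (S.dn l z * S.av h z)) z := by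
    unfold Sy.T
    congr 1
    funext z
    rw [av_mul_left S (fun z => z e) h z]
    ring
  rw [e1, h2]
  rfl

/-! ### The matrices -/

/-- the conditional covariance `C_l` of the configuration -/
noncomputable def cv (S : Sy ι X) (φ : X → Fin N → ℝ) (l : ℕ) (a b : Fin N) : (ι → ℝ) → ℝ :=
  fun z => S.T l (fun _ x => φ x a * φ x b) z - S.mg φ l a z * S.mg φ l b z

/-- the response `chi_l` (the derivative of `M_l` in the field of the level `l`) -/
noncomputable def ch (S : Sy ι X) (φ : X → Fin N → ℝ) (l : ℕ) (a b : Fin N) : (ι → ℝ) → ℝ :=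
  fun z => S.T l (fun _ x => φ x a * φ x b) z -
      ∑ k ∈ Finset.Ico (l + 1) (S.K + 1), S.p k * S.T l (fun z _ => S.mg φ k a z * S.mg φ k b z) z -
      S.m (l + 1) * (S.mg φ l a z * S.mg φ l b z)

lemma sum_p (hS : S.Reg) {l : ℕ} (hl : l ≤ S.K) :
    ∑ k ∈ Finset.Ico (l + 1) (S.K + 1), S.p k = 1 - S.m (l + 1) := by
  rw [← hS.mK]
  exact Finset.sum_Ico_sub S.m (by omega)

lemma eg_cv (hS : S.Reg) {l : ℕ} (hl : l ≤ S.K) (a b : Fin N) : EG (cv S φ l a b) :=
  (hS.eg_T hl (Nh.snd fun x => φ x a * φ x b)).sub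
    ((Fld.eg_mg hS hl a).mul (Fld.eg_mg hS hl b))

lemma dep_cv (S : Sy ι X) (φ : X → Fin N → ℝ) (l : ℕ) (a b : Fin N) :
    Dep S.lev l (cv S φ l a b) := by
  intro z w
  unfold cv
  rw [S.dep_T l _ z w, Fld.dep_mg S φ l a z w, Fld.dep_mg S φ l b z w]

lemma cv_comm (S : Sy ι X) (φ : X → Fin N → ℝ) (l : ℕ) (a b : Fin N) (z : ι → ℝ) :
    cv S φ l a b z = cv S φ l b a z := by
  unfold cv
  rw [mul_comm (S.mg φ l a z)]
  congr 1
  congr 1
  funext _ x
  rw [mul_comm]

lemma ch_comm (S : Sy ι X) (φ : X → Fin N → ℝ) (l : ℕ) (a b : Fin N) (z : ι → ℝ) :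
    ch S φ l a b z = ch S φ l b a z := by
  unfold ch
  rw [mul_comm (S.mg φ l a z)]
  have e1 : S.T l (fun _ x => φ x a * φ x b) z = S.T l (fun _ x => φ x b * φ x a) z := by
    congr 1
    funext _ x
    rw [mul_comm]
  have e2 : ∀ k, S.T l (fun z _ => S.mg φ k a z * S.mg φ k b z) z =
      S.T l (fun z _ => S.mg φ k b z * S.mg φ k a z) z := by
    intro k
    congr 1
    funext z _
    rw [mul_comm]
  rw [e1]
  simp only [e2]

lemma eg_ch (hS : S.Reg) {l : ℕ} (hl : l ≤ S.K) (a b : Fin N) : EG (ch S φ l a b) :=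
  ((hS.eg_T hl (Nh.snd fun x => φ x a * φ x b)).sub (EG.sum _ fun k hk =>
    EG.const_mul _ (hS.eg_T hl (Nh.fst ((Fld.eg_mg hS (by rw [Finset.mem_Ico] at hk; omega) a).mul
      (Fld.eg_mg hS (by rw [Finset.mem_Ico] at hk; omega) b)))))).sub
    (EG.const_mul _ ((Fld.eg_mg hS hl a).mul (Fld.eg_mg hS hl b)))

lemma dep_ch (S : Sy ι X) (φ : X → Fin N → ℝ) (l : ℕ) (a b : Fin N) :
    Dep S.lev l (ch S φ l a b) := by
  intro z w
  unfold ch
  rw [S.dep_T l _ z w, Fld.dep_mg S φ l a z w, Fld.dep_mg S φ l b z w]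
  have : ∀ k, S.T l (fun z _ => S.mg φ k a z * S.mg φ k b z) (mix S.lev l z w) =
      S.T l (fun z _ => S.mg φ k a z * S.mg φ k b z) z := fun k => S.dep_T l _ z w
  simp only [this]

/-- `T_l C_k = T_l (x x^T) - T_l (M_k M_k^T)` for `l ≤ k` -/
lemma T_cv (hS : S.Reg) {l k : ℕ} (hlk : l ≤ k) (hk : k ≤ S.K) (a b : Fin N) (z : ι → ℝ) :
    S.T l (fun z _ => cv S φ k a b z) z = S.T l (fun _ x => φ x a * φ x b) z -
      S.T l (fun z _ => S.mg φ k a z * S.mg φ k b z) z := by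
  have hl := hlk.trans hk
  unfold cv
  rw [hS.T_sub hl (Nh.fst (hS.eg_T hk (Nh.snd fun x => φ x a * φ x b)))
    (Nh.fst ((Fld.eg_mg hS hk a).mul (Fld.eg_mg hS hk b)))]
  congr 1
  exact hS.T_T hlk hk (Nh.snd fun x => φ x a * φ x b) z

/-- `chi_l = m_{l+1} C_l + ∑_{k > l} p_k T_l C_k` -/
lemma ch_eq (hS : S.Reg) {l : ℕ} (hl : l ≤ S.K) (a b : Fin N) (z : ι → ℝ) :
    ch S φ l a b z = S.m (l + 1) * cv S φ l a b z +
      ∑ k ∈ Finset.Ico (l + 1) (S.K + 1), S.p k * S.T l (fun z _ => cv S φ k a b z) z := by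
  have e : ∑ k ∈ Finset.Ico (l + 1) (S.K + 1), S.p k * S.T l (fun z _ => cv S φ k a b z) z =
      (1 - S.m (l + 1)) * S.T l (fun _ x => φ x a * φ x b) z -
        ∑ k ∈ Finset.Ico (l + 1) (S.K + 1), S.p k *
          S.T l (fun z _ => S.mg φ k a z * S.mg φ k b z) z := by
    rw [← sum_p hS hl, Finset.sum_mul, ← Finset.sum_sub_distrib]
    refine Finset.sum_congr rfl fun k hk => ?_
    rw [Finset.mem_Ico] at hk
    rw [T_cv hS (by omega) (by omega)]
    ring
  rw [e]
  unfold ch cv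
  ring

/-! ### The response identities -/

section resp

variable (F : Fld S D φ zc s)

include F

/-- conditional integration by parts for the coordinates of the fields -/
lemma T_ibp' {l j : ℕ} (hlj : l < j) (hj : j ≤ S.K) (i : Fin N) {h h' : (ι → ℝ) → X → ℝ}
    (hd : ∀ x, PD (zc j i) (fun z => h z x) (fun z => h' z x)) (hh : Nh h) (hh' : Nh h')
    (z : ι → ℝ) :
    S.T l (fun z x => z (zc j i) * h z x) z = S.T l (fun z x => h' z x + h z x * (s j * φ x i -
      ∑ k ∈ Finset.Ico j (S.K + 1), S.p k * (s j * S.mg φ k i z))) z := by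
  have hlev := F.lev j hj i
  rw [T_ibp F.reg (hlj.le.trans hj) (e := zc j i) (by rw [hlev]; exact hlj) hd hh hh' z, hlev]
  congr 1
  funext z x
  rw [F.D j hj i]
  have e : D (zc j i) = fun z x => s j * φ x i := by
    funext z x
    exact F.D j hj i z x
  rw [e]
  simp only [Sy.T_const_mul]
  rfl

/-- the coordinates of the field of the level `l + 1` -/
lemma dep_coord {j : ℕ} (hj : j ≤ S.K) (a : Fin N) : Dep S.lev j (fun z : ι → ℝ => z (zc j a)) := by
  intro z w
  show mix S.lev j z w (zc j a) = z (zc j a)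
  unfold mix
  rw [if_pos (F.lev j hj a).le]

/-- for `h` of the level `l + 1` and `k ≥ l + 1`: `T_l (h M_k) = T_l (h x)` -/
lemma T_dep_mul_mg (hS : S.Reg) {l k : ℕ} (hlk : l < k) (hk : k ≤ S.K) {g : (ι → ℝ) → ℝ}
    (hg : EG g) (hgd : Dep S.lev (l + 1) g) (a : Fin N) (z : ι → ℝ) :
    S.T l (fun z _ => g z * S.mg φ k a z) z = S.T l (fun z x => g z * φ x a) z := by
  have hl : l ≤ S.K := hlk.le.trans hk
  have e := hS.T_T hlk.le hk (Nh.mul (Nh.fst hg) (Nh.snd fun x => φ x a)) z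
  rw [← e]
  congr 1
  funext z _
  exact (Sy.T_mul_left S (hgd.mono hlk) (fun _ x => φ x a) z).symm

/-- `T_l z_a = s m M_l,a` -/
lemma T_z {l : ℕ} (hl : l < S.K) (a : Fin N) (z : ι → ℝ) :
    S.T l (fun z _ => z (zc (l + 1) a)) z = s (l + 1) * S.m (l + 1) * S.mg φ l a z := by
  have hS := F.hreg
  have h := T_ibp' F (Nat.lt_succ_self l) hl a (h := fun _ _ => 1) (h' := fun _ _ => 0)
    (fun x => PD.const 1) (Nh.fst (EG.const 1)) (Nh.fst (EG.const 0)) z
  simp only [mul_one, one_mul, zero_add] at h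
  rw [h]
  have nk : ∀ k ∈ Finset.Ico (l + 1) (S.K + 1), Nh (X := X) (fun z _ =>
      S.p k * (s (l + 1) * S.mg φ k a z)) := fun k hk =>
    Nh.fst (EG.const_mul _ (EG.const_mul _ (Fld.eg_mg hS
      (by rw [Finset.mem_Ico] at hk; omega) a)))
  rw [hS.T_sub hl.le (Nh.const_mul _ (Nh.snd fun x => φ x a)) (Nh.sum _ nk),
    hS.T_sum hl.le _ nk, Sy.T_const_mul]
  have e : ∀ k ∈ Finset.Ico (l + 1) (S.K + 1),
      S.T l (fun z _ => S.p k * (s (l + 1) * S.mg φ k a z)) z =
        S.p k * (s (l + 1) * S.mg φ l a z) := by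
    intro k hk
    rw [Finset.mem_Ico] at hk
    rw [Sy.T_const_mul, Sy.T_const_mul]
    congr 2
    exact hS.T_T (by omega) (by omega) (Nh.snd fun x => φ x a) z
  rw [Finset.sum_congr rfl e, ← Finset.sum_mul, sum_p hS hl.le]
  have e2 : S.T l (fun _ x => φ x a) z = S.mg φ l a z := rfl
  rw [e2]
  ring

/-- `T_l (z_a x_b) = s (chi_l(a,b) + m M_l,a M_l,b)` -/
lemma T_z_phi {l : ℕ} (hl : l < S.K) (a b : Fin N) (z : ι → ℝ) :
    S.T l (fun z x => z (zc (l + 1) a) * φ x b) z =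
      s (l + 1) * (ch S φ l a b z + S.m (l + 1) * (S.mg φ l a z * S.mg φ l b z)) := by
  have hS := F.hreg
  have h := T_ibp' F (Nat.lt_succ_self l) hl a (h := fun _ x => φ x b) (h' := fun _ _ => 0)
    (fun x => PD.const _) (Nh.snd fun x => φ x b) (Nh.fst (EG.const 0)) z
  rw [h]
  have nk : ∀ k ∈ Finset.Ico (l + 1) (S.K + 1), Nh (fun (z : ι → ℝ) x =>
      S.p k * (s (l + 1) * (S.mg φ k a z * φ x b))) := fun k hk =>
    Nh.const_mul _ (Nh.const_mul _ (Nh.mul (Nh.fst (Fld.eg_mg hS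
      (by rw [Finset.mem_Ico] at hk; omega) a)) (Nh.snd fun x => φ x b)))
  have nab : Nh (ι := ι) (fun _ x => φ x a * φ x b) := Nh.snd fun x => φ x a * φ x b
  have e1 : (fun (z : ι → ℝ) (x : X) => (0 : ℝ) + φ x b * (s (l + 1) * φ x a -
      ∑ k ∈ Finset.Ico (l + 1) (S.K + 1), S.p k * (s (l + 1) * S.mg φ k a z))) =
      fun z x => s (l + 1) * (φ x a * φ x b) - ∑ k ∈ Finset.Ico (l + 1) (S.K + 1),
        S.p k * (s (l + 1) * (S.mg φ k a z * φ x b)) := by
    funext z x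
    rw [zero_add, mul_sub, Finset.mul_sum]
    congr 1
    · ring
    · refine Finset.sum_congr rfl fun k _ => ?_
      ring
  rw [e1, hS.T_sub hl.le (Nh.const_mul _ nab) (Nh.sum _ nk), hS.T_sum hl.le _ nk,
    Sy.T_const_mul]
  have e : ∀ k ∈ Finset.Ico (l + 1) (S.K + 1),
      S.T l (fun z x => S.p k * (s (l + 1) * (S.mg φ k a z * φ x b))) z =
        s (l + 1) * (S.p k * S.T l (fun z _ => S.mg φ k a z * S.mg φ k b z) z) := by
    intro k hk
    rw [Finset.mem_Ico] at hk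
    rw [Sy.T_const_mul, Sy.T_const_mul]
    have e3 : S.T l (fun z x => S.mg φ k a z * φ x b) z =
        S.T l (fun z _ => S.mg φ k a z * S.mg φ k b z) z := by
      rw [← hS.T_T (by omega : l ≤ k) (by omega) (Nh.mul (Nh.fst (Fld.eg_mg hS (by omega) a))
        (Nh.snd fun x => φ x b))]
      congr 1
      funext z _
      exact Sy.T_mul_left S (Fld.dep_mg S φ k a) (fun _ x => φ x b) z
    rw [e3]
    ring
  rw [Finset.sum_congr rfl e, ← Finset.mul_sum]
  unfold ch
  ring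

/-- `T_l (z_a z_b) = 1_{a = b} + s² m (chi_l(b,a) + m M_l,a M_l,b)` -/
lemma T_z_z {l : ℕ} (hl : l < S.K) (hinj : Function.Injective (zc (l + 1))) (a b : Fin N)
    (z : ι → ℝ) :
    S.T l (fun z _ => z (zc (l + 1) a) * z (zc (l + 1) b)) z = (if b = a then 1 else 0) +
      s (l + 1) ^ 2 * S.m (l + 1) *
        (ch S φ l a b z + S.m (l + 1) * (S.mg φ l a z * S.mg φ l b z)) := by
  have hS := F.hreg
  have nz : ∀ b : Fin N, EG (fun z : ι → ℝ => z (zc (l + 1) b)) := fun b => EG.coord _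
  have h := T_ibp' F (Nat.lt_succ_self l) hl a (h := fun z _ => z (zc (l + 1) b))
    (h' := fun _ _ => if zc (l + 1) b = zc (l + 1) a then 1 else 0)
    (fun x => PD.coord _) (Nh.fst (nz b)) (Nh.fst (EG.const _)) z
  rw [h]
  have nk : ∀ k ∈ Finset.Ico (l + 1) (S.K + 1), Nh (X := X) (fun (z : ι → ℝ) _ =>
      S.p k * (s (l + 1) * (z (zc (l + 1) b) * S.mg φ k a z))) := fun k hk =>
    Nh.fst (EG.const_mul _ (EG.const_mul _ ((nz b).mul (Fld.eg_mg hS
      (by rw [Finset.mem_Ico] at hk; omega) a))))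
  have nb : Nh (fun (z : ι → ℝ) x => z (zc (l + 1) b) * φ x a) :=
    Nh.mul (Nh.fst (nz b)) (Nh.snd fun x => φ x a)
  have e1 : (fun (z : ι → ℝ) (x : X) => (if zc (l + 1) b = zc (l + 1) a then (1 : ℝ) else 0) +
      z (zc (l + 1) b) * (s (l + 1) * φ x a -
      ∑ k ∈ Finset.Ico (l + 1) (S.K + 1), S.p k * (s (l + 1) * S.mg φ k a z))) =
      fun z x => (fun (_ : ι → ℝ) (_ : X) => if b = a then (1 : ℝ) else 0) z x +
        (fun (z : ι → ℝ) (x : X) => s (l + 1) * (z (zc (l + 1) b) * φ x a) -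
          ∑ k ∈ Finset.Ico (l + 1) (S.K + 1),
        S.p k * (s (l + 1) * (z (zc (l + 1) b) * S.mg φ k a z))) z x := by
    funext z x
    simp only [hinj.eq_iff]
    rw [mul_sub, Finset.mul_sum]
    congr 2
    · ring
    · refine Finset.sum_congr rfl fun k _ => ?_
      ring
  rw [e1, hS.T_add hl.le (Nh.fst (EG.const _)) (Nh.sub (Nh.const_mul _ nb) (Nh.sum _ nk)),
    hS.T_sub hl.le (Nh.const_mul _ nb) (Nh.sum _ nk), hS.T_sum hl.le _ nk, Sy.T_const_mul,
    hS.T_const hl.le]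
  have e : ∀ k ∈ Finset.Ico (l + 1) (S.K + 1),
      S.T l (fun z _ => S.p k * (s (l + 1) * (z (zc (l + 1) b) * S.mg φ k a z))) z =
        S.p k * (s (l + 1) * S.T l (fun z x => z (zc (l + 1) b) * φ x a) z) := by
    intro k hk
    rw [Finset.mem_Ico] at hk
    rw [Sy.T_const_mul, Sy.T_const_mul]
    congr 2
    exact T_dep_mul_mg F hS (by omega) (by omega) (nz b) (dep_coord F hl b) a z
  rw [Finset.sum_congr rfl e, ← Finset.sum_mul, sum_p hS hl.le, T_z_phi F hl b a z,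
    ch_comm S φ l b a z]
  ring

end resp

end Vale.Agent.P146.H785
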