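import Vale.Agent.P146.H785.Therm

set_option linter.all false

/-!
The quadratic form `M_l^T C_l M_l` by one integration by parts. With
`d_l = T_l (M_l.(M_{l+1} - M_l) / N)²`:
`M_l^T C_l M_l / N² ≤ d_l + (1 / m) √(d_l / (N s²))`, and
`E d_l ≤ (1/2) (E rho_{l+1}² - E rho_l²) + 2 (R_{l+1} - R_l)`.
-/

open MeasureTheory ProbabilityTheory Filter Topology

namespace Vale.Agent.P146.H785

open Vale.Agent.P157.Lv Vale.Agent.P157.Lv.Sy Vale.Agent.P146.H784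

variable {ι X : Type} [Fintype ι] [DecidableEq ι] [Fintype X] [DecidableEq X] [Nonempty X]
  {S : Sy ι X} {D : ι → (ι → ℝ) → X → ℝ} {N : ℕ} {φ : X → Fin N → ℝ} {zc : ℕ → Fin N → ι}
  {s : ℕ → ℝ}

omit [DecidableEq ι] [DecidableEq X] [Nonempty X] in
lemma T_congr_mix {l : ℕ} {h h' : (ι → ℝ) → X → ℝ} {z : ι → ℝ}
    (H : ∀ w x, h (mix S.lev l z w) x = h' (mix S.lev l z w) x) : S.T l h z = S.T l h' z := by
  unfold Sy.T J Sy.av
  simp only [H]

/-- `d_l = T_l (M_l.(M_{l+1} - M_l) / N)²` -/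
noncomputable def dl (S : Sy ι X) (φ : X → Fin N → ℝ) (l : ℕ) : (ι → ℝ) → ℝ :=
  S.T l (fun z _ => (1 / N * ∑ b, S.mg φ l b z * (S.mg φ (l + 1) b z - S.mg φ l b z)) ^ 2)

lemma nh_dl (hS : S.Reg) {l : ℕ} (hl : l < S.K) : Nh (X := X) (fun (z : ι → ℝ) _ =>
    (1 / (N : ℝ) * ∑ b, S.mg φ l b z * (S.mg φ (l + 1) b z - S.mg φ l b z)) ^ 2) :=
  Nh.fst ((EG.const_mul _ (EG.sum _ fun b _ => (Fld.eg_mg hS hl.le b).mul
    ((Fld.eg_mg hS hl b).sub (Fld.eg_mg hS hl.le b)))).pow 2)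

lemma eg_dl (hS : S.Reg) {l : ℕ} (hl : l < S.K) : EG (dl S φ l) := hS.eg_T hl.le (nh_dl hS hl)

lemma dl_nonneg (hS : S.Reg) {l : ℕ} (hl : l < S.K) (z : ι → ℝ) : 0 ≤ dl S φ l z := by
  have h0 := hS.T_mono hl.le (f := fun _ _ => (0 : ℝ)) (g := fun (z : ι → ℝ) _ =>
    (1 / (N : ℝ) * ∑ b, S.mg φ l b z * (S.mg φ (l + 1) b z - S.mg φ l b z)) ^ 2)
    (Nh.snd fun _ => 0) (nh_dl hS hl) (fun z _ => sq_nonneg _) z
  rwa [hS.T_const hl.le] at h0

/-- `a² ≤ d (1/(N s²) + m a)` implies `a ≤ √(d / (N s²)) + m d` -/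
lemma quad_le' {a A B : ℝ} (ha : 0 ≤ a) (hA : 0 ≤ A) (hB : 0 ≤ B) (h : a ^ 2 ≤ A + B * a) :
    a ≤ √A + B := by
  by_contra hc
  push Not at hc
  have h1 : √A ^ 2 = A := Real.sq_sqrt hA
  have h2 := Real.sqrt_nonneg A
  nlinarith [mul_nonneg h2 hB]

section main

variable (F : Fld S D φ zc s)

include F

/-- the linear test functions: the cross term -/
lemma lin_cross {l : ℕ} (hl : l < S.K) (u v : Fin N → ℝ) (z : ι → ℝ) :
    S.T l (fun z' _ => (∑ a, u a * (z' (zc (l + 1) a) - S.T l (fun z _ => z (zc (l + 1) a)) z)) *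
      (∑ b, v b * (S.mg φ (l + 1) b z' - S.mg φ l b z))) z =
      s (l + 1) * ∑ a, ∑ b, u a * v b * ch S φ l a b z := by
  have hS := F.hreg
  obtain ⟨τ, hτ⟩ : ∃ τ : Fin N → ℝ, τ = fun a => S.T l (fun z _ => z (zc (l + 1) a)) z := ⟨_, rfl⟩
  obtain ⟨μ, hμ⟩ : ∃ μ : Fin N → ℝ, μ = fun b => S.mg φ l b z := ⟨_, rfl⟩
  have e4 : ∀ a, S.T l (fun z _ => z (zc (l + 1) a)) z = τ a := fun a => by rw [hτ]
  have e6 : ∀ b, S.mg φ l b z = μ b := fun b => by rw [hμ]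
  have ez : ∀ a, EG (fun z : ι → ℝ => z (zc (l + 1) a)) := fun a => EG.coord _
  have em : ∀ b, EG (fun z : ι → ℝ => S.mg φ (l + 1) b z) := fun b => Fld.eg_mg hS hl b
  simp only [e4, e6]
  have e1 : (fun (z' : ι → ℝ) (_ : X) => (∑ a, u a * (z' (zc (l + 1) a) - τ a)) *
      (∑ b, v b * (S.mg φ (l + 1) b z' - μ b))) = fun z' x => ∑ a,
        (fun (z' : ι → ℝ) (x : X) => ∑ b, (u a * v b) * (fun (z' : ι → ℝ) (_ : X) =>
          (z' (zc (l + 1) a) - τ a) * (S.mg φ (l + 1) b z' - μ b)) z' x) z' x := by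
    funext z' _
    rw [Finset.sum_mul_sum]
    refine Finset.sum_congr rfl fun a _ => Finset.sum_congr rfl fun b _ => ?_
    ring
  have nn : ∀ a b, Nh (X := X) (fun (z' : ι → ℝ) (_ : X) =>
      (z' (zc (l + 1) a) - τ a) * (S.mg φ (l + 1) b z' - μ b)) := fun a b =>
    Nh.fst (((ez a).sub (EG.const _)).mul ((em b).sub (EG.const _)))
  rw [e1, hS.T_sum hl.le _ fun a _ => Nh.sum _ fun b _ => Nh.const_mul _ (nn a b),
    Finset.mul_sum]
  refine Finset.sum_congr rfl fun a _ => ?_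
  rw [hS.T_sum hl.le _ fun b _ => Nh.const_mul _ (nn a b), Finset.mul_sum]
  refine Finset.sum_congr rfl fun b _ => ?_
  rw [Sy.T_const_mul]
  have e2 : (fun (z : ι → ℝ) (_ : X) => (z (zc (l + 1) a) - τ a) *
          (S.mg φ (l + 1) b z - μ b)) = fun z x =>
        ((fun (z : ι → ℝ) (_ : X) => z (zc (l + 1) a) * S.mg φ (l + 1) b z) z x -
          (fun (z : ι → ℝ) (_ : X) => μ b * z (zc (l + 1) a)) z x) -
        ((fun (z : ι → ℝ) (_ : X) => τ a * S.mg φ (l + 1) b z) z x -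
          (fun (_ : ι → ℝ) (_ : X) => τ a * μ b) z x) := by
    funext z _
    ring
  rw [e2, hS.T_sub hl.le (Nh.sub (Nh.fst ((ez a).mul (em b))) (Nh.fst (EG.const_mul _ (ez a))))
      (Nh.sub (Nh.fst (EG.const_mul _ (em b))) (Nh.fst (EG.const _))),
    hS.T_sub hl.le (Nh.fst ((ez a).mul (em b))) (Nh.fst (EG.const_mul _ (ez a))),
    hS.T_sub hl.le (Nh.fst (EG.const_mul _ (em b))) (Nh.fst (EG.const _)), hS.T_const hl.le,
    Sy.T_const_mul S l (μ b) (fun z _ => z (zc (l + 1) a)),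
    Sy.T_const_mul S l (τ a) (fun z _ => S.mg φ (l + 1) b z)]
  have e3 : S.T l (fun z _ => S.mg φ (l + 1) b z) z = μ b := by
    rw [← e6]
    exact hS.T_T (Nat.le_succ l) hl (Nh.snd fun x => φ x b) z
  have e5 := cov_z_mg F hl a b z
  rw [e4, e6] at e5
  rw [e3, e4]
  linear_combination (u a * v b) * e5

/-- the linear test functions: the square -/
lemma lin_sq {l : ℕ} (hl : l < S.K) (hinj : Function.Injective (zc (l + 1))) (u : Fin N → ℝ)
    (z : ι → ℝ) :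
    S.T l (fun z' _ => (∑ a, u a *
        (z' (zc (l + 1) a) - S.T l (fun z _ => z (zc (l + 1) a)) z)) ^ 2) z =
      ∑ a, u a ^ 2 + S.m (l + 1) * s (l + 1) ^ 2 * ∑ a, ∑ b, u a * u b * ch S φ l a b z := by
  have hS := F.hreg
  obtain ⟨τ, hτ⟩ : ∃ τ : Fin N → ℝ, τ = fun a => S.T l (fun z _ => z (zc (l + 1) a)) z := ⟨_, rfl⟩
  have e4 : ∀ a, S.T l (fun z _ => z (zc (l + 1) a)) z = τ a := fun a => by rw [hτ]
  have ez : ∀ a, EG (fun z : ι → ℝ => z (zc (l + 1) a)) := fun a => EG.coord _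
  simp only [e4]
  have e1 : (fun (z' : ι → ℝ) (_ : X) => (∑ a, u a * (z' (zc (l + 1) a) - τ a)) ^ 2) =
      fun z' x => ∑ a, (fun (z' : ι → ℝ) (x : X) => ∑ b, (u a * u b) *
        (fun (z' : ι → ℝ) (_ : X) =>
          (z' (zc (l + 1) a) - τ a) * (z' (zc (l + 1) b) - τ b)) z' x) z' x := by
    funext z' _
    rw [sq, Finset.sum_mul_sum]
    refine Finset.sum_congr rfl fun a _ => Finset.sum_congr rfl fun b _ => ?_
    ring
  have nn : ∀ a b, Nh (X := X) (fun (z' : ι → ℝ) (_ : X) =>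
      (z' (zc (l + 1) a) - τ a) * (z' (zc (l + 1) b) - τ b)) := fun a b =>
    Nh.fst (((ez a).sub (EG.const _)).mul ((ez b).sub (EG.const _)))
  rw [e1, hS.T_sum hl.le _ fun a _ => Nh.sum _ fun b _ => Nh.const_mul _ (nn a b)]
  have k : ∀ a b, S.T l (fun (z' : ι → ℝ) (_ : X) =>
      (z' (zc (l + 1) a) - τ a) * (z' (zc (l + 1) b) - τ b)) z = (if b = a then 1 else 0) +
        S.m (l + 1) * s (l + 1) ^ 2 * ch S φ l a b z := by
    intro a a'
    have e2 : (fun (z : ι → ℝ) (_ : X) => (z (zc (l + 1) a) - τ a) *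
            (z (zc (l + 1) a') - τ a')) = fun z x =>
          ((fun (z : ι → ℝ) (_ : X) => z (zc (l + 1) a) * z (zc (l + 1) a')) z x -
            (fun (z : ι → ℝ) (_ : X) => τ a' * z (zc (l + 1) a)) z x) -
          ((fun (z : ι → ℝ) (_ : X) => τ a * z (zc (l + 1) a')) z x -
            (fun (_ : ι → ℝ) (_ : X) => τ a * τ a') z x) := by
      funext z _
      ring
    rw [e2, hS.T_sub hl.le (Nh.sub (Nh.fst ((ez a).mul (ez a'))) (Nh.fst (EG.const_mul _ (ez a))))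
        (Nh.sub (Nh.fst (EG.const_mul _ (ez a'))) (Nh.fst (EG.const _))),
      hS.T_sub hl.le (Nh.fst ((ez a).mul (ez a'))) (Nh.fst (EG.const_mul _ (ez a))),
      hS.T_sub hl.le (Nh.fst (EG.const_mul _ (ez a'))) (Nh.fst (EG.const _)), hS.T_const hl.le,
      Sy.T_const_mul S l (τ a') (fun z _ => z (zc (l + 1) a)),
      Sy.T_const_mul S l (τ a) (fun z _ => z (zc (l + 1) a'))]
    have e5 := cov_z_z F hl hinj a a' z
    rw [e4, e4] at e5
    rw [e4, e4]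
    linear_combination e5
  have k2 : ∀ a, S.T l (fun (z' : ι → ℝ) (x : X) => ∑ b, (u a * u b) *
        (fun (z' : ι → ℝ) (_ : X) =>
          (z' (zc (l + 1) a) - τ a) * (z' (zc (l + 1) b) - τ b)) z' x) z =
      u a ^ 2 + ∑ b, S.m (l + 1) * s (l + 1) ^ 2 * (u a * u b * ch S φ l a b z) := by
    intro a
    rw [hS.T_sum hl.le _ fun b _ => Nh.const_mul _ (nn a b)]
    have k3 : ∀ b ∈ (Finset.univ : Finset (Fin N)), S.T l (fun (z' : ι → ℝ) (x : X) =>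
        (u a * u b) * (fun (z' : ι → ℝ) (_ : X) =>
          (z' (zc (l + 1) a) - τ a) * (z' (zc (l + 1) b) - τ b)) z' x) z =
        (if b = a then u a * u b else 0) +
          S.m (l + 1) * s (l + 1) ^ 2 * (u a * u b * ch S φ l a b z) := by
      intro b _
      rw [Sy.T_const_mul, k a b]
      by_cases hb : b = a
      · rw [if_pos hb, if_pos hb]; ring
      · rw [if_neg hb, if_neg hb]; ring
    rw [Finset.sum_congr rfl k3, Finset.sum_add_distrib]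
    congr 1
    simp
    ring
  rw [Finset.sum_congr rfl fun a _ => k2 a, Finset.sum_add_distrib, Finset.mul_sum]
  congr 1
  refine Finset.sum_congr rfl fun a _ => ?_
  rw [← Finset.mul_sum]

/-- **THE QUADRATIC FORM**: `chi_l` -/
theorem chQ_le {l : ℕ} (hl : l < S.K) (hinj : Function.Injective (zc (l + 1)))
    (hs : 0 < s (l + 1)) (z : ι → ℝ) :
    1 / N ^ 2 * (∑ a, ∑ b, S.mg φ l a z * S.mg φ l b z * ch S φ l a b z) ≤
      √(dl S φ l z / (N * s (l + 1) ^ 2)) + S.m (l + 1) * dl S φ l z := by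
  have hS := F.hreg
  have hN := F.N_pos
  have hm : 0 < S.m (l + 1) := hS.m_pos (by omega) (by omega)
  obtain ⟨μ, hμ⟩ : ∃ μ : Fin N → ℝ, μ = fun b => S.mg φ l b z := ⟨_, rfl⟩
  have e6 : ∀ b, S.mg φ l b z = μ b := fun b => by rw [hμ]
  obtain ⟨τ, hτ⟩ : ∃ τ : Fin N → ℝ, τ = fun a => S.T l (fun z _ => z (zc (l + 1) a)) z := ⟨_, rfl⟩
  have e4 : ∀ a, S.T l (fun z _ => z (zc (l + 1) a)) z = τ a := fun a => by rw [hτ]
  obtain ⟨Q, hQ⟩ : ∃ Q, Q = ∑ a, ∑ b, μ a * μ b * ch S φ l a b z := ⟨_, rfl⟩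
  have k1 := lin_cross F hl μ μ z
  have k2 := lin_sq F hl hinj μ z
  simp only [e4, e6] at k1 k2
  simp only [e6]
  rw [← hQ] at k1 k2 ⊢
  have ez : ∀ a, EG (fun z : ι → ℝ => z (zc (l + 1) a)) := fun a => EG.coord _
  have em : ∀ b, EG (fun z : ι → ℝ => S.mg φ (l + 1) b z) := fun b => Fld.eg_mg hS hl b
  obtain ⟨f, hf⟩ : ∃ f : (ι → ℝ) → ℝ, f = fun z' => ∑ a, μ a * (z' (zc (l + 1) a) - τ a) :=
    ⟨_, rfl⟩
  obtain ⟨g, hg⟩ : ∃ g : (ι → ℝ) → ℝ, g = fun z' => ∑ b, μ b * (S.mg φ (l + 1) b z' - μ b) :=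
    ⟨_, rfl⟩
  have ef : EG f := by
    rw [hf]; exact EG.sum _ fun a _ => EG.const_mul _ ((ez a).sub (EG.const _))
  have eg : EG g := by
    rw [hg]; exact EG.sum _ fun a _ => EG.const_mul _ ((em a).sub (EG.const _))
  have k1' : S.T l (fun z' _ => f z' * g z') z = s (l + 1) * Q := by rw [hf, hg]; exact k1
  have k2' : S.T l (fun z' _ => f z' ^ 2) z = ∑ a, μ a ^ 2 + S.m (l + 1) * s (l + 1) ^ 2 * Q := by
    rw [hf]; exact k2
  have k3 : S.T l (fun z' _ => g z' ^ 2) z = N ^ 2 * dl S φ l z := by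
    have h1 : dl S φ l z = S.T l (fun z' _ => (1 / (N : ℝ) * g z') ^ 2) z := by
      refine T_congr_mix fun w x => ?_
      have h2 : ∀ b, S.mg φ l b (mix S.lev l z w) = μ b := fun b => by
        rw [Fld.dep_mg S φ l b z w, e6]
      simp only [h2, hg]
    have h3 : (fun (z' : ι → ℝ) (_ : X) => (1 / (N : ℝ) * g z') ^ 2) =
        fun z' x => 1 / (N : ℝ) ^ 2 * (fun (z' : ι → ℝ) (_ : X) => g z' ^ 2) z' x := by
      funext z' _
      ring
    rw [h1, h3, Sy.T_const_mul]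
    field_simp
  have q : ∀ t : ℝ, 0 ≤ t ^ 2 * (∑ a, μ a ^ 2 + S.m (l + 1) * s (l + 1) ^ 2 * Q) -
      2 * t * (s (l + 1) * Q) + N ^ 2 * dl S φ l z := by
    intro t
    have h0 := hS.T_mono hl.le (f := fun _ _ => (0 : ℝ))
      (g := fun (z : ι → ℝ) (_ : X) => (t * f z - g z) ^ 2) (Nh.snd fun _ => 0)
      (Nh.fst (((EG.const_mul t ef).sub eg).pow 2)) (fun z y => sq_nonneg _) z
    rw [hS.T_const hl.le] at h0
    have e2 : (fun (z : ι → ℝ) (_ : X) => (t * f z - g z) ^ 2) = fun z x =>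
        ((fun (z : ι → ℝ) (_ : X) => t ^ 2 * f z ^ 2) z x -
          (fun (z : ι → ℝ) (_ : X) => 2 * t * (f z * g z)) z x) +
          (fun (z : ι → ℝ) (_ : X) => g z ^ 2) z x := by
      funext z _
      ring
    rw [e2, hS.T_add hl.le (Nh.sub (Nh.fst (EG.const_mul _ (ef.pow 2)))
        (Nh.fst (EG.const_mul _ (ef.mul eg)))) (Nh.fst (eg.pow 2)),
      hS.T_sub hl.le (Nh.fst (EG.const_mul _ (ef.pow 2))) (Nh.fst (EG.const_mul _ (ef.mul eg))),
      Sy.T_const_mul S l (t ^ 2) (fun z _ => f z ^ 2),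
      Sy.T_const_mul S l (2 * t) (fun z _ => f z * g z), k1', k2', k3] at h0
    exact h0
  have hmu : ∑ a, μ a ^ 2 ≤ N := by
    have h1 := rho_le_one' F hl.le z
    unfold rho at h1
    simp only [e6] at h1
    rw [one_div, inv_mul_le_iff₀ hN] at h1
    linarith
  have hd := dl_nonneg (φ := φ) hS hl z
  -- discriminant
  by_cases hQ0 : Q ≤ 0
  · have h1 : 1 / (N : ℝ) ^ 2 * Q ≤ 0 := mul_nonpos_of_nonneg_of_nonpos (by positivity) hQ0
    have h2 : 0 ≤ √(dl S φ l z / (N * s (l + 1) ^ 2)) + S.m (l + 1) * dl S φ l z := by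
      positivity
    linarith
  push Not at hQ0
  obtain ⟨G, hG⟩ : ∃ G, G = (N : ℝ) + S.m (l + 1) * s (l + 1) ^ 2 * Q := ⟨_, rfl⟩
  have hG0 : 0 < G := by rw [hG]; positivity
  have h1 := q (s (l + 1) * Q / G)
  have h2 : (s (l + 1) * Q / G) ^ 2 * (∑ a, μ a ^ 2 + S.m (l + 1) * s (l + 1) ^ 2 * Q) ≤
      (s (l + 1) * Q / G) ^ 2 * G := by
    refine mul_le_mul_of_nonneg_left ?_ (by positivity)
    rw [hG]; linarith
  have h3 : (s (l + 1) * Q / G) ^ 2 * G = (s (l + 1) * Q) ^ 2 / G := by field_simp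
  have h4 : 2 * (s (l + 1) * Q / G) * (s (l + 1) * Q) = 2 * ((s (l + 1) * Q) ^ 2 / G) := by ring
  rw [h3] at h2
  rw [h4] at h1
  have h5 : (s (l + 1) * Q) ^ 2 / G ≤ N ^ 2 * dl S φ l z := by linarith
  rw [div_le_iff₀ hG0, hG] at h5
  obtain ⟨a, ha⟩ : ∃ a, a = 1 / (N : ℝ) ^ 2 * Q := ⟨_, rfl⟩
  have hQa : Q = N ^ 2 * a := by rw [ha]; field_simp
  rw [← ha]
  have ha0 : 0 ≤ a := by rw [ha]; positivity
  refine quad_le' ha0 (by positivity) (by positivity) ?_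
  rw [hQa] at h5
  have h6 : a ^ 2 = (s (l + 1) * (N ^ 2 * a)) ^ 2 / (s (l + 1) ^ 2 * N ^ 4) := by field_simp
  rw [h6, div_le_iff₀ (by positivity)]
  refine h5.trans (le_of_eq ?_)
  field_simp

/-- **THE QUADRATIC FORM**: `C_l` -/
theorem Qf_mg_le {l : ℕ} (hl : l < S.K) (hinj : Function.Injective (zc (l + 1)))
    (hs : 0 < s (l + 1)) (z : ι → ℝ) :
    1 / N ^ 2 * Qf S φ l (S.mg φ l) z ≤
      dl S φ l z + 1 / S.m (l + 1) * √(dl S φ l z / (N * s (l + 1) ^ 2)) := by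
  have hS := F.hreg
  have hN := F.N_pos
  have hm : 0 < S.m (l + 1) := hS.m_pos (by omega) (by omega)
  have h1 := chQ_le F hl hinj hs z
  have h2 : S.m (l + 1) * Qf S φ l (S.mg φ l) z ≤
      ∑ a, ∑ b, S.mg φ l a z * S.mg φ l b z * ch S φ l a b z := by
    obtain ⟨v, hv⟩ : ∃ v : Fin N → ℝ, v = fun b => S.mg φ l b z := ⟨_, rfl⟩
    have e : ∑ a, ∑ b, S.mg φ l a z * S.mg φ l b z * ch S φ l a b z =
        S.m (l + 1) * Qf S φ l (S.mg φ l) z +
        ∑ k ∈ Finset.Ico (l + 1) (S.K + 1), S.p k *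
        ∑ a, ∑ b, v a * v b * S.T l (fun z _ => cv S φ k a b z) z := by
      unfold Qf
      simp only [fun a b => ch_eq (φ := φ) hS hl.le a b z, hv]
      simp_rw [mul_add, Finset.sum_add_distrib, Finset.mul_sum]
      congr 1
      · refine Finset.sum_congr rfl fun a _ => Finset.sum_congr rfl fun b _ => ?_
        ring
      · symm
        rw [Finset.sum_comm]
        refine Finset.sum_congr rfl fun a _ => ?_
        rw [Finset.sum_comm]
        refine Finset.sum_congr rfl fun b _ => Finset.sum_congr rfl fun k _ => ?_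
        ring
    rw [e, le_add_iff_nonneg_right]
    refine Finset.sum_nonneg fun k hk => ?_
    rw [Finset.mem_Ico] at hk
    refine mul_nonneg ?_ (T_cv_psd hS (by omega) (by omega) z v)
    have := hS.mono k (by omega)
    unfold Sy.p
    linarith
  have h3 : 1 / (N : ℝ) ^ 2 * (S.m (l + 1) * Qf S φ l (S.mg φ l) z) ≤
      √(dl S φ l z / (N * s (l + 1) ^ 2)) + S.m (l + 1) * dl S φ l z :=
    (mul_le_mul_of_nonneg_left h2 (by positivity)).trans h1
  have h4 : 1 / (N : ℝ) ^ 2 * Qf S φ l (S.mg φ l) z =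
      1 / S.m (l + 1) * (1 / (N : ℝ) ^ 2 * (S.m (l + 1) * Qf S φ l (S.mg φ l) z)) := by
    field_simp
  rw [h4]
  refine (mul_le_mul_of_nonneg_left h3 (by positivity)).trans (le_of_eq ?_)
  field_simp
  ring

/-- `E (rho_{l+1} - rho_l)² ≤ E rho_{l+1}² - E rho_l²` -/
theorem Ex_rho_incr_le {l : ℕ} (hl : l < S.K) :
    S.Ex (fun z _ => (rho S φ (l + 1) z - rho S φ l z) ^ 2) ≤
      S.Ex (fun z _ => rho S φ (l + 1) z ^ 2) - S.Ex (fun z _ => rho S φ l z ^ 2) := by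
  have hS := F.hreg
  have e1 : EG (rho S φ (l + 1)) := eg_rho hS hl
  have e0 : EG (rho S φ l) := eg_rho hS hl.le
  have h1 : S.Ex (fun z _ => rho S φ l z * wl S φ l z) =
      S.Ex (fun z _ => rho S φ l z * rho S φ (l + 1) z) - S.Ex (fun z _ => rho S φ l z ^ 2) := by
    have e2 : (fun (z : ι → ℝ) (_ : X) => rho S φ l z * wl S φ l z) = fun z x =>
        (fun (z : ι → ℝ) (_ : X) => rho S φ l z *
          S.T l (fun z _ => rho S φ (l + 1) z) z) z x -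
        (fun (z : ι → ℝ) (_ : X) => rho S φ l z ^ 2) z x := by
      funext z _
      unfold wl
      ring
    rw [e2, hS.Ex_sub (Nh.fst (e0.mul (hS.eg_T hl.le (Nh.fst e1)))) (Nh.fst (e0.pow 2)),
      hS.Ex_mul_T hl.le (dep_rho S φ l) e0 (Nh.fst e1)]
  have h2 : 0 ≤ S.Ex (fun z _ => rho S φ l z * wl S φ l z) := by
    have h3 := hS.Ex_mono (f := fun _ _ => 0) (g := fun z _ => rho S φ l z * wl S φ l z)
      (fun _ => EG.const _) (Nh.fst (e0.mul (eg_wl hS hl)))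
      (fun z x => mul_nonneg (rho_nonneg' F z) (wl_nonneg hS hl z))
    rwa [hS.Ex_const] at h3
  have e3 : (fun (z : ι → ℝ) (_ : X) => (rho S φ (l + 1) z - rho S φ l z) ^ 2) = fun z x =>
      ((fun (z : ι → ℝ) (_ : X) => rho S φ (l + 1) z ^ 2) z x -
        (fun (z : ι → ℝ) (_ : X) => 2 * (rho S φ l z * rho S φ (l + 1) z)) z x) +
        (fun (z : ι → ℝ) (_ : X) => rho S φ l z ^ 2) z x := by
    funext z _
    ring
  rw [e3, hS.Ex_add (Nh.sub (Nh.fst (e1.pow 2)) (Nh.fst (EG.const_mul _ (e0.mul e1))))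
      (Nh.fst (e0.pow 2)),
    hS.Ex_sub (Nh.fst (e1.pow 2)) (Nh.fst (EG.const_mul _ (e0.mul e1))),
    Sy.Ex_const_mul S 2 (fun z _ => rho S φ l z * rho S φ (l + 1) z)]
  linarith

/-- the mean of `d_l` -/
theorem Ex_dl_le {l : ℕ} (hl : l < S.K) :
    S.Ex (fun z _ => dl S φ l z) ≤
      1 / 2 * (S.Ex (fun z _ => rho S φ (l + 1) z ^ 2) - S.Ex (fun z _ => rho S φ l z ^ 2)) +
        2 * (S.Rl φ (l + 1) - S.Rl φ l) := by
  have hS := F.hreg
  have hN := F.N_pos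
  have e1 : EG (rho S φ (l + 1)) := eg_rho hS hl
  have e0 : EG (rho S φ l) := eg_rho hS hl.le
  have m1 : ∀ b, EG (S.mg φ (l + 1) b) := fun b => Fld.eg_mg hS hl b
  have m0 : ∀ b, EG (S.mg φ l b) := fun b => Fld.eg_mg hS hl.le b
  have eD : EG (fun z => ∑ i, (S.mg φ (l + 1) i z - S.mg φ l i z) ^ 2) :=
    EG.sum _ fun i _ => ((m1 i).sub (m0 i)).pow 2
  have h1 : S.Ex (fun z _ => dl S φ l z) = S.Ex (fun z _ =>
      (1 / (N : ℝ) * ∑ b, S.mg φ l b z * (S.mg φ (l + 1) b z - S.mg φ l b z)) ^ 2) :=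
    hS.Ex_T hl.le (nh_dl hS hl)
  have h2 := Ex_rho_incr_le F hl
  have h3 := F.Rl_sub hl
  rw [h1, ← h3]
  have h4 := hS.Ex_mono (f := fun z _ =>
      (1 / (N : ℝ) * ∑ b, S.mg φ l b z * (S.mg φ (l + 1) b z - S.mg φ l b z)) ^ 2)
    (g := fun z x => (fun (z : ι → ℝ) (_ : X) =>
        1 / 2 * (rho S φ (l + 1) z - rho S φ l z) ^ 2) z x +
      (fun (z : ι → ℝ) (_ : X) => 2 / (N : ℝ) *
        ∑ i, (S.mg φ (l + 1) i z - S.mg φ l i z) ^ 2) z x)
    (nh_dl hS hl) (Nh.add (Nh.fst (EG.const_mul _ ((e1.sub e0).pow 2)))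
      (Nh.fst (EG.const_mul _ eD)))
    (fun z _ => by
      show (1 / (N : ℝ) * ∑ b, S.mg φ l b z * (S.mg φ (l + 1) b z - S.mg φ l b z)) ^ 2 ≤
        1 / 2 * (rho S φ (l + 1) z - rho S φ l z) ^ 2 +
          2 / (N : ℝ) * ∑ i, (S.mg φ (l + 1) i z - S.mg φ l i z) ^ 2
      obtain ⟨q, hq⟩ : ∃ q, q = 1 / (N : ℝ) * ∑ i, (S.mg φ (l + 1) i z - S.mg φ l i z) ^ 2 :=
        ⟨_, rfl⟩
      have k1 : 1 / (N : ℝ) * ∑ b, S.mg φ l b z * (S.mg φ (l + 1) b z - S.mg φ l b z) =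
          1 / 2 * ((rho S φ (l + 1) z - rho S φ l z) - q) := by
        have e5 : ∑ i, (S.mg φ (l + 1) i z - S.mg φ l i z) ^ 2 =
            ∑ i, S.mg φ (l + 1) i z ^ 2 - ∑ i, S.mg φ l i z ^ 2 -
              2 * ∑ b, S.mg φ l b z * (S.mg φ (l + 1) b z - S.mg φ l b z) := by
          rw [Finset.mul_sum, ← Finset.sum_sub_distrib, ← Finset.sum_sub_distrib]
          refine Finset.sum_congr rfl fun i _ => ?_
          ring
        rw [hq, e5]
        unfold rho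
        ring
      have k2 : 0 ≤ q := by rw [hq]; positivity
      have k3 : q ≤ 4 := by
        have q1 := rho_le_one' F (l := l + 1) hl z
        have q0 := rho_le_one' F hl.le z
        have q4 : ∑ i, (S.mg φ (l + 1) i z - S.mg φ l i z) ^ 2 ≤
            2 * ∑ i, S.mg φ (l + 1) i z ^ 2 + 2 * ∑ i, S.mg φ l i z ^ 2 := by
          rw [Finset.mul_sum, Finset.mul_sum, ← Finset.sum_add_distrib]
          refine Finset.sum_le_sum fun a _ => ?_
          nlinarith [sq_nonneg (S.mg φ (l + 1) a z + S.mg φ l a z)]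
        have q5 := mul_le_mul_of_nonneg_left q4 (by positivity : 0 ≤ 1 / (N : ℝ))
        rw [← hq] at q5
        have e : 1 / (N : ℝ) * (2 * ∑ i, S.mg φ (l + 1) i z ^ 2 + 2 * ∑ i, S.mg φ l i z ^ 2) =
          2 * rho S φ (l + 1) z + 2 * rho S φ l z := by
          unfold rho
          ring
        rw [e] at q5
        linarith
      have k4 : 2 / (N : ℝ) * ∑ i, (S.mg φ (l + 1) i z - S.mg φ l i z) ^ 2 = 2 * q := by
        rw [hq]; ring
      rw [k1, k4]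
      nlinarith [sq_nonneg ((rho S φ (l + 1) z - rho S φ l z) + q)])
  rw [hS.Ex_add (Nh.fst (EG.const_mul _ ((e1.sub e0).pow 2))) (Nh.fst (EG.const_mul _ eD)),
    Sy.Ex_const_mul S (1 / 2) (fun z _ => (rho S φ (l + 1) z - rho S φ l z) ^ 2),
    Sy.Ex_const_mul S (2 / (N : ℝ)) (fun z _ =>
      ∑ i, (S.mg φ (l + 1) i z - S.mg φ l i z) ^ 2)] at h4
  have e7 : 2 * (1 / (N : ℝ) * S.Ex (fun z _ => ∑ i, (S.mg φ (l + 1) i z - S.mg φ l i z) ^ 2)) =
      2 / (N : ℝ) * S.Ex (fun z _ => ∑ i, (S.mg φ (l + 1) i z - S.mg φ l i z) ^ 2) := by ring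
  rw [e7]
  linarith

/-- the mean of a square root -/
lemma Ex_sqrt_le (hS : S.Reg) {f : (ι → ℝ) → ℝ} (hf : EG f) (h0 : ∀ z, 0 ≤ f z) :
    S.Ex (fun z _ => √(f z)) ≤ √(S.Ex (fun z _ => f z)) := by
  have es : EG (fun z => √(f z)) := by
    refine (hf.add (EG.const 1)).mono hf.meas.sqrt fun z => ?_
    rw [abs_of_nonneg (Real.sqrt_nonneg _), abs_of_nonneg (by have := h0 z; linarith)]
    rw [Real.sqrt_le_left (by have := h0 z; linarith)]
    nlinarith [h0 z]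
  refine Real.le_sqrt_of_sq_le ?_
  have h1 := hS.Ex_cs (Nh.fst (X := X) es) (Nh.fst (X := X) (EG.const (1 : ℝ)))
  simp only [mul_one, one_pow, hS.Ex_const] at h1
  refine h1.trans (le_of_eq ?_)
  congr 1
  funext z _
  exact Real.sq_sqrt (h0 z)

/-- **THE VARIANCE OF THE OVERLAP** (S1 + S1'): only `Var rho_l` remains. -/
theorem pair_var_thermal {l : ℕ} (hl : l < S.K) (hinj : Function.Injective (zc (l + 1)))
    (hs : 0 < s (l + 1)) {Dl : ℝ}
    (hD : 1 / 2 * (S.Ex (fun z _ => rho S φ (l + 1) z ^ 2) - S.Ex (fun z _ => rho S φ l z ^ 2)) +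
        2 * (S.Rl φ (l + 1) - S.Rl φ l) ≤ Dl) :
    S.pairEx l (fun x x' => Rov φ x x' ^ 2) - S.Rl φ l ^ 2 ≤
      (2 / (N * s (l + 1) ^ 2 * S.m (l + 1) ^ 2) + 1) * (S.Rl φ (l + 1) - S.Rl φ l) +
        2 * Dl + 2 / S.m (l + 1) * √(Dl / (N * s (l + 1) ^ 2)) +
        vr S (fun z _ => rho S φ l z) := by
  have hS := F.hreg
  have hN := F.N_pos
  have hm : 0 < S.m (l + 1) := hS.m_pos (by omega) (by omega)
  have ed := eg_dl (φ := φ) hS hl
  have em : ∀ a, EG (S.mg φ l a) := fun a => Fld.eg_mg hS hl.le a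
  have k1 := pair_var_eq F hl.le
  have k2 := Ex_cvN_le' F hl hinj hs
  have k3 := (Ex_dl_le F hl).trans hD
  obtain ⟨f, hf⟩ : ∃ f : (ι → ℝ) → ℝ, f = fun z => dl S φ l z / (N * s (l + 1) ^ 2) := ⟨_, rfl⟩
  have ef : EG f := by
    rw [hf]
    have := EG.const_mul (1 / (N * s (l + 1) ^ 2)) ed
    refine this.mono (ed.meas.div_const _) fun z => le_of_eq ?_
    congr 1
    ring
  have hf0 : ∀ z, 0 ≤ f z := fun z => by
    rw [hf]
    have := dl_nonneg (φ := φ) hS hl z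
    positivity
  have es : EG (fun z => √(f z)) := by
    refine (ef.add (EG.const 1)).mono ef.meas.sqrt fun z => ?_
    rw [abs_of_nonneg (Real.sqrt_nonneg _), abs_of_nonneg (by have := hf0 z; linarith)]
    rw [Real.sqrt_le_left (by have := hf0 z; linarith)]
    nlinarith [hf0 z]
  have k4 := Ex_sqrt_le F hS ef hf0
  have k5 : S.Ex (fun z _ => f z) = S.Ex (fun z _ => dl S φ l z) / (N * s (l + 1) ^ 2) := by
    have e : (fun (z : ι → ℝ) (_ : X) => f z) =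
        fun z x => 1 / (N * s (l + 1) ^ 2) * (fun (z : ι → ℝ) (_ : X) => dl S φ l z) z x := by
      funext z _
      rw [hf]
      ring
    rw [e, Sy.Ex_const_mul]
    ring
  have k6 : 1 / (N : ℝ) ^ 2 * S.Ex (fun z _ => Qf S φ l (S.mg φ l) z) ≤
      S.Ex (fun z _ => dl S φ l z) + 1 / S.m (l + 1) * S.Ex (fun z _ => √(f z)) := by
    rw [← Sy.Ex_const_mul, ← Sy.Ex_const_mul, ← hS.Ex_add (Nh.fst ed)
      (Nh.fst (EG.const_mul _ es))]
    refine hS.Ex_mono (Nh.fst (EG.const_mul _ (eg_Qf hS hl.le em)))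
      (Nh.fst (ed.add (EG.const_mul _ es))) fun z _ => ?_
    rw [hf]
    exact Qf_mg_le F hl hinj hs z
  have k7 : √(S.Ex (fun z _ => f z)) ≤ √(Dl / (N * s (l + 1) ^ 2)) := by
    rw [k5]
    exact Real.sqrt_le_sqrt (div_le_div_of_nonneg_right k3 (by positivity))
  have k8 : 1 / S.m (l + 1) * S.Ex (fun z _ => √(f z)) ≤
      1 / S.m (l + 1) * √(Dl / (N * s (l + 1) ^ 2)) :=
    mul_le_mul_of_nonneg_left (k4.trans k7) (by positivity)
  have e8 : 2 / S.m (l + 1) * √(Dl / (N * s (l + 1) ^ 2)) =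
      2 * (1 / S.m (l + 1) * √(Dl / (N * s (l + 1) ^ 2))) := by ring
  rw [e8, k1]
  linarith

end main

end Vale.Agent.P146.H785
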