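import Vale.Agent.P146.H785.Growth
import Vale.Agent.P146.H713.Ftc
import Vale.Agent.P146.H713.SkC2
import Vale.Agent.P146.H640.R1t
import Vale.Agent.P146.H332.M0

/-!
The rows `(star)` and `(FTC)` of the plan R1 in the form used by the block F, and the sign of the
scalar products of gradients for the SK model.
-/

open MeasureTheory ProbabilityTheory

namespace Vale.Agent.P146.H785

open Vale.Agent.P157.Lv Vale.Agent.P146.H425 Vale.Agent.P146.R1

set_option linter.unusedSectionVars false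

section

variable {κ : Type} [Fintype κ] [DecidableEq κ] {F : (κ → ℝ) → ℝ} {D : κ → (κ → ℝ) → ℝ}
  {H HT : κ → κ → (κ → ℝ) → ℝ} {B L M x θ t0 t1 s T C : ℝ}

/-- **The growth inequality at every time, for `θ ≤ 1 / 64`.** -/
theorem star_at (hS : Sm F D B L H HT M) (hc : Cv F) (hx : 0 < x) (h0 : 0 ≤ t0) (h01 : t0 ≤ t1)
    (h1 : t1 ≤ s) (hs0 : 0 < s) (hs : s ≤ 1) (hθ : 0 ≤ θ) (hθ1 : θ ≤ 1 / 64) (hC0 : 0 ≤ C)
    (hK : ∀ y y', -C ≤ ∑ e, D e y * D e y') (hQ : C ≤ Qt x θ t0 t1 s F D) :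
    5 / 32 * Qt x θ t0 t1 s F D ^ 2 / GG (2 * x) F D ≤ Qt x θ t0 t1 s F D / s +
      Et x θ t0 t1 s F (fun _ _ z2 => hq x s F D H z2) := by
  have k1 := Lth_bd (θ := θ) hS.c11 hc hx h0 h01 (h1.trans hs) hθ (by linarith)
  have k2 := Lth_bd (θ := 2 * θ) hS.c11 hc hx h0 h01 (h1.trans hs) (by linarith) (by linarith)
  have hG : 0 ≤ x ^ 2 * GG (2 * x) F D := by
    have : 0 ≤ GG (2 * x) F D := intervalIntegral.integral_nonneg zero_le_one fun t ht =>
      (Phi_bd hS.c11 (by positivity) ht).1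
    positivity
  refine star (hS.c2 hc) hc hx h0 h01 h1 hs0 hs hθ hC0 hK k1.1 ?_ ?_
  · refine k2.2.trans (mul_le_mul_of_nonneg_right (by linarith) hG)
  · have hQ0 : 0 ≤ Qt x θ t0 t1 s F D := hC0.trans hQ
    nlinarith

/-- The four fields of `Rate`. -/
theorem rate_fields (hS : Sm F D B L H HT M) (hc : Cv F) (hC0 : 0 ≤ C)
    (hK : ∀ y y', -C ≤ ∑ e, D e y * D e y') (hx : 0 < x) (hθ : 0 ≤ θ) (hθ1 : θ ≤ 1 / 64)
    (hT : 0 < T) (hT1 : T ≤ 1) :
    ContinuousOn (fun s => Qt x θ (1 - T) (1 - T / 2) s F D)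
      (Set.Icc (1 - T / 2) (1 - T / 4)) ∧
    (∀ s ∈ Set.Ioo (1 - T / 2) (1 - T / 4),
      HasDerivAt (fun s => Qt x θ (1 - T) (1 - T / 2) s F D)
        (Et x θ (1 - T) (1 - T / 2) s F (fun _ _ z2 => hq x s F D H z2)) s) ∧
    (∀ s ∈ Set.Ioo (1 - T / 2) (1 - T / 4),
      0 ≤ Et x θ (1 - T) (1 - T / 2) s F (fun _ _ z2 => hq x s F D H z2)) ∧
    ∀ s ∈ Set.Ioo (1 - T / 2) (1 - T / 4), C ≤ Qt x θ (1 - T) (1 - T / 2) s F D →
      5 / 32 * Qt x θ (1 - T) (1 - T / 2) s F D ^ 2 / GG (2 * x) F D ≤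
        Qt x θ (1 - T) (1 - T / 2) s F D / s +
          Et x θ (1 - T) (1 - T / 2) s F (fun _ _ z2 => hq x s F D H z2) := by
  refine ⟨?_, fun s hs => ?_, fun s hs => ?_, fun s hs hQ => ?_⟩
  · refine (Qt_cont hS hx θ (1 - T) (by linarith)).mono fun s hs => ?_
    exact ⟨hs.1, hs.2.trans (by linarith)⟩
  · exact Qt_deriv hS hx θ (1 - T) (s := s) ⟨hs.1, hs.2.trans (by linarith)⟩
  · exact Ht_nonneg hS hx θ (1 - T) (1 - T / 2) s
  · exact star_at hS hc hx (by linarith) (by linarith) hs.1.le (by linarith [hs.1])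
      (by linarith [hs.2]) hθ hθ1 hC0 hK hQ

end

end Vale.Agent.P146.H785

/-! ### the SK model -/

namespace Vale.Agent.P146.R1

open Vale.Agent.P157.Lv Vale.Agent.P146.H425 Vale.Agent.P146.H325 Vale.Agent.P146.H332

set_option linter.unusedSectionVars false

variable {ι : Type} [Fintype ι] [DecidableEq ι] {X : Type} [Fintype X] [Nonempty X]
  {k : ℝ} {S : ι → X → ℝ}

lemma av_ge {h : X → ℝ} {c : ℝ} (hc : ∀ x, c ≤ h x) (u : ι → ℝ) : c ≤ H325.av k S h u := by
  unfold H325.av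
  rw [le_div_iff₀ (Zp_pos k S u)]
  unfold Zp
  rw [Finset.mul_sum]
  refine Finset.sum_le_sum fun x _ => ?_
  rw [mul_comm]
  exact mul_le_mul_of_nonneg_left (hc x) (ez_pos k S u x).le

lemma av_lin {J : Type*} (s : Finset J) (a : J → ℝ) (f : J → X → ℝ) (u : ι → ℝ) :
    H325.av k S (fun x => ∑ e ∈ s, a e * f e x) u = ∑ e ∈ s, a e * H325.av k S (f e) u := by
  unfold H325.av
  simp_rw [Finset.mul_sum]
  rw [Finset.sum_comm, Finset.sum_div]
  refine Finset.sum_congr rfl fun e _ => ?_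
  rw [← mul_div_assoc, Finset.mul_sum]
  congr 1
  exact Finset.sum_congr rfl fun x _ => by ring

variable {n : ℕ}

/-- The overlap form of the sum over the couplings. -/
lemma sum_SkS (σ τ : Fin n → ℤˣ) :
    ∑ e : Pair n, SkS e σ * SkS e τ = ((∑ i, H325.sp σ i * H325.sp τ i) ^ 2 - n) / 2 := by
  have h1 := sum_pairs (fun i j : Fin n => if i = j then 0 else pr i j σ * pr i j τ)
    (fun p q => by rw [pr_comm p q]; simp only [eq_comm]) (fun p => by simp)
  have h2 : ∀ e : Pair n, (if e.1.1 = e.1.2 then (0 : ℝ) else pr e.1.1 e.1.2 σ * pr e.1.1 e.1.2 τ) =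
      SkS e σ * SkS e τ := fun e => by rw [if_neg e.2.ne]; rfl
  simp only [h2] at h1
  have h3 : (∑ i, H325.sp σ i * H325.sp τ i) ^ 2 = ∑ i : Fin n, ∑ j : Fin n,
      ((if i = j then (1 : ℝ) else 0) + (if i = j then 0 else pr i j σ * pr i j τ)) := by
    rw [pow_two, Finset.sum_mul_sum]
    refine Finset.sum_congr rfl fun i _ => Finset.sum_congr rfl fun j _ => ?_
    split_ifs with h
    · rw [h]
      have a1 := sp_mul_self σ j
      have a2 := sp_mul_self τ j
      linear_combination H325.sp τ j * H325.sp τ j * a1 + a2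
    · unfold pr
      ring
  simp only [Finset.sum_add_distrib] at h3
  rw [h1] at h3
  rw [h3]
  simp

/-- **The scalar products of the gradients of the SK free energy are at least `-k² n / 2`.** -/
theorem pair_sk (k : ℝ) (y y' : Pair n → ℝ) :
    -(k ^ 2 * n / 2) ≤ ∑ e : Pair n, Dz k SkS e y * Dz k SkS e y' := by
  have h1 : ∑ e : Pair n, Dz k SkS e y * Dz k SkS e y' =
      k ^ 2 * ∑ e : Pair n, H325.av k SkS (SkS e) y' * H325.av k SkS (SkS e) y := by
    rw [Finset.mul_sum]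
    refine Finset.sum_congr rfl fun e _ => ?_
    unfold Dz
    ring
  have h2 : -((n : ℝ) / 2) ≤ ∑ e : Pair n, H325.av k SkS (SkS e) y' * H325.av k SkS (SkS e) y := by
    rw [← av_lin]
    refine av_ge (fun σ => ?_) y
    have h3 : ∑ e : Pair n, H325.av k SkS (SkS e) y' * SkS e σ =
        H325.av k SkS (fun τ => ∑ e : Pair n, SkS e σ * SkS e τ) y' := by
      rw [av_lin]
      exact Finset.sum_congr rfl fun e _ => mul_comm _ _
    rw [h3]
    refine av_ge (fun τ => ?_) y'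
    rw [sum_SkS]
    nlinarith [sq_nonneg (∑ i, H325.sp σ i * H325.sp τ i)]
  rw [h1]
  have := mul_le_mul_of_nonneg_left h2 (sq_nonneg k)
  linarith

end Vale.Agent.P146.R1
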