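import Vale.Agent.P146.H785.Sum
import Vale.Agent.P146.Bd3.B5

set_option linter.all false

/-!
Row (T) of the M-route: the variance of the overlap of two replicas which split at the level `l`
is bounded by the increments of the overlap path and by `Var rho_l`.
-/

open MeasureTheory ProbabilityTheory Filter Topology

namespace Vale.Agent.P146.H785

open Vale.Agent.P157.Lv Vale.Agent.P157.Lv.Sy Vale.Agent.P146.H784

variable {ι X : Type} [Fintype ι] [DecidableEq ι] [Fintype X] [DecidableEq X] [Nonempty X]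
  {S : Sy ι X} {D : ι → (ι → ℝ) → X → ℝ} {N : ℕ} {φ : X → Fin N → ℝ} {zc : ℕ → Fin N → ι}
  {s : ℕ → ℝ}

/-- the mean square increment of `rho_l` -/
noncomputable def rinc (S : Sy ι X) (φ : X → Fin N → ℝ) (l : ℕ) : ℝ :=
  S.Ex (fun z _ => (rho S φ (l + 1) z - rho S φ l z) ^ 2)

/-- `dl = (1/2) E (rho_{l+1} - rho_l)² + 2 (R_{l+1} - R_l)` -/
noncomputable def dlb (S : Sy ι X) (φ : X → Fin N → ℝ) (l : ℕ) : ℝ :=
  1 / 2 * rinc S φ l + 2 * (S.Rl φ (l + 1) - S.Rl φ l)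

/-- the pair variance -/
lemma pair_sq (hS : S.Reg) {l : ℕ} (hl : l ≤ S.K) (φ : X → Fin N → ℝ) (c : ℝ)
    (hc : S.pairEx l (Rov φ) = c) :
    S.pairEx l (fun x x' => (Rov φ x x' - c) ^ 2) =
      S.pairEx l (fun x x' => Rov φ x x' ^ 2) - c ^ 2 := by
  have e : (fun x x' => (Rov φ x x' - c) ^ 2) = fun x x' =>
      (Rov φ x x' ^ 2 + (-(2 * c)) * Rov φ x x') + c ^ 2 := by
    funext x x'
    ring
  rw [e, hS.pairEx_add hl (fun x x' => Rov φ x x' ^ 2 + (-(2 * c)) * Rov φ x x')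
      (fun _ _ => c ^ 2), hS.pairEx_add hl (fun x x' => Rov φ x x' ^ 2)
      (fun x x' => (-(2 * c)) * Rov φ x x'), hS.pairEx_const_mul l (-(2 * c)) (Rov φ),
    hS.pairEx_const hl, hc]
  ring

section main

variable (F : Fld S D φ zc s)

include F

lemma rinc_nonneg {l : ℕ} (hl : l < S.K) : 0 ≤ rinc S φ l := by
  have hS := F.hreg
  have h1 := hS.Ex_mono (f := fun _ _ => 0) (g := fun z _ =>
    (rho S φ (l + 1) z - rho S φ l z) ^ 2) (fun _ => EG.const _)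
    (Nh.fst (((eg_rho hS hl).sub (eg_rho hS hl.le)).pow 2)) (fun z x => sq_nonneg _)
  rwa [hS.Ex_const] at h1

lemma dlb_nonneg {l : ℕ} (hl : l < S.K) : 0 ≤ dlb S φ l := by
  have h1 := rinc_nonneg F hl
  have h2 := Rl_mono' F hl
  unfold dlb
  linarith

/-- the sum of the mean square increments -/
theorem sum_rinc_le {d : ℕ} (hd : d ≤ S.K) : ∑ l ∈ Finset.Ico d S.K, rinc S φ l ≤ 1 := by
  have h1 : ∑ l ∈ Finset.Ico d S.K, rinc S φ l ≤
      ∑ l ∈ Finset.Ico d S.K, (E2 S φ (l + 1) - E2 S φ l) := by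
    refine Finset.sum_le_sum fun l hl => ?_
    rw [Finset.mem_Ico] at hl
    exact Ex_rho_incr_le F hl.2
  rw [Finset.sum_Ico_sub (fun l => E2 S φ l) hd] at h1
  have h2 := E2_nonneg F hd
  have h3 := E2_le_one F (le_refl S.K)
  linarith

theorem sum_dlb_le {d : ℕ} (hd : d ≤ S.K) : ∑ l ∈ Finset.Ico d S.K, dlb S φ l ≤ 5 / 2 := by
  have e : ∑ l ∈ Finset.Ico d S.K, dlb S φ l = 1 / 2 * ∑ l ∈ Finset.Ico d S.K, rinc S φ l +
      2 * ∑ l ∈ Finset.Ico d S.K, (S.Rl φ (l + 1) - S.Rl φ l) := by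
    unfold dlb
    rw [Finset.sum_add_distrib, ← Finset.mul_sum, ← Finset.mul_sum]
  rw [e]
  have h1 := sum_rinc_le F hd
  have h2 := sum_dR_le F hd
  linarith

/-- the mean of `d_l`, sharp form -/
theorem Ex_dl_le0 {l : ℕ} (hl : l < S.K) : S.Ex (fun z _ => dl S φ l z) ≤ dlb S φ l := by
  have hS := F.hreg
  have hN := F.N_pos
  have e1 : EG (rho S φ (l + 1)) := eg_rho hS hl
  have e0 : EG (rho S φ l) := eg_rho hS hl.le
  have m1 : ∀ b, EG (S.mg φ (l + 1) b) := fun b => Fld.eg_mg hS hl b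
  have m0 : ∀ b, EG (S.mg φ l b) := fun b => Fld.eg_mg hS hl.le b
  have eD : EG (fun z => ∑ i, (S.mg φ (l + 1) i z - S.mg φ l i z) ^ 2) :=
    EG.sum _ fun i _ => ((m1 i).sub (m0 i)).pow 2
  have h1 : S.Ex (fun z _ => dl S φ l z) = S.Ex (fun z _ =>
      (1 / (N : ℝ) * ∑ b, S.mg φ l b z * (S.mg φ (l + 1) b z - S.mg φ l b z)) ^ 2) :=
    hS.Ex_T hl.le (nh_dl hS hl)
  have h3 := F.Rl_sub hl
  unfold dlb rinc
  rw [h1, ← h3]
  have h4 := hS.Ex_mono (f := fun z _ =>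
      (1 / (N : ℝ) * ∑ b, S.mg φ l b z * (S.mg φ (l + 1) b z - S.mg φ l b z)) ^ 2)
    (g := fun z x => (fun (z : ι → ℝ) (_ : X) =>
        1 / 2 * (rho S φ (l + 1) z - rho S φ l z) ^ 2) z x +
      (fun (z : ι → ℝ) (_ : X) => 2 / (N : ℝ) *
        ∑ i, (S.mg φ (l + 1) i z - S.mg φ l i z) ^ 2) z x)
    (nh_dl hS hl) (Nh.add (Nh.fst (EG.const_mul _ ((e1.sub e0).pow 2)))
      (Nh.fst (EG.const_mul _ eD)))
    (fun z _ => by
      show (1 / (N : ℝ) * ∑ b, S.mg φ l b z * (S.mg φ (l + 1) b z - S.mg φ l b z)) ^ 2 ≤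
        1 / 2 * (rho S φ (l + 1) z - rho S φ l z) ^ 2 +
          2 / (N : ℝ) * ∑ i, (S.mg φ (l + 1) i z - S.mg φ l i z) ^ 2
      obtain ⟨q, hq⟩ : ∃ q, q = 1 / (N : ℝ) * ∑ i, (S.mg φ (l + 1) i z - S.mg φ l i z) ^ 2 :=
        ⟨_, rfl⟩
      have k1 : 1 / (N : ℝ) * ∑ b, S.mg φ l b z * (S.mg φ (l + 1) b z - S.mg φ l b z) =
          1 / 2 * ((rho S φ (l + 1) z - rho S φ l z) - q) := by
        have e5 : ∑ i, (S.mg φ (l + 1) i z - S.mg φ l i z) ^ 2 =
            ∑ i, S.mg φ (l + 1) i z ^ 2 - ∑ i, S.mg φ l i z ^ 2 -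
              2 * ∑ b, S.mg φ l b z * (S.mg φ (l + 1) b z - S.mg φ l b z) := by
          rw [Finset.mul_sum, ← Finset.sum_sub_distrib, ← Finset.sum_sub_distrib]
          refine Finset.sum_congr rfl fun i _ => ?_
          ring
        rw [hq, e5]
        unfold rho
        ring
      have k2 : 0 ≤ q := by rw [hq]; positivity
      have k3 : q ≤ 4 := by
        have q1 := rho_le_one' F (l := l + 1) hl z
        have q0 := rho_le_one' F hl.le z
        have q4 : ∑ i, (S.mg φ (l + 1) i z - S.mg φ l i z) ^ 2 ≤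
            2 * ∑ i, S.mg φ (l + 1) i z ^ 2 + 2 * ∑ i, S.mg φ l i z ^ 2 := by
          rw [Finset.mul_sum, Finset.mul_sum, ← Finset.sum_add_distrib]
          refine Finset.sum_le_sum fun a _ => ?_
          nlinarith [sq_nonneg (S.mg φ (l + 1) a z + S.mg φ l a z)]
        have q5 := mul_le_mul_of_nonneg_left q4 (by positivity : 0 ≤ 1 / (N : ℝ))
        rw [← hq] at q5
        have e : 1 / (N : ℝ) * (2 * ∑ i, S.mg φ (l + 1) i z ^ 2 + 2 * ∑ i, S.mg φ l i z ^ 2) =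
          2 * rho S φ (l + 1) z + 2 * rho S φ l z := by
          unfold rho
          ring
        rw [e] at q5
        linarith
      have k4 : 2 / (N : ℝ) * ∑ i, (S.mg φ (l + 1) i z - S.mg φ l i z) ^ 2 = 2 * q := by
        rw [hq]; ring
      rw [k1, k4]
      nlinarith [sq_nonneg ((rho S φ (l + 1) z - rho S φ l z) + q)])
  rw [hS.Ex_add (Nh.fst (EG.const_mul _ ((e1.sub e0).pow 2))) (Nh.fst (EG.const_mul _ eD)),
    Sy.Ex_const_mul S (1 / 2) (fun z _ => (rho S φ (l + 1) z - rho S φ l z) ^ 2),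
    Sy.Ex_const_mul S (2 / (N : ℝ)) (fun z _ =>
      ∑ i, (S.mg φ (l + 1) i z - S.mg φ l i z) ^ 2)] at h4
  have e7 : 2 * (1 / (N : ℝ) * S.Ex (fun z _ => ∑ i, (S.mg φ (l + 1) i z - S.mg φ l i z) ^ 2)) =
      2 / (N : ℝ) * S.Ex (fun z _ => ∑ i, (S.mg φ (l + 1) i z - S.mg φ l i z) ^ 2) := by ring
  rw [e7]
  exact h4

/-- **ROW (T)** -/
theorem rowT {l : ℕ} (hl : l < S.K) (hinj : Function.Injective (zc (l + 1)))
    (hs : 0 < s (l + 1)) :
    S.pairEx l (fun x x' => (Rov φ x x' - S.Rl φ l) ^ 2) ≤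
      (1 + 2 / (N * s (l + 1) ^ 2 * S.m (l + 1) ^ 2)) * (S.Rl φ (l + 1) - S.Rl φ l) +
        2 * dlb S φ l + 2 / S.m (l + 1) * √(dlb S φ l / (N * s (l + 1) ^ 2)) +
        vr S (fun z _ => rho S φ l z) := by
  have hS := F.hreg
  have hN := F.N_pos
  have hm : 0 < S.m (l + 1) := hS.m_pos (by omega) (by omega)
  have ed := eg_dl (φ := φ) hS hl
  have em : ∀ a, EG (S.mg φ l a) := fun a => Fld.eg_mg hS hl.le a
  have k0 := pair_sq hS hl.le φ (S.Rl φ l) (F.Rl_eq_pairEx hl.le).symm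
  have k1 := pair_var_eq F hl.le
  have k2 := Ex_cvN_le' F hl hinj hs
  have k3 := Ex_dl_le0 F hl
  obtain ⟨f, hf⟩ : ∃ f : (ι → ℝ) → ℝ, f = fun z => dl S φ l z / (N * s (l + 1) ^ 2) := ⟨_, rfl⟩
  have ef : EG f := by
    rw [hf]
    have := EG.const_mul (1 / (N * s (l + 1) ^ 2)) ed
    refine this.mono (ed.meas.div_const _) fun z => le_of_eq ?_
    congr 1
    ring
  have hf0 : ∀ z, 0 ≤ f z := fun z => by
    rw [hf]
    have := dl_nonneg (φ := φ) hS hl z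
    positivity
  have es : EG (fun z => √(f z)) := by
    refine (ef.add (EG.const 1)).mono ef.meas.sqrt fun z => ?_
    rw [abs_of_nonneg (Real.sqrt_nonneg _), abs_of_nonneg (by have := hf0 z; linarith)]
    rw [Real.sqrt_le_left (by have := hf0 z; linarith)]
    nlinarith [hf0 z]
  have k4 := Ex_sqrt_le F hS ef hf0
  have k5 : S.Ex (fun z _ => f z) = S.Ex (fun z _ => dl S φ l z) / (N * s (l + 1) ^ 2) := by
    have e : (fun (z : ι → ℝ) (_ : X) => f z) =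
        fun z x => 1 / (N * s (l + 1) ^ 2) * (fun (z : ι → ℝ) (_ : X) => dl S φ l z) z x := by
      funext z _
      rw [hf]
      ring
    rw [e, Sy.Ex_const_mul]
    ring
  have k6 : 1 / (N : ℝ) ^ 2 * S.Ex (fun z _ => Qf S φ l (S.mg φ l) z) ≤
      S.Ex (fun z _ => dl S φ l z) + 1 / S.m (l + 1) * S.Ex (fun z _ => √(f z)) := by
    rw [← Sy.Ex_const_mul, ← Sy.Ex_const_mul, ← hS.Ex_add (Nh.fst ed)
      (Nh.fst (EG.const_mul _ es))]
    refine hS.Ex_mono (Nh.fst (EG.const_mul _ (eg_Qf hS hl.le em)))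
      (Nh.fst (ed.add (EG.const_mul _ es))) fun z _ => ?_
    rw [hf]
    exact Qf_mg_le F hl hinj hs z
  have k7 : √(S.Ex (fun z _ => f z)) ≤ √(dlb S φ l / (N * s (l + 1) ^ 2)) := by
    rw [k5]
    exact Real.sqrt_le_sqrt (div_le_div_of_nonneg_right k3 (by positivity))
  have k8 : 1 / S.m (l + 1) * S.Ex (fun z _ => √(f z)) ≤
      1 / S.m (l + 1) * √(dlb S φ l / (N * s (l + 1) ^ 2)) :=
    mul_le_mul_of_nonneg_left (k4.trans k7) (by positivity)
  have e8 : 2 / S.m (l + 1) * √(dlb S φ l / (N * s (l + 1) ^ 2)) =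
      2 * (1 / S.m (l + 1) * √(dlb S φ l / (N * s (l + 1) ^ 2))) := by ring
  rw [e8, k0, k1]
  linarith

end main

section SN

open Vale.Agent.P146.Ub Vale.Agent.P146.Ub.Ld
open Vale.Agent.P157.Par (Path Exponents incr)

variable {n K d : ℕ} {m : ℕ → ℝ} {β : ℝ}

theorem zc_inj (hN : N ≤ n) (l : ℕ) :
    Function.Injective (Vale.Agent.P146.Ub.zc (K := K) hN l) := by
  intro i j h
  unfold Vale.Agent.P146.Ub.zc at h
  simp only [Sum.inr.injEq, Sum.inl.injEq, Prod.mk.injEq, true_and] at h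
  exact Fin.castLE_injective hN h

/-- **ROW (T)** for the SK systems with tree fields. -/
theorem rowT_SN (hd : d ≤ K) (hN : N ≤ n) (h0 : 0 < N) (hm : Exponents K m)
    (hs : ∀ l ≤ K, 0 ≤ s l) {l : ℕ} (hl : l < K) (hsl : 0 < s (l + 1)) :
    (SN n K d m β N s).pairEx l (fun x x' =>
        (Rov (Vale.Agent.P146.Ub.ph hN) x x' -
          (SN n K d m β N s).Rl (Vale.Agent.P146.Ub.ph hN) l) ^ 2) ≤
      (1 + 2 / (N * s (l + 1) ^ 2 * m (l + 1) ^ 2)) *
          ((SN n K d m β N s).Rl (Vale.Agent.P146.Ub.ph hN) (l + 1) -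
            (SN n K d m β N s).Rl (Vale.Agent.P146.Ub.ph hN) l) +
        2 * dlb (SN n K d m β N s) (Vale.Agent.P146.Ub.ph hN) l +
        2 / m (l + 1) * √(dlb (SN n K d m β N s) (Vale.Agent.P146.Ub.ph hN) l /
          (N * s (l + 1) ^ 2)) +
        vr (SN n K d m β N s) (fun z _ =>
          rho (SN n K d m β N s) (Vale.Agent.P146.Ub.ph hN) l z) :=
  rowT (SN_fld hd hN h0 hm hs) (l := l) hl (zc_inj hN (l + 1)) hsl

theorem sum_rinc_SN (hd : d ≤ K) (hN : N ≤ n) (h0 : 0 < N) (hm : Exponents K m)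
    (hs : ∀ l ≤ K, 0 ≤ s l) {e : ℕ} (he : e ≤ K) :
    ∑ l ∈ Finset.Ico e K, rinc (SN n K d m β N s) (Vale.Agent.P146.Ub.ph hN) l ≤ 1 :=
  sum_rinc_le (SN_fld hd hN h0 hm hs) he

end SN

end Vale.Agent.P146.H785
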