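import Vale.Agent.P146.H785.Mcm

set_option linter.all false

/-!
The weighted sum over the levels: with `p_l ≤ P`, `m_{l+1} ≥ r`, `s_{l+1}² ≥ lam`,
`∑ p_l V_l ≤ P (6 + 2 / (N lam r²)) + (2 / r) √(5 P / (2 N lam)) + ∑ p_l Var rho_l`.
-/

open MeasureTheory ProbabilityTheory Filter Topology

namespace Vale.Agent.P146.H785

open Vale.Agent.P157.Lv Vale.Agent.P157.Lv.Sy Vale.Agent.P146.H784

variable {ι X : Type} [Fintype ι] [DecidableEq ι] [Fintype X] [DecidableEq X] [Nonempty X]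
  {S : Sy ι X} {D : ι → (ι → ℝ) → X → ℝ} {N : ℕ} {φ : X → Fin N → ℝ} {zc : ℕ → Fin N → ι}
  {s : ℕ → ℝ}

/-- the variance of the overlap of two replicas which split at the level `l` -/
noncomputable def Vl (S : Sy ι X) (φ : X → Fin N → ℝ) (l : ℕ) : ℝ :=
  S.pairEx l (fun x x' => Rov φ x x' ^ 2) - S.Rl φ l ^ 2

/-- the second moment of `rho_l` -/
noncomputable def E2 (S : Sy ι X) (φ : X → Fin N → ℝ) (l : ℕ) : ℝ :=
  S.Ex (fun z _ => rho S φ l z ^ 2)

/-- the bound for `E d_l` -/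
noncomputable def Dl (S : Sy ι X) (φ : X → Fin N → ℝ) (l : ℕ) : ℝ :=
  1 / 2 * (E2 S φ (l + 1) - E2 S φ l) + 2 * (S.Rl φ (l + 1) - S.Rl φ l)

section main

variable (F : Fld S D φ zc s)

include F

lemma Rl_mono' {l : ℕ} (hl : l < S.K) : S.Rl φ l ≤ S.Rl φ (l + 1) := by
  have hS := F.hreg
  have hN := F.N_pos
  have h := F.Rl_sub hl
  have e1 := fun i => Fld.eg_mg (φ := φ) hS (l := l + 1) hl i
  have e0 := fun i => Fld.eg_mg (φ := φ) hS (l := l) hl.le i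
  have h1 := hS.Ex_mono (f := fun _ _ => 0) (g := fun z _ =>
    ∑ i, (S.mg φ (l + 1) i z - S.mg φ l i z) ^ 2) (fun _ => EG.const _)
    (Nh.fst (EG.sum _ fun i _ => ((e1 i).sub (e0 i)).pow 2))
    (fun z x => Finset.sum_nonneg fun i _ => sq_nonneg _)
  rw [hS.Ex_const] at h1
  have h2 : 0 ≤ 1 / (N : ℝ) * S.Ex (fun z _ => ∑ i, (S.mg φ (l + 1) i z - S.mg φ l i z) ^ 2) := by
    positivity
  linarith

lemma E2_mono {l : ℕ} (hl : l < S.K) : E2 S φ l ≤ E2 S φ (l + 1) := by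
  have hS := F.hreg
  have h := Ex_rho_incr_le F hl
  have h1 := hS.Ex_mono (f := fun _ _ => 0) (g := fun z _ =>
    (rho S φ (l + 1) z - rho S φ l z) ^ 2) (fun _ => EG.const _)
    (Nh.fst (((eg_rho hS hl).sub (eg_rho hS hl.le)).pow 2)) (fun z x => sq_nonneg _)
  rw [hS.Ex_const] at h1
  unfold E2
  linarith

lemma E2_nonneg {l : ℕ} (hl : l ≤ S.K) : 0 ≤ E2 S φ l := by
  have hS := F.hreg
  have h1 := hS.Ex_mono (f := fun _ _ => 0) (g := fun z _ => rho S φ l z ^ 2)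
    (fun _ => EG.const _) (Nh.fst ((eg_rho hS hl).pow 2)) (fun z x => sq_nonneg _)
  rwa [hS.Ex_const] at h1

lemma E2_le_one {l : ℕ} (hl : l ≤ S.K) : E2 S φ l ≤ 1 := by
  have hS := F.hreg
  have h1 := hS.Ex_mono (f := fun z _ => rho S φ l z ^ 2) (g := fun _ _ => 1)
    (Nh.fst ((eg_rho hS hl).pow 2)) (fun _ => EG.const _)
    (fun z x => pow_le_one₀ (rho_nonneg' F z) (rho_le_one' F hl z))
  rwa [hS.Ex_const] at h1

lemma Dl_nonneg {l : ℕ} (hl : l < S.K) : 0 ≤ Dl S φ l := by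
  have h1 := Rl_mono' F hl
  have h2 := E2_mono F hl
  unfold Dl
  linarith

lemma sum_Dl_le {d : ℕ} (hd : d ≤ S.K) : ∑ l ∈ Finset.Ico d S.K, Dl S φ l ≤ 5 / 2 := by
  have e : ∑ l ∈ Finset.Ico d S.K, Dl S φ l =
      1 / 2 * (E2 S φ S.K - E2 S φ d) + 2 * (S.Rl φ S.K - S.Rl φ d) := by
    unfold Dl
    rw [Finset.sum_add_distrib, ← Finset.mul_sum, ← Finset.mul_sum,
      Finset.sum_Ico_sub (fun l => E2 S φ l) hd, Finset.sum_Ico_sub (fun l => S.Rl φ l) hd]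
  rw [e]
  have h1 := E2_nonneg F hd
  have h2 := E2_le_one F (le_refl S.K)
  have h3 := F.Rl_nonneg hd
  have h4 := F.Rl_le_one (le_refl S.K)
  linarith

lemma sum_dR_le {d : ℕ} (hd : d ≤ S.K) :
    ∑ l ∈ Finset.Ico d S.K, (S.Rl φ (l + 1) - S.Rl φ l) ≤ 1 := by
  rw [Finset.sum_Ico_sub (fun l => S.Rl φ l) hd]
  have h3 := F.Rl_nonneg hd
  have h4 := F.Rl_le_one (le_refl S.K)
  linarith

/-- **THE THERMAL PART, SUMMED.** -/
theorem sum_thermal {d : ℕ} (hd : d ≤ S.K) {P r lam : ℝ} (hr : 0 < r) (hlam : 0 < lam)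
    (hP : ∀ l ∈ Finset.Ico d S.K, S.p l ≤ P) (hm : ∀ l ∈ Finset.Ico d S.K, r ≤ S.m (l + 1))
    (hinj : ∀ l ∈ Finset.Ico d S.K, Function.Injective (zc (l + 1)))
    (hs : ∀ l ∈ Finset.Ico d S.K, 0 < s (l + 1) ∧ lam ≤ s (l + 1) ^ 2) (hP0 : 0 ≤ P) :
    ∑ l ∈ Finset.Ico d S.K, S.p l * Vl S φ l ≤
      P * (6 + 2 / (N * lam * r ^ 2)) + 2 / r * √(5 / 2 * P / (N * lam)) +
        ∑ l ∈ Finset.Ico d S.K, S.p l * vr S (fun z _ => rho S φ l z) := by
  have hS := F.hreg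
  have hN := F.N_pos
  have hp0 : ∀ l ∈ Finset.Ico d S.K, 0 ≤ S.p l := fun l hl => by
    rw [Finset.mem_Ico] at hl
    have := hS.mono l (by omega)
    unfold Sy.p
    linarith
  have hlt : ∀ l ∈ Finset.Ico d S.K, l < S.K := fun l hl => by
    rw [Finset.mem_Ico] at hl; omega
  -- termwise
  have h1 : ∀ l ∈ Finset.Ico d S.K, S.p l * Vl S φ l ≤
      P * (2 / (N * lam * r ^ 2) + 1) * (S.Rl φ (l + 1) - S.Rl φ l) + 2 * P * Dl S φ l +
        2 / r * (S.p l * √(Dl S φ l / (N * lam))) +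
        S.p l * vr S (fun z _ => rho S φ l z) := by
    intro l hl
    have hl' := hlt l hl
    obtain ⟨s0, s1⟩ := hs l hl
    have m1 := hm l hl
    have hpl := hp0 l hl
    have hR := Rl_mono' F hl'
    have hD0 := Dl_nonneg F hl'
    have hm0 : 0 < S.m (l + 1) := hr.trans_le m1
    have k := pair_var_thermal F hl' (hinj l hl) s0 (Dl := Dl S φ l) (by unfold Dl E2; exact le_rfl)
    have a1 : 2 / (N * s (l + 1) ^ 2 * S.m (l + 1) ^ 2) ≤ 2 / (N * lam * r ^ 2) := by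
      refine div_le_div_of_nonneg_left zero_le_two (by positivity) ?_
      exact mul_le_mul (mul_le_mul_of_nonneg_left s1 hN.le)
        (pow_le_pow_left₀ hr.le m1 2) (by positivity) (by positivity)
    have a2 : √(Dl S φ l / (N * s (l + 1) ^ 2)) ≤ √(Dl S φ l / (N * lam)) := by
      refine Real.sqrt_le_sqrt (div_le_div_of_nonneg_left hD0 (by positivity) ?_)
      exact mul_le_mul_of_nonneg_left s1 hN.le
    have a3 : 2 / S.m (l + 1) ≤ 2 / r := div_le_div_of_nonneg_left zero_le_two hr m1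
    have a4 : 2 / S.m (l + 1) * √(Dl S φ l / (N * s (l + 1) ^ 2)) ≤
        2 / r * √(Dl S φ l / (N * lam)) :=
      mul_le_mul a3 a2 (Real.sqrt_nonneg _) (by positivity)
    have a5 : (2 / (N * s (l + 1) ^ 2 * S.m (l + 1) ^ 2) + 1) * (S.Rl φ (l + 1) - S.Rl φ l) ≤
        (2 / (N * lam * r ^ 2) + 1) * (S.Rl φ (l + 1) - S.Rl φ l) :=
      mul_le_mul_of_nonneg_right (by linarith) (by linarith)
    have k' : Vl S φ l ≤ (2 / (N * lam * r ^ 2) + 1) * (S.Rl φ (l + 1) - S.Rl φ l) +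
        2 * Dl S φ l + 2 / r * √(Dl S φ l / (N * lam)) + vr S (fun z _ => rho S φ l z) := by
      unfold Vl
      linarith
    have k2 := mul_le_mul_of_nonneg_left k' hpl
    have a6 : S.p l * ((2 / (N * lam * r ^ 2) + 1) * (S.Rl φ (l + 1) - S.Rl φ l)) ≤
        P * ((2 / (N * lam * r ^ 2) + 1) * (S.Rl φ (l + 1) - S.Rl φ l)) :=
      mul_le_mul_of_nonneg_right (hP l hl) (mul_nonneg (by positivity) (by linarith))
    have a7 : S.p l * (2 * Dl S φ l) ≤ P * (2 * Dl S φ l) :=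
      mul_le_mul_of_nonneg_right (hP l hl) (by linarith)
    have e : S.p l * ((2 / (N * lam * r ^ 2) + 1) * (S.Rl φ (l + 1) - S.Rl φ l) +
        2 * Dl S φ l + 2 / r * √(Dl S φ l / (N * lam)) + vr S (fun z _ => rho S φ l z)) =
        S.p l * ((2 / (N * lam * r ^ 2) + 1) * (S.Rl φ (l + 1) - S.Rl φ l)) +
        S.p l * (2 * Dl S φ l) + 2 / r * (S.p l * √(Dl S φ l / (N * lam))) +
        S.p l * vr S (fun z _ => rho S φ l z) := by ring
    rw [e] at k2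
    linarith
  -- sums
  have h2 := Finset.sum_le_sum h1
  rw [Finset.sum_add_distrib, Finset.sum_add_distrib, Finset.sum_add_distrib, ← Finset.mul_sum,
    ← Finset.mul_sum, ← Finset.mul_sum] at h2
  have b1 := sum_dR_le F hd
  have b2 := sum_Dl_le F hd
  have bp : ∑ l ∈ Finset.Ico d S.K, S.p l ≤ 1 := by
    have e : ∑ l ∈ Finset.Ico d S.K, S.p l = S.m S.K - S.m d := Finset.sum_Ico_sub S.m hd
    rw [e]
    have h3 := hS.m_le_one (l := S.K) (by omega)
    have h4 : 0 ≤ S.m d := by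
      rw [← hS.m0]; exact hS.m_mono (Nat.zero_le d) (by omega)
    linarith
  have b3 : ∑ l ∈ Finset.Ico d S.K, S.p l * √(Dl S φ l / (N * lam)) ≤
      √(5 / 2 * P / (N * lam)) := by
    refine Real.le_sqrt_of_sq_le ?_
    have h3 := Finset.sum_mul_sq_le_sq_mul_sq (Finset.Ico d S.K) (fun l => √(S.p l))
      (fun l => √(S.p l) * √(Dl S φ l / (N * lam)))
    have e1 : ∑ l ∈ Finset.Ico d S.K, √(S.p l) * (√(S.p l) * √(Dl S φ l / (N * lam))) =
        ∑ l ∈ Finset.Ico d S.K, S.p l * √(Dl S φ l / (N * lam)) := by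
      refine Finset.sum_congr rfl fun l hl => ?_
      rw [← mul_assoc, Real.mul_self_sqrt (hp0 l hl)]
    have e2 : ∑ l ∈ Finset.Ico d S.K, √(S.p l) ^ 2 = ∑ l ∈ Finset.Ico d S.K, S.p l :=
      Finset.sum_congr rfl fun l hl => Real.sq_sqrt (hp0 l hl)
    have e3 : ∑ l ∈ Finset.Ico d S.K, (√(S.p l) * √(Dl S φ l / (N * lam))) ^ 2 =
        ∑ l ∈ Finset.Ico d S.K, S.p l * (Dl S φ l / (N * lam)) := by
      refine Finset.sum_congr rfl fun l hl => ?_
      have := Dl_nonneg F (hlt l hl)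
      rw [mul_pow, Real.sq_sqrt (hp0 l hl), Real.sq_sqrt (by positivity)]
    rw [e1, e2, e3] at h3
    refine h3.trans ?_
    have c1 : ∑ l ∈ Finset.Ico d S.K, S.p l * (Dl S φ l / (N * lam)) ≤
        P / (N * lam) * (5 / 2) := by
      calc ∑ l ∈ Finset.Ico d S.K, S.p l * (Dl S φ l / (N * lam))
          ≤ ∑ l ∈ Finset.Ico d S.K, P * (Dl S φ l / (N * lam)) :=
            Finset.sum_le_sum fun l hl => mul_le_mul_of_nonneg_right (hP l hl)
              (div_nonneg (Dl_nonneg F (hlt l hl)) (by positivity))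
        _ = P / (N * lam) * ∑ l ∈ Finset.Ico d S.K, Dl S φ l := by
            rw [Finset.mul_sum]
            refine Finset.sum_congr rfl fun l _ => ?_
            ring
        _ ≤ P / (N * lam) * (5 / 2) := mul_le_mul_of_nonneg_left b2 (by positivity)
    have c2 : 0 ≤ ∑ l ∈ Finset.Ico d S.K, S.p l * (Dl S φ l / (N * lam)) :=
      Finset.sum_nonneg fun l hl => mul_nonneg (hp0 l hl)
        (div_nonneg (Dl_nonneg F (hlt l hl)) (by positivity))
    calc (∑ l ∈ Finset.Ico d S.K, S.p l) *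
          ∑ l ∈ Finset.Ico d S.K, S.p l * (Dl S φ l / (N * lam))
        ≤ 1 * ∑ l ∈ Finset.Ico d S.K, S.p l * (Dl S φ l / (N * lam)) :=
          mul_le_mul_of_nonneg_right bp c2
      _ ≤ P / (N * lam) * (5 / 2) := by rw [one_mul]; exact c1
      _ = 5 / 2 * P / (N * lam) := by ring
  have c3 : P * (2 / (N * lam * r ^ 2) + 1) *
      ∑ l ∈ Finset.Ico d S.K, (S.Rl φ (l + 1) - S.Rl φ l) ≤
      P * (2 / (N * lam * r ^ 2) + 1) * 1 := mul_le_mul_of_nonneg_left b1 (by positivity)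
  have c4 : 2 * P * ∑ l ∈ Finset.Ico d S.K, Dl S φ l ≤ 2 * P * (5 / 2) :=
    mul_le_mul_of_nonneg_left b2 (by positivity)
  have c5 : 2 / r * ∑ l ∈ Finset.Ico d S.K, S.p l * √(Dl S φ l / (N * lam)) ≤
      2 / r * √(5 / 2 * P / (N * lam)) := mul_le_mul_of_nonneg_left b3 (by positivity)
  have e : P * (6 + 2 / (N * lam * r ^ 2)) =
      P * (2 / (N * lam * r ^ 2) + 1) * 1 + 2 * P * (5 / 2) := by ring
  rw [e]
  linarith

end main

end Vale.Agent.P146.H785
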