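import Vale.Agent.P146.H785.RowT

set_option linter.all false

/-!
The weighted sum over the levels, with the factor `1/√r`: with `p_l ≤ P`, `m_d ≥ r`,
`s_{l+1}² ≥ lam`,
`∑ p_l V_l ≤ P (6 + 2 / (N lam r²)) + 2 √(5 P / (2 N lam r)) + ∑ p_l Var rho_l`.
-/

open MeasureTheory ProbabilityTheory Filter Topology

namespace Vale.Agent.P146.H785

open Vale.Agent.P157.Lv Vale.Agent.P157.Lv.Sy Vale.Agent.P146.H784

variable {ι X : Type} [Fintype ι] [DecidableEq ι] [Fintype X] [DecidableEq X] [Nonempty X]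
  {S : Sy ι X} {D : ι → (ι → ℝ) → X → ℝ} {N : ℕ} {φ : X → Fin N → ℝ} {zc : ℕ → Fin N → ι}
  {s : ℕ → ℝ}

lemma sum_inv_sq_le (m : ℕ → ℝ) {d K : ℕ} (hdK : d ≤ K) {r : ℝ} (hr : 0 < r) (hd : r ≤ m d)
    (hm : ∀ l ∈ Finset.Ico d K, m l ≤ m (l + 1)) :
    ∑ l ∈ Finset.Ico d K, (m (l + 1) - m l) / m (l + 1) ^ 2 ≤ 1 / r := by
  have key : ∀ k, d ≤ k → k ≤ K → 0 < m k ∧
      ∑ l ∈ Finset.Ico d k, (m (l + 1) - m l) / m (l + 1) ^ 2 ≤ 1 / m d - 1 / m k := by
    intro k hk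
    induction k, hk using Nat.le_induction with
    | base => intro _; exact ⟨hr.trans_le hd, by simp⟩
    | succ k hk ih =>
      intro hk2
      obtain ⟨h0, h1⟩ := ih (by omega)
      have h2 := hm k (Finset.mem_Ico.2 ⟨hk, by omega⟩)
      have h3 : 0 < m (k + 1) := h0.trans_le h2
      refine ⟨h3, ?_⟩
      rw [Finset.sum_Ico_succ_top hk]
      have h4 : (m (k + 1) - m k) / m (k + 1) ^ 2 ≤ 1 / m k - 1 / m (k + 1) := by
        have e : 1 / m k - 1 / m (k + 1) = (m (k + 1) - m k) / (m k * m (k + 1)) := by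
          field_simp
        rw [e]
        refine div_le_div_of_nonneg_left (by linarith) (by positivity) ?_
        rw [sq]
        exact mul_le_mul_of_nonneg_right h2 h3.le
      linarith
  obtain ⟨h0, h1⟩ := key K hdK le_rfl
  have h2 : 1 / m d ≤ 1 / r := one_div_le_one_div_of_le hr hd
  have h3 : 0 < 1 / m K := by positivity
  linarith

section main

variable (F : Fld S D φ zc s)

include F

/-- **THE THERMAL PART, SUMMED**, sharp in `r`. -/
theorem sum_thermal2 {d : ℕ} (hd : d ≤ S.K) {P r lam : ℝ} (hr : 0 < r) (hlam : 0 < lam)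
    (hP : ∀ l ∈ Finset.Ico d S.K, S.p l ≤ P) (hm : r ≤ S.m d)
    (hinj : ∀ l ∈ Finset.Ico d S.K, Function.Injective (zc (l + 1)))
    (hs : ∀ l ∈ Finset.Ico d S.K, 0 < s (l + 1) ∧ lam ≤ s (l + 1) ^ 2) (hP0 : 0 ≤ P) :
    ∑ l ∈ Finset.Ico d S.K, S.p l * S.pairEx l (fun x x' => (Rov φ x x' - S.Rl φ l) ^ 2) ≤
      P * (6 + 2 / (N * lam * r ^ 2)) + 2 * √(5 / 2 * P / (N * lam * r)) +
        ∑ l ∈ Finset.Ico d S.K, S.p l * vr S (fun z _ => rho S φ l z) := by
  have hS := F.hreg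
  have hN := F.N_pos
  have hp0 : ∀ l ∈ Finset.Ico d S.K, 0 ≤ S.p l := fun l hl => by
    rw [Finset.mem_Ico] at hl
    have := hS.mono l (by omega)
    unfold Sy.p
    linarith
  have hlt : ∀ l ∈ Finset.Ico d S.K, l < S.K := fun l hl => by
    rw [Finset.mem_Ico] at hl; omega
  have hmr : ∀ l ∈ Finset.Ico d S.K, r ≤ S.m (l + 1) := fun l hl => by
    rw [Finset.mem_Ico] at hl
    exact hm.trans (hS.m_mono (by omega) (by omega))
  -- termwise
  have h1 : ∀ l ∈ Finset.Ico d S.K,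
      S.p l * S.pairEx l (fun x x' => (Rov φ x x' - S.Rl φ l) ^ 2) ≤
      P * (2 / (N * lam * r ^ 2) + 1) * (S.Rl φ (l + 1) - S.Rl φ l) + 2 * P * dlb S φ l +
        2 * (S.p l / S.m (l + 1) * √(dlb S φ l / (N * lam))) +
        S.p l * vr S (fun z _ => rho S φ l z) := by
    intro l hl
    have hl' := hlt l hl
    obtain ⟨s0, s1⟩ := hs l hl
    have m1 := hmr l hl
    have hpl := hp0 l hl
    have hR := Rl_mono' F hl'
    have hD0 := dlb_nonneg F hl'
    have hm0 : 0 < S.m (l + 1) := hr.trans_le m1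
    have k := rowT F hl' (hinj l hl) s0
    have a1 : 2 / (N * s (l + 1) ^ 2 * S.m (l + 1) ^ 2) ≤ 2 / (N * lam * r ^ 2) := by
      refine div_le_div_of_nonneg_left zero_le_two (by positivity) ?_
      exact mul_le_mul (mul_le_mul_of_nonneg_left s1 hN.le)
        (pow_le_pow_left₀ hr.le m1 2) (by positivity) (by positivity)
    have a2 : √(dlb S φ l / (N * s (l + 1) ^ 2)) ≤ √(dlb S φ l / (N * lam)) := by
      refine Real.sqrt_le_sqrt (div_le_div_of_nonneg_left hD0 (by positivity) ?_)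
      exact mul_le_mul_of_nonneg_left s1 hN.le
    have a4 : 2 / S.m (l + 1) * √(dlb S φ l / (N * s (l + 1) ^ 2)) ≤
        2 / S.m (l + 1) * √(dlb S φ l / (N * lam)) :=
      mul_le_mul_of_nonneg_left a2 (by positivity)
    have a5 : (1 + 2 / (N * s (l + 1) ^ 2 * S.m (l + 1) ^ 2)) * (S.Rl φ (l + 1) - S.Rl φ l) ≤
        (2 / (N * lam * r ^ 2) + 1) * (S.Rl φ (l + 1) - S.Rl φ l) :=
      mul_le_mul_of_nonneg_right (by linarith) (by linarith)
    have k' : S.pairEx l (fun x x' => (Rov φ x x' - S.Rl φ l) ^ 2) ≤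
        (2 / (N * lam * r ^ 2) + 1) * (S.Rl φ (l + 1) - S.Rl φ l) +
        2 * dlb S φ l + 2 / S.m (l + 1) * √(dlb S φ l / (N * lam)) +
          vr S (fun z _ => rho S φ l z) := by
      linarith
    have k2 := mul_le_mul_of_nonneg_left k' hpl
    have a6 : S.p l * ((2 / (N * lam * r ^ 2) + 1) * (S.Rl φ (l + 1) - S.Rl φ l)) ≤
        P * ((2 / (N * lam * r ^ 2) + 1) * (S.Rl φ (l + 1) - S.Rl φ l)) :=
      mul_le_mul_of_nonneg_right (hP l hl) (mul_nonneg (by positivity) (by linarith))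
    have a7 : S.p l * (2 * dlb S φ l) ≤ P * (2 * dlb S φ l) :=
      mul_le_mul_of_nonneg_right (hP l hl) (by linarith)
    have e : S.p l * ((2 / (N * lam * r ^ 2) + 1) * (S.Rl φ (l + 1) - S.Rl φ l) +
        2 * dlb S φ l + 2 / S.m (l + 1) * √(dlb S φ l / (N * lam)) +
          vr S (fun z _ => rho S φ l z)) =
        S.p l * ((2 / (N * lam * r ^ 2) + 1) * (S.Rl φ (l + 1) - S.Rl φ l)) +
        S.p l * (2 * dlb S φ l) + 2 * (S.p l / S.m (l + 1) * √(dlb S φ l / (N * lam))) +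
        S.p l * vr S (fun z _ => rho S φ l z) := by ring
    rw [e] at k2
    linarith
  -- sums
  have h2 := Finset.sum_le_sum h1
  rw [Finset.sum_add_distrib, Finset.sum_add_distrib, Finset.sum_add_distrib, ← Finset.mul_sum,
    ← Finset.mul_sum, ← Finset.mul_sum] at h2
  have b1 := sum_dR_le F hd
  have b2 := sum_dlb_le F hd
  have bq : ∑ l ∈ Finset.Ico d S.K, S.p l / S.m (l + 1) ^ 2 ≤ 1 / r := by
    refine sum_inv_sq_le S.m hd hr hm fun l hl => ?_
    rw [Finset.mem_Ico] at hl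
    exact hS.mono l (by omega)
  have b3 : ∑ l ∈ Finset.Ico d S.K, S.p l / S.m (l + 1) * √(dlb S φ l / (N * lam)) ≤
      √(5 / 2 * P / (N * lam * r)) := by
    refine Real.le_sqrt_of_sq_le ?_
    have h3 := Finset.sum_mul_sq_le_sq_mul_sq (Finset.Ico d S.K)
      (fun l => √(S.p l) / S.m (l + 1))
      (fun l => √(S.p l) * √(dlb S φ l / (N * lam)))
    have e1 : ∑ l ∈ Finset.Ico d S.K, √(S.p l) / S.m (l + 1) *
        (√(S.p l) * √(dlb S φ l / (N * lam))) =
        ∑ l ∈ Finset.Ico d S.K, S.p l / S.m (l + 1) * √(dlb S φ l / (N * lam)) := by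
      refine Finset.sum_congr rfl fun l hl => ?_
      have e0 := Real.mul_self_sqrt (hp0 l hl)
      calc √(S.p l) / S.m (l + 1) * (√(S.p l) * √(dlb S φ l / (N * lam))) =
          (√(S.p l) * √(S.p l)) / S.m (l + 1) * √(dlb S φ l / (N * lam)) := by ring
        _ = _ := by rw [e0]
    have e2 : ∑ l ∈ Finset.Ico d S.K, (√(S.p l) / S.m (l + 1)) ^ 2 =
        ∑ l ∈ Finset.Ico d S.K, S.p l / S.m (l + 1) ^ 2 :=
      Finset.sum_congr rfl fun l hl => by rw [div_pow, Real.sq_sqrt (hp0 l hl)]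
    have e3 : ∑ l ∈ Finset.Ico d S.K, (√(S.p l) * √(dlb S φ l / (N * lam))) ^ 2 =
        ∑ l ∈ Finset.Ico d S.K, S.p l * (dlb S φ l / (N * lam)) := by
      refine Finset.sum_congr rfl fun l hl => ?_
      have := dlb_nonneg F (hlt l hl)
      rw [mul_pow, Real.sq_sqrt (hp0 l hl), Real.sq_sqrt (by positivity)]
    rw [e1, e2, e3] at h3
    refine h3.trans ?_
    have c1 : ∑ l ∈ Finset.Ico d S.K, S.p l * (dlb S φ l / (N * lam)) ≤
        P / (N * lam) * (5 / 2) := by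
      calc ∑ l ∈ Finset.Ico d S.K, S.p l * (dlb S φ l / (N * lam))
          ≤ ∑ l ∈ Finset.Ico d S.K, P * (dlb S φ l / (N * lam)) :=
            Finset.sum_le_sum fun l hl => mul_le_mul_of_nonneg_right (hP l hl)
              (div_nonneg (dlb_nonneg F (hlt l hl)) (by positivity))
        _ = P / (N * lam) * ∑ l ∈ Finset.Ico d S.K, dlb S φ l := by
            rw [Finset.mul_sum]
            refine Finset.sum_congr rfl fun l _ => ?_
            ring
        _ ≤ P / (N * lam) * (5 / 2) := mul_le_mul_of_nonneg_left b2 (by positivity)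
    have c2 : 0 ≤ ∑ l ∈ Finset.Ico d S.K, S.p l * (dlb S φ l / (N * lam)) :=
      Finset.sum_nonneg fun l hl => mul_nonneg (hp0 l hl)
        (div_nonneg (dlb_nonneg F (hlt l hl)) (by positivity))
    calc (∑ l ∈ Finset.Ico d S.K, S.p l / S.m (l + 1) ^ 2) *
          ∑ l ∈ Finset.Ico d S.K, S.p l * (dlb S φ l / (N * lam))
        ≤ 1 / r * (P / (N * lam) * (5 / 2)) :=
          mul_le_mul bq c1 c2 (by positivity)
      _ = 5 / 2 * P / (N * lam * r) := by field_simp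
  have c3 : P * (2 / (N * lam * r ^ 2) + 1) *
      ∑ l ∈ Finset.Ico d S.K, (S.Rl φ (l + 1) - S.Rl φ l) ≤
      P * (2 / (N * lam * r ^ 2) + 1) * 1 := mul_le_mul_of_nonneg_left b1 (by positivity)
  have c4 : 2 * P * ∑ l ∈ Finset.Ico d S.K, dlb S φ l ≤ 2 * P * (5 / 2) :=
    mul_le_mul_of_nonneg_left b2 (by positivity)
  have e : P * (6 + 2 / (N * lam * r ^ 2)) =
      P * (2 / (N * lam * r ^ 2) + 1) * 1 + 2 * P * (5 / 2) := by ring
  rw [e]
  linarith

end main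

section SN

open Vale.Agent.P146.Ub Vale.Agent.P146.Ub.Ld
open Vale.Agent.P157.Par (Path Exponents incr)

variable {n K : ℕ} {m : ℕ → ℝ} {β : ℝ}

/-- **ROW (T), SUMMED**, for the SK systems with tree fields of the strength `√lam` on the levels
`1, …, K`. -/
theorem rowT_sum {d : ℕ} (hd1 : 1 ≤ d) (hd : d ≤ K) (hN : N ≤ n) (h0 : 0 < N)
    (hm : Exponents K m) {s : ℕ → ℝ} (hs : ∀ l ≤ K, 0 ≤ s l) {P r lam : ℝ} (hr : 0 < r)
    (hlam : 0 < lam) (hmr : r ≤ m d) (hP : ∀ l ∈ Finset.Ico d K, m (l + 1) - m l ≤ P)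
    (hs' : ∀ l ∈ Finset.Ico d K, s (l + 1) = √lam) (hP0 : 0 ≤ P) :
    ∑ l ∈ Finset.Ico d K, (m (l + 1) - m l) *
      (SN n K d m β N s).pairEx l (fun x x' => (Rov (Vale.Agent.P146.Ub.ph hN) x x' -
        (SN n K d m β N s).Rl (Vale.Agent.P146.Ub.ph hN) l) ^ 2) ≤
      P * (6 + 2 / (N * lam * r ^ 2)) + 2 * √(5 / 2 * P / (N * lam * r)) +
        ∑ l ∈ Finset.Ico d K, (m (l + 1) - m l) * vr (SN n K d m β N s) (fun z _ =>
          rho (SN n K d m β N s) (Vale.Agent.P146.Ub.ph hN) l z) :=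
  sum_thermal2 (SN_fld hd hN h0 hm hs) (d := d) hd hr hlam hP hmr
    (fun l _ => zc_inj hN (l + 1))
    (fun l hl => by
      rw [hs' l hl]
      exact ⟨Real.sqrt_pos.2 hlam, by rw [Real.sq_sqrt hlam.le]⟩) hP0

end SN

end Vale.Agent.P146.H785
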