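import Vale.Agent.P146.H785.Core

set_option linter.all false

/-!
The thermal part of the variance of the overlap of two replicas which split at the level `l`:
`Var_l R = (1/N²) (E ‖C_l‖² + 2 E M_l^T C_l M_l) + Var rho_l`.
-/

open MeasureTheory ProbabilityTheory Filter Topology

namespace Vale.Agent.P146.H785

open Vale.Agent.P157.Lv Vale.Agent.P157.Lv.Sy Vale.Agent.P146.H784

variable {ι X : Type} [Fintype ι] [DecidableEq ι] [Fintype X] [DecidableEq X] [Nonempty X]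
  {S : Sy ι X} {D : ι → (ι → ℝ) → X → ℝ} {N : ℕ} {φ : X → Fin N → ℝ} {zc : ℕ → Fin N → ι}
  {s : ℕ → ℝ}

/-! ### Positivity of `C_l` -/

/-- `v^T C_l v = T_l (v.x)² - (v.M_l)²` -/
lemma cvQ_eq (hS : S.Reg) {l : ℕ} (hl : l ≤ S.K) (v : Fin N → ℝ) (z : ι → ℝ) :
    cvQ S φ l v z = S.T l (fun _ x => (∑ a, v a * φ x a) ^ 2) z -
      (S.T l (fun _ x => ∑ a, v a * φ x a) z) ^ 2 := by
  have e1 : S.T l (fun _ x => ∑ a, v a * φ x a) z = ∑ a, v a * S.mg φ l a z := by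
    rw [hS.T_sum hl _ fun a _ => Nh.const_mul (v a) (Nh.snd fun x => φ x a)]
    exact Finset.sum_congr rfl fun a _ => Sy.T_const_mul S l (v a) (fun _ x => φ x a) z
  have e2 : S.T l (fun _ x => (∑ a, v a * φ x a) ^ 2) z =
      ∑ a, ∑ b, v a * v b * S.T l (fun _ x => φ x a * φ x b) z := by
    have e3 : (fun (_ : ι → ℝ) (x : X) => (∑ a, v a * φ x a) ^ 2) =
        fun z x => ∑ a, (fun (z : ι → ℝ) (x : X) => ∑ b, v a * v b * (φ x a * φ x b)) z x := by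
      funext _ x
      rw [sq, Finset.sum_mul_sum]
      refine Finset.sum_congr rfl fun a _ => Finset.sum_congr rfl fun b _ => ?_
      ring
    rw [e3, hS.T_sum hl _ fun a _ => Nh.snd fun x => ∑ b, v a * v b * (φ x a * φ x b)]
    refine Finset.sum_congr rfl fun a _ => ?_
    rw [hS.T_sum hl _ fun b _ => Nh.const_mul (v a * v b) (Nh.snd fun x => φ x a * φ x b)]
    exact Finset.sum_congr rfl fun b _ => Sy.T_const_mul S l (v a * v b) _ z
  rw [e1, e2, sq, Finset.sum_mul_sum, ← Finset.sum_sub_distrib]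
  unfold cvQ cv
  refine Finset.sum_congr rfl fun a _ => ?_
  rw [← Finset.sum_sub_distrib]
  refine Finset.sum_congr rfl fun b _ => ?_
  ring

lemma cvQ_nonneg (hS : S.Reg) {l : ℕ} (hl : l ≤ S.K) (v : Fin N → ℝ) (z : ι → ℝ) :
    0 ≤ cvQ S φ l v z := by
  rw [cvQ_eq hS hl, sub_nonneg]
  exact hS.sq_T_le hl (Nh.snd fun x => ∑ a, v a * φ x a) z

/-- `C_l` as an average over the configuration -/
lemma cv_eq_sum (hS : S.Reg) {l : ℕ} (hl : l ≤ S.K) (a b : Fin N) (z : ι → ℝ) :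
    cv S φ l a b z = ∑ x, S.pr l z x *
      ((φ x a - S.mg φ l a z) * (φ x b - S.mg φ l b z)) := by
  have h1 := Fld.mg_eq (φ := φ) hS hl a z
  have h2 := Fld.mg_eq (φ := φ) hS hl b z
  have h3 := hS.sum_pr hl z
  have e : ∑ x, S.pr l z x * ((φ x a - S.mg φ l a z) * (φ x b - S.mg φ l b z)) =
      ∑ x, S.pr l z x * (φ x a * φ x b) - S.mg φ l b z * ∑ x, S.pr l z x * φ x a -
        S.mg φ l a z * ∑ x, S.pr l z x * φ x b + S.mg φ l a z * S.mg φ l b z *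
          ∑ x, S.pr l z x := by
    rw [Finset.mul_sum, Finset.mul_sum, Finset.mul_sum, ← Finset.sum_sub_distrib,
      ← Finset.sum_sub_distrib, ← Finset.sum_add_distrib]
    refine Finset.sum_congr rfl fun x _ => ?_
    ring
  rw [e, ← h1, ← h2, h3]
  unfold cv
  rw [hS.T_pr hl (fun x => φ x a * φ x b)]
  ring

/-- `<C_l, Q> ≥ 0` for a positive semidefinite `Q` -/
lemma cv_inner_nonneg (hS : S.Reg) {l : ℕ} (hl : l ≤ S.K) (z : ι → ℝ) {Q : Fin N → Fin N → ℝ}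
    (hQ : ∀ v : Fin N → ℝ, 0 ≤ ∑ a, ∑ b, v a * v b * Q a b) :
    0 ≤ ∑ a, ∑ b, cv S φ l a b z * Q a b := by
  have e : ∑ a, ∑ b, cv S φ l a b z * Q a b = ∑ x, S.pr l z x *
      ∑ a, ∑ b, (φ x a - S.mg φ l a z) * (φ x b - S.mg φ l b z) * Q a b := by
    simp_rw [cv_eq_sum hS hl, Finset.sum_mul, Finset.mul_sum]
    rw [Finset.sum_comm (s := (Finset.univ : Finset X))]
    refine Finset.sum_congr rfl fun a _ => ?_
    rw [Finset.sum_comm (s := (Finset.univ : Finset X))]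
    refine Finset.sum_congr rfl fun b _ => Finset.sum_congr rfl fun x _ => ?_
    ring
  rw [e]
  exact Finset.sum_nonneg fun x _ => mul_nonneg (hS.pr_nonneg hl z x) (hQ _)

/-- `T_l C_k` is positive semidefinite -/
lemma T_cv_psd (hS : S.Reg) {l k : ℕ} (hlk : l ≤ k) (hk : k ≤ S.K) (z : ι → ℝ)
    (v : Fin N → ℝ) : 0 ≤ ∑ a, ∑ b, v a * v b * S.T l (fun z _ => cv S φ k a b z) z := by
  have hl := hlk.trans hk
  have e : ∑ a, ∑ b, v a * v b * S.T l (fun z _ => cv S φ k a b z) z =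
      S.T l (fun z _ => cvQ S φ k v z) z := by
    have e1 : (fun (z : ι → ℝ) (_ : X) => cvQ S φ k v z) = fun z x => ∑ a,
        (fun (z : ι → ℝ) (_ : X) => ∑ b, v a * v b * cv S φ k a b z) z x := rfl
    rw [e1, hS.T_sum hl _ fun a _ => Nh.fst (EG.sum _ fun b _ =>
      EG.const_mul _ (eg_cv hS hk a b))]
    refine Finset.sum_congr rfl fun a _ => ?_
    rw [hS.T_sum hl _ fun b _ => Nh.fst (EG.const_mul (v a * v b) (eg_cv hS hk a b))]
    exact Finset.sum_congr rfl fun b _ => (Sy.T_const_mul S l (v a * v b) _ z).symm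
  rw [e]
  have h0 := hS.T_mono hl (f := fun _ _ => (0 : ℝ)) (g := fun z _ => cvQ S φ k v z)
    (Nh.snd fun _ => 0) (Nh.fst (EG.sum _ fun a _ => EG.sum _ fun b _ =>
      EG.const_mul _ (eg_cv hS hk a b))) (fun z y => cvQ_nonneg hS hk v z) z
  rwa [hS.T_const hl] at h0

/-- `m ‖C_l‖ ≤ ‖chi_l‖` -/
lemma cvN_le_chN (hS : S.Reg) {l : ℕ} (hl : l ≤ S.K) (z : ι → ℝ) :
    S.m (l + 1) ^ 2 * cvN S φ l z ≤ chN S φ l z := by
  obtain ⟨P, hP⟩ : ∃ P : Fin N → Fin N → ℝ, P = fun a b =>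
    ∑ k ∈ Finset.Ico (l + 1) (S.K + 1), S.p k * S.T l (fun z _ => cv S φ k a b z) z := ⟨_, rfl⟩
  have hm : 0 ≤ S.m (l + 1) := (hS.m_pos (by omega) (by omega)).le
  have e : ∀ a b, ch S φ l a b z = S.m (l + 1) * cv S φ l a b z + P a b := fun a b => by
    rw [hP]; exact ch_eq hS hl a b z
  have h1 : 0 ≤ ∑ a, ∑ b, cv S φ l a b z * P a b := by
    refine cv_inner_nonneg hS hl z fun v => ?_
    have e2 : ∑ a, ∑ b, v a * v b * P a b = ∑ k ∈ Finset.Ico (l + 1) (S.K + 1), S.p k *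
        ∑ a, ∑ b, v a * v b * S.T l (fun z _ => cv S φ k a b z) z := by
      rw [hP]
      simp_rw [Finset.mul_sum]
      symm
      rw [Finset.sum_comm]
      refine Finset.sum_congr rfl fun a _ => ?_
      rw [Finset.sum_comm]
      refine Finset.sum_congr rfl fun b _ => Finset.sum_congr rfl fun k _ => ?_
      ring
    rw [e2]
    refine Finset.sum_nonneg fun k hk => ?_
    rw [Finset.mem_Ico] at hk
    refine mul_nonneg ?_ (T_cv_psd hS (by omega) (by omega) z v)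
    have := hS.mono k (by omega)
    unfold Sy.p
    linarith
  have e3 : chN S φ l z = S.m (l + 1) ^ 2 * cvN S φ l z +
      2 * S.m (l + 1) * ∑ a, ∑ b, cv S φ l a b z * P a b + ∑ a, ∑ b, P a b ^ 2 := by
    unfold chN cvN
    simp_rw [e, Finset.mul_sum, ← Finset.sum_add_distrib]
    refine Finset.sum_congr rfl fun a _ => Finset.sum_congr rfl fun b _ => ?_
    ring
  rw [e3]
  have h2 : 0 ≤ ∑ a, ∑ b, P a b ^ 2 := by positivity
  have h3 := mul_nonneg (mul_nonneg zero_le_two hm) h1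
  linarith

/-- `w_l = T_l rho_{l+1} - rho_l` -/
noncomputable def wl (S : Sy ι X) (φ : X → Fin N → ℝ) (l : ℕ) : (ι → ℝ) → ℝ :=
  fun z => S.T l (fun z _ => rho S φ (l + 1) z) z - rho S φ l z

lemma eg_wl (hS : S.Reg) {l : ℕ} (hl : l < S.K) : EG (wl S φ l) :=
  (hS.eg_T hl.le (Nh.fst (eg_rho hS hl))).sub (eg_rho hS hl.le)

lemma wl_nonneg (hS : S.Reg) {l : ℕ} (hl : l < S.K) (z : ι → ℝ) : 0 ≤ wl S φ l z := by
  have := rho_le_T (φ := φ) hS (Nat.le_succ l) hl z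
  unfold wl
  linarith

lemma Ex_wl (hS : S.Reg) {l : ℕ} (hl : l < S.K) :
    S.Ex (fun z _ => wl S φ l z) = S.Rl φ (l + 1) - S.Rl φ l := by
  unfold wl
  rw [hS.Ex_sub (Nh.fst (hS.eg_T hl.le (Nh.fst (eg_rho hS hl)))) (Nh.fst (eg_rho hS hl.le)),
    hS.Ex_T hl.le (Nh.fst (eg_rho hS hl)), Ex_rho, Ex_rho]

lemma dM_eq (hS : S.Reg) (hN : 0 < N) {l : ℕ} (hl : l < S.K) (z : ι → ℝ) :
    dM S φ l z = N * wl S φ l z := by
  have hN' : (N : ℝ) ≠ 0 := by exact_mod_cast hN.ne'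
  unfold wl rho
  rw [Sy.T_const_mul S l (1 / (N : ℝ)) (fun z _ => ∑ i, S.mg φ (l + 1) i z ^ 2),
    hS.T_sum hl.le _ fun b _ => Nh.fst ((Fld.eg_mg hS hl b).pow 2)]
  unfold dM
  rw [Finset.sum_sub_distrib]
  field_simp

section main

variable (F : Fld S D φ zc s)

include F

/-- **THE THERMAL BOUND**, given the levels at most `l`. -/
theorem cvN_le {l : ℕ} (hl : l < S.K) (hinj : Function.Injective (zc (l + 1)))
    (hs : 0 < s (l + 1)) (z : ι → ℝ) :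
    1 / N ^ 2 * cvN S φ l z ≤
      2 / (N * s (l + 1) ^ 2 * S.m (l + 1) ^ 2) * wl S φ l z + wl S φ l z ^ 2 := by
  have hS := F.hreg
  have hN := F.N_pos
  have hm : 0 < S.m (l + 1) := hS.m_pos (by omega) (by omega)
  have h1 := chN_le F hl hinj hs z
  have h2 := cvN_le_chN (φ := φ) hS hl.le z
  rw [dM_eq hS F.N0 hl z] at h1
  have h3 := h2.trans h1
  have h4 : cvN S φ l z ≤ (2 * (N * wl S φ l z) / s (l + 1) ^ 2 +
      S.m (l + 1) ^ 2 * (N * wl S φ l z) ^ 2) / S.m (l + 1) ^ 2 := by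
    rw [le_div_iff₀ (by positivity)]
    linarith
  calc 1 / N ^ 2 * cvN S φ l z ≤ 1 / N ^ 2 * ((2 * (N * wl S φ l z) / s (l + 1) ^ 2 +
      S.m (l + 1) ^ 2 * (N * wl S φ l z) ^ 2) / S.m (l + 1) ^ 2) :=
        mul_le_mul_of_nonneg_left h4 (by positivity)
    _ = _ := by field_simp

lemma rho_le_one' {l : ℕ} (hl : l ≤ S.K) (z : ι → ℝ) : rho S φ l z ≤ 1 := by
  have hS := F.hreg
  have h := Fld.sum_mg_sq (φ := φ) hS hl z
  have e : rho S φ l z = 1 / N * ∑ i, S.mg φ l i z ^ 2 := rfl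
  rw [e, h]
  have h1 := hS.sum_pr hl z
  have h2 : ∑ x, ∑ x', S.pr l z x * S.pr l z x' = 1 := by
    simp_rw [← Finset.mul_sum]
    rw [h1]
    simp_rw [mul_one]
    exact h1
  calc ∑ x, ∑ x', S.pr l z x * S.pr l z x' * Rov φ x x' ≤ ∑ x, ∑ x', S.pr l z x * S.pr l z x' := by
        refine Finset.sum_le_sum fun x _ => Finset.sum_le_sum fun x' _ => ?_
        have h3 := (le_abs_self _).trans (F.abs_Rov_le x x')
        have h4 := mul_nonneg (hS.pr_nonneg hl z x) (hS.pr_nonneg hl z x')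
        nlinarith
    _ = 1 := h2

lemma rho_nonneg' {l : ℕ} (z : ι → ℝ) : 0 ≤ rho S φ l z := by
  unfold rho
  have := F.N_pos
  positivity

lemma wl_le_one {l : ℕ} (hl : l < S.K) (z : ι → ℝ) : wl S φ l z ≤ 1 := by
  have hS := F.hreg
  have h1 := hS.T_mono hl.le (f := fun z _ => rho S φ (l + 1) z) (g := fun _ _ => (1 : ℝ))
    (Nh.fst (eg_rho hS hl)) (Nh.snd fun _ => 1) (fun z _ => rho_le_one' F hl z) z
  rw [hS.T_const hl.le] at h1
  have h2 := rho_nonneg' F (l := l) z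
  unfold wl
  linarith

/-- the thermal bound, in mean -/
theorem Ex_cvN_le {l : ℕ} (hl : l < S.K) (hinj : Function.Injective (zc (l + 1)))
    (hs : 0 < s (l + 1)) :
    1 / N ^ 2 * S.Ex (fun z _ => cvN S φ l z) ≤
      2 / (N * s (l + 1) ^ 2 * S.m (l + 1) ^ 2) * (S.Rl φ (l + 1) - S.Rl φ l) +
        S.Ex (fun z _ => wl S φ l z ^ 2) := by
  have hS := F.hreg
  have ew := eg_wl (φ := φ) hS hl
  have ec : EG (cvN S φ l) := EG.sum _ fun a _ => EG.sum _ fun b _ => (eg_cv hS hl.le a b).pow 2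
  rw [← Sy.Ex_const_mul, ← Ex_wl hS hl, ← Sy.Ex_const_mul,
    ← hS.Ex_add (Nh.fst (EG.const_mul _ ew)) (Nh.fst (ew.pow 2))]
  exact hS.Ex_mono (Nh.fst (EG.const_mul _ ec))
    (Nh.fst ((EG.const_mul _ ew).add (ew.pow 2))) fun z _ => cvN_le F hl hinj hs z

/-- the thermal bound, robust form -/
theorem Ex_cvN_le' {l : ℕ} (hl : l < S.K) (hinj : Function.Injective (zc (l + 1)))
    (hs : 0 < s (l + 1)) :
    1 / N ^ 2 * S.Ex (fun z _ => cvN S φ l z) ≤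
      (2 / (N * s (l + 1) ^ 2 * S.m (l + 1) ^ 2) + 1) * (S.Rl φ (l + 1) - S.Rl φ l) := by
  have hS := F.hreg
  have ew := eg_wl (φ := φ) hS hl
  have h1 := Ex_cvN_le F hl hinj hs
  have h2 : S.Ex (fun z _ => wl S φ l z ^ 2) ≤ S.Rl φ (l + 1) - S.Rl φ l := by
    rw [← Ex_wl hS hl]
    refine hS.Ex_mono (Nh.fst (ew.pow 2)) (Nh.fst ew) fun z _ => ?_
    have h3 := wl_nonneg (φ := φ) hS hl z
    have h4 := wl_le_one F hl z
    nlinarith
  linarith

end main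

/-! ### The quadratic form -/

/-- `M^T C_l M` for a vector `M` depending on the disorder -/
noncomputable def Qf (S : Sy ι X) (φ : X → Fin N → ℝ) (l : ℕ) (M : Fin N → (ι → ℝ) → ℝ) :
    (ι → ℝ) → ℝ := fun z => ∑ a, ∑ b, M a z * M b z * cv S φ l a b z

lemma eg_Qf (hS : S.Reg) {l : ℕ} (hl : l ≤ S.K) {M : Fin N → (ι → ℝ) → ℝ}
    (hM : ∀ a, EG (M a)) : EG (Qf S φ l M) :=
  EG.sum _ fun a _ => EG.sum _ fun b _ => ((hM a).mul (hM b)).mul (eg_cv hS hl a b)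

lemma eg_cvN (hS : S.Reg) {l : ℕ} (hl : l ≤ S.K) : EG (cvN S φ l) :=
  EG.sum _ fun a _ => EG.sum _ fun b _ => (eg_cv hS hl a b).pow 2

lemma cvQ_le (S : Sy ι X) (φ : X → Fin N → ℝ) (l : ℕ) (v : Fin N → ℝ) (z : ι → ℝ) :
    cvQ S φ l v z ≤ √(cvN S φ l z) * ∑ a, v a ^ 2 := by
  have e1 : cvQ S φ l v z = ∑ q : Fin N × Fin N, (v q.1 * v q.2) * cv S φ l q.1 q.2 z := by
    rw [Fintype.sum_prod_type]; rfl
  have h1 := Finset.sum_mul_sq_le_sq_mul_sq Finset.univ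
    (fun q : Fin N × Fin N => v q.1 * v q.2) (fun q => cv S φ l q.1 q.2 z)
  have e2 : ∑ q : Fin N × Fin N, (v q.1 * v q.2) ^ 2 = (∑ a, v a ^ 2) ^ 2 := by
    rw [Fintype.sum_prod_type, sq (∑ a, v a ^ 2), Finset.sum_mul_sum]
    refine Finset.sum_congr rfl fun a _ => Finset.sum_congr rfl fun b _ => ?_
    ring
  have e3 : ∑ q : Fin N × Fin N, cv S φ l q.1 q.2 z ^ 2 = cvN S φ l z := by
    rw [Fintype.sum_prod_type]; rfl
  rw [e2, e3, ← e1] at h1
  have h0 : 0 ≤ ∑ a, v a ^ 2 := by positivity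
  refine (Real.le_sqrt_of_sq_le h1).trans (le_of_eq ?_)
  rw [Real.sqrt_mul (by positivity), Real.sqrt_sq h0, mul_comm]

/-- `M^T C M ≤ 2 M'^T C M' + ‖C‖² + |M - M'|⁴` -/
lemma Qf_le (hS : S.Reg) {l : ℕ} (hl : l ≤ S.K) (M M' : Fin N → (ι → ℝ) → ℝ) (z : ι → ℝ) :
    Qf S φ l M z ≤ 2 * Qf S φ l M' z + cvN S φ l z + (∑ a, (M a z - M' a z) ^ 2) ^ 2 := by
  have h1 := cvQ_nonneg (φ := φ) hS hl (fun a => 2 * M' a z - M a z) z
  have h2 := cvQ_le S φ l (fun a => M a z - M' a z) z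
  have e : cvQ S φ l (fun a => 2 * M' a z - M a z) z = 2 * Qf S φ l M' z +
      2 * cvQ S φ l (fun a => M a z - M' a z) z - Qf S φ l M z := by
    have sym : ∑ a, ∑ b, M a z * M' b z * cv S φ l a b z =
        ∑ a, ∑ b, M' a z * M b z * cv S φ l a b z := by
      rw [Finset.sum_comm]
      refine Finset.sum_congr rfl fun a _ => Finset.sum_congr rfl fun b _ => ?_
      rw [cv_comm S φ l b a z]
      ring
    have e1 : cvQ S φ l (fun a => 2 * M' a z - M a z) z = 4 * Qf S φ l M' z -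
        2 * ∑ a, ∑ b, M' a z * M b z * cv S φ l a b z -
        2 * ∑ a, ∑ b, M a z * M' b z * cv S φ l a b z + Qf S φ l M z := by
      unfold cvQ Qf
      simp only [Finset.mul_sum, ← Finset.sum_sub_distrib, ← Finset.sum_add_distrib]
      refine Finset.sum_congr rfl fun a _ => Finset.sum_congr rfl fun b _ => ?_
      ring
    have e2 : cvQ S φ l (fun a => M a z - M' a z) z = Qf S φ l M z -
        ∑ a, ∑ b, M' a z * M b z * cv S φ l a b z -
        ∑ a, ∑ b, M a z * M' b z * cv S φ l a b z + Qf S φ l M' z := by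
      unfold cvQ Qf
      simp only [← Finset.sum_sub_distrib, ← Finset.sum_add_distrib]
      refine Finset.sum_congr rfl fun a _ => Finset.sum_congr rfl fun b _ => ?_
      ring
    rw [e1, e2, sym]
    ring
  rw [e] at h1
  have h3 : 0 ≤ cvN S φ l z := by unfold cvN; positivity
  obtain ⟨c, hc⟩ : ∃ c, c = √(cvN S φ l z) := ⟨_, rfl⟩
  obtain ⟨d, hd⟩ : ∃ d, d = ∑ a, (M a z - M' a z) ^ 2 := ⟨_, rfl⟩
  have h4 : c ^ 2 = cvN S φ l z := by rw [hc, Real.sq_sqrt h3]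
  rw [← hc, ← hd] at h2
  rw [← h4, ← hd]
  nlinarith [sq_nonneg (c - d)]

/-- the decomposition of the variance of the overlap -/
theorem pair_var_eq (F : Fld S D φ zc s) {l : ℕ} (hl : l ≤ S.K) :
    S.pairEx l (fun x x' => Rov φ x x' ^ 2) - S.Rl φ l ^ 2 =
      1 / N ^ 2 * S.Ex (fun z _ => cvN S φ l z) +
        2 * (1 / N ^ 2 * S.Ex (fun z _ => Qf S φ l (S.mg φ l) z)) +
        vr S (fun z _ => rho S φ l z) := by
  have hS := F.hreg
  have hN := F.N_pos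
  have em : ∀ a, EG (S.mg φ l a) := fun a => Fld.eg_mg hS hl a
  have e1 := F.pairEx_Rov_sq hl
  have e2 : (fun (z : ι → ℝ) (_ : X) => ∑ a, ∑ b,
      S.T l (fun _ x => φ x a * φ x b) z * S.T l (fun _ x => φ x a * φ x b) z) =
      fun z x => ((fun (z : ι → ℝ) (_ : X) => cvN S φ l z) z x +
        (fun (z : ι → ℝ) (_ : X) => 2 * Qf S φ l (S.mg φ l) z) z x) +
        (fun (z : ι → ℝ) (_ : X) => (N : ℝ) ^ 2 * rho S φ l z ^ 2) z x := by
    funext z _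
    have e3 : (N : ℝ) ^ 2 * rho S φ l z ^ 2 =
        ∑ a, ∑ b, (S.mg φ l a z * S.mg φ l b z) ^ 2 := by
      unfold rho
      have e4 : ∑ a, ∑ b, (S.mg φ l a z * S.mg φ l b z) ^ 2 = (∑ i, S.mg φ l i z ^ 2) ^ 2 := by
        rw [sq (∑ i, S.mg φ l i z ^ 2), Finset.sum_mul_sum]
        refine Finset.sum_congr rfl fun a _ => Finset.sum_congr rfl fun b _ => ?_
        ring
      rw [e4]
      field_simp
    have e5 : ∀ a b, S.T l (fun _ x => φ x a * φ x b) z =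
        cv S φ l a b z + S.mg φ l a z * S.mg φ l b z := fun a b => by
      unfold cv; ring
    show ∑ a, ∑ b, S.T l (fun _ x => φ x a * φ x b) z * S.T l (fun _ x => φ x a * φ x b) z =
      (cvN S φ l z + 2 * Qf S φ l (S.mg φ l) z) + (N : ℝ) ^ 2 * rho S φ l z ^ 2
    rw [e3]
    unfold cvN Qf
    simp only [e5, Finset.mul_sum, ← Finset.sum_add_distrib]
    refine Finset.sum_congr rfl fun a _ => Finset.sum_congr rfl fun b _ => ?_
    ring
  have er : EG (rho S φ l) := eg_rho hS hl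
  have e6 : vr S (fun z _ => rho S φ l z) =
      S.Ex (fun z _ => rho S φ l z ^ 2) - S.Rl φ l ^ 2 := by
    unfold vr
    rw [Ex_rho]
    have e7 : (fun (z : ι → ℝ) (_ : X) => (rho S φ l z - S.Rl φ l) ^ 2) =
        fun z x => ((fun (z : ι → ℝ) (_ : X) => rho S φ l z ^ 2) z x -
          (fun (z : ι → ℝ) (_ : X) => 2 * S.Rl φ l * rho S φ l z) z x) +
          (fun (_ : ι → ℝ) (_ : X) => S.Rl φ l ^ 2) z x := by
      funext z _
      ring
    rw [e7, hS.Ex_add (Nh.sub (Nh.fst (er.pow 2)) (Nh.fst (EG.const_mul _ er)))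
      (Nh.fst (EG.const _)), hS.Ex_sub (Nh.fst (er.pow 2)) (Nh.fst (EG.const_mul _ er)),
      hS.Ex_const, Sy.Ex_const_mul S (2 * S.Rl φ l) (fun z _ => rho S φ l z), Ex_rho]
    ring
  rw [e1, e2, hS.Ex_add (Nh.add (Nh.fst (eg_cvN hS hl)) (Nh.fst (EG.const_mul _
      (eg_Qf hS hl em)))) (Nh.fst (EG.const_mul _ (er.pow 2))),
    hS.Ex_add (Nh.fst (eg_cvN hS hl)) (Nh.fst (EG.const_mul _ (eg_Qf hS hl em))),
    Sy.Ex_const_mul S 2 (fun z _ => Qf S φ l (S.mg φ l) z),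
    Sy.Ex_const_mul S ((N : ℝ) ^ 2) (fun z _ => rho S φ l z ^ 2), e6]
  field_simp
  ring

/-- **THE VARIANCE OF THE OVERLAP**, with an auxiliary vector `M'` (for instance the average of
the magnetization over a cell). -/
theorem pair_var_le (F : Fld S D φ zc s) {l : ℕ} (hl : l ≤ S.K) {M' : Fin N → (ι → ℝ) → ℝ}
    (hM' : ∀ a, EG (M' a)) :
    S.pairEx l (fun x x' => Rov φ x x' ^ 2) - S.Rl φ l ^ 2 ≤
      3 * (1 / N ^ 2 * S.Ex (fun z _ => cvN S φ l z)) +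
        4 * (1 / N ^ 2 * S.Ex (fun z _ => Qf S φ l M' z)) +
        2 * S.Ex (fun z _ => (1 / N * ∑ a, (S.mg φ l a z - M' a z) ^ 2) ^ 2) +
        vr S (fun z _ => rho S φ l z) := by
  have hS := F.hreg
  have hN := F.N_pos
  have em : ∀ a, EG (S.mg φ l a) := fun a => Fld.eg_mg hS hl a
  have ed : EG (fun z => ∑ a, (S.mg φ l a z - M' a z) ^ 2) :=
    EG.sum _ fun a _ => ((em a).sub (hM' a)).pow 2
  have h1 := hS.Ex_mono (f := fun z _ => Qf S φ l (S.mg φ l) z)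
    (g := fun z x => ((fun (z : ι → ℝ) (_ : X) => 2 * Qf S φ l M' z) z x +
      (fun (z : ι → ℝ) (_ : X) => cvN S φ l z) z x) +
      (fun (z : ι → ℝ) (_ : X) => (N : ℝ) ^ 2 *
        (1 / N * ∑ a, (S.mg φ l a z - M' a z) ^ 2) ^ 2) z x)
    (Nh.fst (eg_Qf hS hl em)) (Nh.add (Nh.add (Nh.fst (EG.const_mul _ (eg_Qf hS hl hM')))
      (Nh.fst (eg_cvN hS hl))) (Nh.fst (EG.const_mul _ ((EG.const_mul _ ed).pow 2))))
    (fun z _ => by
      have h2 := Qf_le (φ := φ) hS hl (S.mg φ l) M' z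
      show Qf S φ l (S.mg φ l) z ≤ (2 * Qf S φ l M' z + cvN S φ l z) + (N : ℝ) ^ 2 *
        (1 / N * ∑ a, (S.mg φ l a z - M' a z) ^ 2) ^ 2
      refine h2.trans (le_of_eq ?_)
      field_simp)
  rw [hS.Ex_add (Nh.add (Nh.fst (EG.const_mul _ (eg_Qf hS hl hM')))
      (Nh.fst (eg_cvN hS hl))) (Nh.fst (EG.const_mul _ ((EG.const_mul _ ed).pow 2))),
    hS.Ex_add (Nh.fst (EG.const_mul _ (eg_Qf hS hl hM'))) (Nh.fst (eg_cvN hS hl)),
    Sy.Ex_const_mul S 2 (fun z _ => Qf S φ l M' z),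
    Sy.Ex_const_mul S ((N : ℝ) ^ 2)
      (fun z _ => (1 / N * ∑ a, (S.mg φ l a z - M' a z) ^ 2) ^ 2)] at h1
  rw [pair_var_eq F hl]
  have h3 := mul_le_mul_of_nonneg_left h1 (by positivity : 0 ≤ 1 / (N : ℝ) ^ 2)
  have e : 1 / (N : ℝ) ^ 2 * (2 * S.Ex (fun z _ => Qf S φ l M' z) +
      S.Ex (fun z _ => cvN S φ l z) + (N : ℝ) ^ 2 *
        S.Ex (fun z _ => (1 / N * ∑ a, (S.mg φ l a z - M' a z) ^ 2) ^ 2)) =
      2 * (1 / (N : ℝ) ^ 2 * S.Ex (fun z _ => Qf S φ l M' z)) +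
      1 / (N : ℝ) ^ 2 * S.Ex (fun z _ => cvN S φ l z) +
        S.Ex (fun z _ => (1 / N * ∑ a, (S.mg φ l a z - M' a z) ^ 2) ^ 2) := by
    field_simp
  rw [e] at h3
  linarith

end Vale.Agent.P146.H785
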