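import Vale.Agent.P146.Bdl.B2
import Mathlib.MeasureTheory.Function.Jacobian
import Mathlib.Analysis.Matrix.PosDef

/-!
Transport of a Gaussian measure by `z ↦ z + c D z`, where the derivative of `D` is a symmetric
positive semidefinite matrix: change of variables inequality and the variational inequality `TR`.
-/

open MeasureTheory ProbabilityTheory
open scoped ENNReal Matrix

namespace Vale.Agent.P146.H785

open Vale.Agent.P157.Lv

set_option linter.unusedSectionVars false

variable {κ : Type} [Fintype κ]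

/-- The density of the standard Gaussian measure. -/
noncomputable def gd (z : κ → ℝ) : ℝ := ∏ i, gaussianPDFReal 0 1 (z i)

lemma gd_eq (z : κ → ℝ) : gd z = (√(2 * Real.pi))⁻¹ ^ (Fintype.card κ) *
    Real.exp (-(∑ i, z i ^ 2) / 2) := by
  unfold gd gaussianPDFReal
  rw [Finset.prod_mul_distrib]
  congr 1
  · simp
  · rw [← Real.exp_sum]
    congr 1
    simp [Finset.sum_div, Finset.sum_neg_distrib, neg_div]

lemma gd_pos (z : κ → ℝ) : 0 < gd z := by
  rw [gd_eq]; positivity

lemma gd_meas : Measurable (gd (κ := κ)) := by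
  unfold gd
  exact Finset.measurable_prod _ fun i _ =>
    (measurable_gaussianPDFReal 0 1).comp (measurable_pi_apply i)

lemma gI_eq : gI κ = (volume : Measure (κ → ℝ)).withDensity (fun z => ENNReal.ofReal (gd z)) := by
  refine Measure.pi_eq fun s hs => ?_
  rw [withDensity_apply _ (MeasurableSet.univ_pi hs)]
  have h1 : ∀ z : κ → ℝ, (Set.univ.pi s).indicator (fun z => ENNReal.ofReal (gd z)) z =
      ENNReal.ofReal (∏ i, (s i).indicator (gaussianPDFReal 0 1) (z i)) := by
    classical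
    intro z
    by_cases hz : z ∈ Set.univ.pi s
    · rw [Set.indicator_of_mem hz]
      congr 1
      unfold gd
      refine Finset.prod_congr rfl fun i _ => ?_
      rw [Set.indicator_of_mem (hz i (Set.mem_univ i))]
    · rw [Set.indicator_of_notMem hz]
      rw [Set.mem_univ_pi] at hz
      obtain ⟨i, hi⟩ := not_forall.1 hz
      rw [Finset.prod_eq_zero (Finset.mem_univ i) (Set.indicator_of_notMem hi _)]
      simp
  rw [← lintegral_indicator (MeasurableSet.univ_pi hs)]
  simp_rw [h1]
  have hint : ∀ i, Integrable ((s i).indicator (gaussianPDFReal 0 1)) volume := fun i =>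
    (integrable_gaussianPDFReal 0 1).indicator (hs i)
  have hnn : ∀ i (x : ℝ), 0 ≤ (s i).indicator (gaussianPDFReal 0 1) x := fun i x =>
    Set.indicator_nonneg (fun x _ => gaussianPDFReal_nonneg 0 1 x) x
  have hI : Integrable (fun z : κ → ℝ => ∏ i, (s i).indicator (gaussianPDFReal 0 1) (z i))
      volume := by
    rw [volume_pi]
    exact Integrable.fintype_prod hint
  rw [← ofReal_integral_eq_lintegral_ofReal hI
    (Filter.Eventually.of_forall fun z => Finset.prod_nonneg fun i _ => hnn i (z i)),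
    integral_fintype_prod_volume_eq_prod (fun i => (s i).indicator (gaussianPDFReal 0 1)),
    ENNReal.ofReal_prod_of_nonneg fun i _ => integral_nonneg (hnn i)]
  refine Finset.prod_congr rfl fun i _ => ?_
  rw [integral_indicator (hs i), gaussianReal_apply_eq_integral _ (by norm_num)]

lemma lint_gI {g : (κ → ℝ) → ℝ≥0∞} : ∫⁻ z, g z ∂(gI κ) =
    ∫⁻ z, ENNReal.ofReal (gd z) * g z := by
  rw [gI_eq, lintegral_withDensity_eq_lintegral_mul_non_measurable₀ _
    gd_meas.ennreal_ofReal.aemeasurable]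
  · simp
  · exact Filter.Eventually.of_forall fun z => ENNReal.ofReal_lt_top

/-! ### the map -/

/-- The transport map. -/
noncomputable def tm (c : ℝ) (D : κ → (κ → ℝ) → ℝ) (z : κ → ℝ) : κ → ℝ := fun e => z e + c * D e z

/-- `H` is the derivative of `D`. -/
def Dv (D : κ → (κ → ℝ) → ℝ) (H : κ → κ → (κ → ℝ) → ℝ) : Prop :=
  ∀ e z, HasFDerivAt (D e) (∑ i, H e i z • (ContinuousLinearMap.proj i : (κ → ℝ) →L[ℝ] ℝ)) z

/-- `H` is positive semidefinite. -/
def Ps (H : κ → κ → (κ → ℝ) → ℝ) : Prop := ∀ z v : κ → ℝ, 0 ≤ ∑ e, ∑ i, H e i z * v e * v i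

variable {D : κ → (κ → ℝ) → ℝ} {H : κ → κ → (κ → ℝ) → ℝ} {c : ℝ}

/-- `D` is monotone. -/
lemma mono_of (hD : Dv D H) (hP : Ps H) (y z : κ → ℝ) :
    0 ≤ ∑ e, (D e z - D e y) * (z e - y e) := by
  set v : κ → ℝ := z - y with hv
  set φ : ℝ → ℝ := fun t => ∑ e, D e (y + t • v) * v e with hφ
  have hd : ∀ t, HasDerivAt φ (∑ e, (∑ i, H e i (y + t • v) * v i) * v e) t := by
    intro t
    refine HasDerivAt.fun_sum fun e _ => ?_
    refine HasDerivAt.mul_const ?_ _
    have h1 : HasDerivAt (fun t : ℝ => y + t • v) v t := by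
      simpa using ((hasDerivAt_id t).smul_const v).const_add y
    have h2 := (hD e (y + t • v)).comp_hasDerivAt t h1
    refine h2.congr_deriv ?_
    simp
  have hm : Monotone φ := by
    refine monotone_of_deriv_nonneg (fun t => (hd t).differentiableAt) fun t => ?_
    rw [(hd t).deriv]
    refine (hP (y + t • v) v).trans_eq ?_
    refine Finset.sum_congr rfl fun e _ => ?_
    rw [Finset.sum_mul]
    exact Finset.sum_congr rfl fun i _ => by ring
  have h3 := hm zero_le_one
  simp only [hφ, zero_smul, add_zero, one_smul] at h3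
  have h4 : y + v = z := by rw [hv]; abel
  rw [h4] at h3
  rw [← sub_nonneg, ← Finset.sum_sub_distrib] at h3
  refine h3.trans_eq (Finset.sum_congr rfl fun e _ => ?_)
  simp only [hv, Pi.sub_apply]
  ring

lemma tm_inj (hD : Dv D H) (hP : Ps H) (hc : 0 ≤ c) : Function.Injective (tm c D) := by
  intro z y h
  have h1 := mono_of hD hP y z
  have h2 : ∀ e, z e - y e = -(c * (D e z - D e y)) := by
    intro e
    have := congrFun h e
    simp only [tm] at this
    linarith
  have h3 : ∑ e, (z e - y e) ^ 2 ≤ 0 := by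
    have : ∑ e, (z e - y e) ^ 2 = -(c * ∑ e, (D e z - D e y) * (z e - y e)) := by
      rw [Finset.mul_sum, ← Finset.sum_neg_distrib]
      refine Finset.sum_congr rfl fun e _ => ?_
      have := h2 e
      rw [sq]
      nth_rewrite 1 [this]
      ring
    rw [this]
    nlinarith [mul_nonneg hc h1]
  funext e
  have h4 : (z e - y e) ^ 2 ≤ 0 :=
    (Finset.single_le_sum (f := fun e => (z e - y e) ^ 2) (fun i _ => sq_nonneg _)
      (Finset.mem_univ e)).trans h3
  nlinarith [sq_nonneg (z e - y e)]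

variable [DecidableEq κ]

/-- The matrix of the derivative of the transport map. -/
noncomputable def mt (c : ℝ) (H : κ → κ → (κ → ℝ) → ℝ) (z : κ → ℝ) : Matrix κ κ ℝ :=
  1 + c • Matrix.of fun e i => H e i z

lemma tm_deriv (hD : Dv D H) (z : κ → ℝ) :
    HasFDerivAt (tm c D) (LinearMap.toContinuousLinearMap (Matrix.toLin' (mt c H z))) z := by
  rw [hasFDerivAt_pi']
  intro e
  have h1 : HasFDerivAt (fun z : κ → ℝ => z e + c * D e z)
      ((ContinuousLinearMap.proj e : (κ → ℝ) →L[ℝ] ℝ) +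
        c • ∑ i, H e i z • (ContinuousLinearMap.proj i : (κ → ℝ) →L[ℝ] ℝ)) z :=
    (hasFDerivAt_apply e z).add ((hD e z).const_mul c)
  refine h1.congr_fderiv ?_
  ext v
  simp only [add_apply, ContinuousLinearMap.proj_apply,
    smul_apply, sum_apply, smul_eq_mul,
    ContinuousLinearMap.comp_apply, LinearMap.coe_toContinuousLinearMap', Matrix.toLin'_apply,
    mt, Matrix.add_mulVec, Matrix.one_mulVec, Matrix.smul_mulVec, Pi.add_apply, Pi.smul_apply,
    Matrix.mulVec, dotProduct, Matrix.of_apply]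

lemma det_tm (z : κ → ℝ) :
    (LinearMap.toContinuousLinearMap (Matrix.toLin' (mt c H z))).det = (mt c H z).det := by
  rw [ContinuousLinearMap.det, LinearMap.coe_toContinuousLinearMap, LinearMap.det_toLin']

lemma log_ge {t : ℝ} (ht : 1 ≤ t) : (t - 1) - (t - 1) ^ 2 / 2 ≤ Real.log t := by
  have key : MonotoneOn (fun u : ℝ => Real.log u - ((u - 1) - (u - 1) ^ 2 / 2)) (Set.Ici 1) := by
    refine monotoneOn_of_deriv_nonneg (convex_Ici 1) ?_ ?_ ?_
    · refine ContinuousOn.sub (Real.continuousOn_log.mono fun u hu => ?_) (by fun_prop)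
      simp only [Set.mem_Ici] at hu
      simp; linarith
    · intro u hu
      rw [interior_Ici, Set.mem_Ioi] at hu
      refine DifferentiableAt.differentiableWithinAt ?_
      refine (Real.differentiableAt_log (by linarith)).sub (by fun_prop)
    · intro u hu
      rw [interior_Ici, Set.mem_Ioi] at hu
      have h1 : HasDerivAt (fun u : ℝ => Real.log u - ((u - 1) - (u - 1) ^ 2 / 2))
          (u⁻¹ - (1 - (u - 1))) u := by
        have h2 : HasDerivAt (fun u : ℝ => (u - 1) - (u - 1) ^ 2 / 2) (1 - (u - 1)) u := by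
          have h3 : HasDerivAt (fun u : ℝ => u - 1) 1 u := (hasDerivAt_id u).sub_const 1
          refine (h3.sub ((h3.pow 2).div_const 2)).congr_deriv ?_
          simp
        exact (Real.hasDerivAt_log (by linarith)).sub h2
      rw [h1.deriv]
      have h4 : 0 < u := by linarith
      have h5 : u⁻¹ - (1 - (u - 1)) = (u - 1) ^ 2 / u := by field_simp; ring
      rw [h5]
      positivity
  have h1 := key (Set.mem_Ici.2 le_rfl) (Set.mem_Ici.2 ht) ht
  simp only [Real.log_one, sub_self] at h1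
  norm_num at h1
  linarith

/-- The determinant inequality. -/
lemma det_ge {A : Matrix κ κ ℝ} (hA : A.PosSemidef) (hc : 0 ≤ c) :
    Real.exp (c * A.trace - c ^ 2 / 2 * ∑ e, ∑ i, A e i ^ 2) ≤ (1 + c • A).det := by
  have h0 := hA.eigenvalues_nonneg
  set l : κ → ℝ := hA.1.eigenvalues with hl
  set U := hA.1.eigenvectorUnitary with hU
  set φ := Unitary.conjStarAlgAut ℝ _ U with hφ
  have hs : A = φ (Matrix.diagonal l) := hA.1.spectral_theorem
  have hdet : ∀ X : Matrix κ κ ℝ, (φ X).det = X.det := by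
    intro X
    rw [hφ, Unitary.conjStarAlgAut_apply, Matrix.det_mul_right_comm,
      Unitary.mul_star_self_of_mem U.2, one_mul]
  have htr : ∀ X : Matrix κ κ ℝ, (φ X).trace = X.trace := by
    intro X
    rw [hφ, Unitary.conjStarAlgAut_apply, Matrix.trace_mul_cycle,
      Unitary.star_mul_self_of_mem U.2, one_mul]
  have e1 : (1 + c • A).det = ∏ i, (1 + c * l i) := by
    have : 1 + c • A = φ (Matrix.diagonal fun i => 1 + c * l i) := by
      rw [hs]
      rw [← map_smul, ← map_one φ, ← map_add]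
      congr 1
      rw [← Matrix.diagonal_one, ← Matrix.diagonal_smul, Matrix.diagonal_add]
      rfl
    rw [this, hdet, Matrix.det_diagonal]
  have e2 : A.trace = ∑ i, l i := by
    rw [hs, htr, Matrix.trace_diagonal]
  have e3 : ∑ e, ∑ i, A e i ^ 2 = ∑ i, l i ^ 2 := by
    have h1 : ∑ e, ∑ i, A e i ^ 2 = (A * A).trace := by
      rw [Matrix.trace]
      refine Finset.sum_congr rfl fun e _ => ?_
      rw [Matrix.diag_apply, Matrix.mul_apply]
      refine Finset.sum_congr rfl fun i _ => ?_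
      have h2 : A i e = A e i := by
        have := congrFun (congrFun hA.1.eq e) i
        simpa [Matrix.conjTranspose_apply] using this
      rw [h2, sq]
    rw [h1]
    have : A * A = φ (Matrix.diagonal fun i => l i ^ 2) := by
      nth_rewrite 1 2 [hs]
      rw [← map_mul, Matrix.diagonal_mul_diagonal]
      congr 2
      funext i
      ring
    rw [this, htr, Matrix.trace_diagonal]
  rw [e1, e2, e3, Finset.mul_sum, Finset.mul_sum, ← Finset.sum_sub_distrib, Real.exp_sum]
  refine Finset.prod_le_prod (fun i _ => (Real.exp_pos _).le) fun i _ => ?_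
  have h1 : 0 ≤ c * l i := mul_nonneg hc (h0 i)
  have h2 := log_ge (t := 1 + c * l i) (by linarith)
  rw [← Real.le_log_iff_exp_le (by linarith)]
  refine le_trans (le_of_eq ?_) h2
  ring

/-- The change of variables inequality. -/
lemma lint_le (hD : Dv D H) (hP : Ps H) (hc : 0 ≤ c) (g : (κ → ℝ) → ℝ≥0∞) :
    ∫⁻ z, ENNReal.ofReal (|(mt c H z).det| *
      Real.exp (-(c * ∑ e, z e * D e z) - c ^ 2 / 2 * ∑ e, D e z ^ 2)) * g (tm c D z) ∂(gI κ) ≤
      ∫⁻ z, g z ∂(gI κ) := by
  rw [lint_gI, lint_gI (g := g)]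
  calc ∫⁻ z, ENNReal.ofReal (gd z) * (ENNReal.ofReal (|(mt c H z).det| *
      Real.exp (-(c * ∑ e, z e * D e z) - c ^ 2 / 2 * ∑ e, D e z ^ 2)) * g (tm c D z))
      = ∫⁻ z in Set.univ, ENNReal.ofReal
        |(LinearMap.toContinuousLinearMap (Matrix.toLin' (mt c H z))).det| *
        (ENNReal.ofReal (gd (tm c D z)) * g (tm c D z)) := by
        rw [Measure.restrict_univ]
        refine lintegral_congr fun z => ?_
        rw [det_tm, ← mul_assoc, ← mul_assoc, ← ENNReal.ofReal_mul (gd_pos z).le,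
          ← ENNReal.ofReal_mul (abs_nonneg _)]
        congr 2
        rw [gd_eq, gd_eq]
        have e1 : Real.exp (-(∑ i, tm c D z i ^ 2) / 2) = Real.exp (-(∑ i, z i ^ 2) / 2) *
            Real.exp (-(c * ∑ e, z e * D e z) - c ^ 2 / 2 * ∑ e, D e z ^ 2) := by
          rw [← Real.exp_add]
          congr 1
          have : ∑ i, tm c D z i ^ 2 = ∑ i, z i ^ 2 + 2 * (c * ∑ e, z e * D e z) +
              c ^ 2 * ∑ e, D e z ^ 2 := by
            rw [Finset.mul_sum, Finset.mul_sum, Finset.mul_sum, ← Finset.sum_add_distrib,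
              ← Finset.sum_add_distrib]
            refine Finset.sum_congr rfl fun e _ => ?_
            simp only [tm]
            ring
          rw [this]
          ring
        rw [e1]
        ring
    _ = ∫⁻ z in tm c D '' Set.univ, ENNReal.ofReal (gd z) * g z :=
        (lintegral_image_eq_lintegral_abs_det_fderiv_mul volume MeasurableSet.univ
          (fun z _ => (tm_deriv hD z).hasFDerivWithinAt) (tm_inj hD hP hc).injOn
          (fun z => ENNReal.ofReal (gd z) * g z)).symm
    _ ≤ ∫⁻ z, ENNReal.ofReal (gd z) * g z := setLIntegral_le_lintegral _ _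

/-! ### the variational inequality -/

lemma psd_of (hS : ∀ e i z, H e i z = H i e z) (hP : Ps H) (z : κ → ℝ) :
    (Matrix.of fun e i => H e i z).PosSemidef := by
  refine Matrix.PosSemidef.of_dotProduct_mulVec_nonneg ?_ fun v => ?_
  · unfold Matrix.IsHermitian
    ext e i
    simp [Matrix.conjTranspose_apply, hS i e z]
  · refine (hP z v).trans_eq ?_
    simp only [dotProduct, Matrix.mulVec, Matrix.of_apply, star_trivial]
    refine Finset.sum_congr rfl fun e _ => ?_
    rw [Finset.mul_sum]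
    exact Finset.sum_congr rfl fun i _ => by ring

/-- The exponent of the transported density. -/
noncomputable def tx (c : ℝ) (D : κ → (κ → ℝ) → ℝ) (H : κ → κ → (κ → ℝ) → ℝ) (z : κ → ℝ) : ℝ :=
  c * ∑ e, (z e * D e z - H e e z) + c ^ 2 / 2 * (∑ e, D e z ^ 2 + ∑ e, ∑ i, H e i z ^ 2)

lemma lint_exp_le (hD : Dv D H) (hS : ∀ e i z, H e i z = H i e z) (hP : Ps H) (hc : 0 ≤ c)
    (Φ : (κ → ℝ) → ℝ) :
    ∫⁻ z, ENNReal.ofReal (Real.exp (Φ (tm c D z) - tx c D H z)) ∂(gI κ) ≤
      ∫⁻ z, ENNReal.ofReal (Real.exp (Φ z)) ∂(gI κ) := by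
  refine le_trans (lintegral_mono fun z => ?_)
    (lint_le hD hP hc fun z => ENNReal.ofReal (Real.exp (Φ z)))
  rw [← ENNReal.ofReal_mul (by positivity)]
  refine ENNReal.ofReal_le_ofReal ?_
  have h1 := det_ge (psd_of hS hP z) hc
  have h2 : Real.exp (Φ (tm c D z) - tx c D H z) =
      Real.exp (c * (Matrix.of fun e i => H e i z).trace -
        c ^ 2 / 2 * ∑ e, ∑ i, (Matrix.of fun e i => H e i z) e i ^ 2) *
      Real.exp (-(c * ∑ e, z e * D e z) - c ^ 2 / 2 * ∑ e, D e z ^ 2) *
      Real.exp (Φ (tm c D z)) := by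
    rw [← Real.exp_add, ← Real.exp_add]
    congr 1
    simp only [tx, Matrix.trace, Matrix.diag_apply, Matrix.of_apply, Finset.sum_sub_distrib]
    ring
  rw [h2]
  gcongr
  exact h1.trans (le_abs_self _)

lemma Dv.cont (hD : Dv D H) (e : κ) : Continuous (D e) :=
  continuous_iff_continuousAt.2 fun z => (hD e z).continuousAt

lemma norm_tm_le {B : ℝ} (hB : 0 ≤ B) (hb : ∀ e z, |D e z| ≤ B) (hc : 0 ≤ c) (z : κ → ℝ) :
    ‖tm c D z‖ ≤ ‖z‖ + c * B := by
  rw [pi_norm_le_iff_of_nonneg (by positivity)]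
  intro e
  rw [Real.norm_eq_abs]
  have h1 := norm_le_pi_norm z e
  rw [Real.norm_eq_abs] at h1
  have h2 : |c * D e z| ≤ c * B := by
    rw [abs_mul, abs_of_nonneg hc]
    exact mul_le_mul_of_nonneg_left (hb e z) hc
  exact (abs_add_le _ _).trans (by linarith)

lemma eg_tx {B : ℝ} (hD : Dv D H) (hb : ∀ e z, |D e z| ≤ B) (hHm : ∀ e i, Measurable (H e i))
    (hHb : ∀ e i z, |H e i z| ≤ B) : EG (tx c D H) := by
  have h1 : ∀ e, EG (D e) := fun e => EG.of_bdd (hD.cont e).measurable (hb e)
  have h2 : ∀ e i, EG (H e i) := fun e i => EG.of_bdd (hHm e i) (hHb e i)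
  unfold tx
  refine EG.add (EG.const_mul _ (EG.sum _ fun e _ => ((EG.coord e).mul (h1 e)).sub (h2 e e)))
    (EG.const_mul _ (EG.add (EG.sum _ fun e _ => ?_) (EG.sum _ fun e _ => EG.sum _ fun i _ => ?_)))
  · simpa [sq] using (h1 e).mul (h1 e)
  · simpa [sq] using (h2 e i).mul (h2 e i)

lemma eg_comp_tm {B : ℝ} (hB : 0 ≤ B) (hD : Dv D H) (hb : ∀ e z, |D e z| ≤ B) (hc : 0 ≤ c)
    {Φ : (κ → ℝ) → ℝ} (hΦ : EG Φ) : EG fun z => Φ (tm c D z) := by
  obtain ⟨C, a, hC, ha, h⟩ := hΦ.bdd
  have hm : Measurable (tm c D) := by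
    refine measurable_pi_lambda _ fun e => ?_
    exact (measurable_pi_apply e).add ((hD.cont e).measurable.const_mul c)
  refine ⟨hΦ.meas.comp hm, C * Real.exp (a * (c * B)), a, by positivity, ha, fun y => ?_⟩
  refine (h _).trans ?_
  rw [mul_assoc, ← Real.exp_add]
  refine mul_le_mul_of_nonneg_left (Real.exp_le_exp.2 ?_) hC
  have := mul_le_mul_of_nonneg_left (norm_tm_le hB hb hc y) ha
  linarith

/-- The variational inequality. -/
theorem var_tm {B : ℝ} (hB : 0 ≤ B) (hD : Dv D H) (hS : ∀ e i z, H e i z = H i e z) (hP : Ps H)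
    (hc : 0 ≤ c) (hb : ∀ e z, |D e z| ≤ B) (hHm : ∀ e i, Measurable (H e i))
    (hHb : ∀ e i z, |H e i z| ≤ B) {Φ ω : (κ → ℝ) → ℝ} (hΦ : EG Φ)
    (hΦe : EG fun z => Real.exp (Φ z)) (hω : EG ω) (hωe : EG fun z => Real.exp (ω z))
    (h1 : ∫ z, Real.exp (ω z) ∂(gI κ) = 1) :
    ∫ z, Real.exp (ω z) * (Φ (tm c D z) - tx c D H z - ω z) ∂(gI κ) ≤
      Real.log (∫ z, Real.exp (Φ z) ∂(gI κ)) := by
  set ψ : (κ → ℝ) → ℝ := fun z => Φ (tm c D z) - tx c D H z - ω z with hψ
  have hψe : EG ψ := ((eg_comp_tm hB hD hb hc hΦ).sub (eg_tx hD hb hHm hHb)).sub hω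
  set a : ℝ := ∫ z, Real.exp (ω z) * ψ z ∂(gI κ) with ha
  have hint : Integrable (fun z => Real.exp (Φ z)) (gI κ) := hΦe.integrable
  have hle := lint_exp_le hD hS hP hc Φ
  have hm2 : Measurable fun z => Φ (tm c D z) - tx c D H z :=
    ((eg_comp_tm hB hD hb hc hΦ).sub (eg_tx hD hb hHm hHb)).meas
  have hfin : ∫⁻ z, ENNReal.ofReal (Real.exp (Φ z)) ∂(gI κ) ≠ ⊤ := by
    rw [← ofReal_integral_eq_lintegral_ofReal hint
      (Filter.Eventually.of_forall fun z => (Real.exp_pos _).le)]
    exact ENNReal.ofReal_ne_top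
  have hint2 : Integrable (fun z => Real.exp (Φ (tm c D z) - tx c D H z)) (gI κ) := by
    refine ⟨(Real.measurable_exp.comp hm2).aestronglyMeasurable, ?_⟩
    rw [hasFiniteIntegral_iff_ofReal (Filter.Eventually.of_forall fun z => (Real.exp_pos _).le)]
    exact hle.trans_lt (lt_top_iff_ne_top.2 hfin)
  have hle2 : ∫ z, Real.exp (Φ (tm c D z) - tx c D H z) ∂(gI κ) ≤ ∫ z, Real.exp (Φ z) ∂(gI κ) := by
    rw [integral_eq_lintegral_of_nonneg_ae (Filter.Eventually.of_forall fun z =>
        (Real.exp_pos _).le) (Real.measurable_exp.comp hm2).aestronglyMeasurable,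
      integral_eq_lintegral_of_nonneg_ae (Filter.Eventually.of_forall fun z =>
        (Real.exp_pos _).le) hΦe.meas.aestronglyMeasurable]
    exact ENNReal.toReal_mono hfin hle
  have h2 : Real.exp a ≤ ∫ z, Real.exp (Φ (tm c D z) - tx c D H z) ∂(gI κ) := by
    have h3 : ∫ z, (Real.exp a * (1 - a) * Real.exp (ω z) +
        Real.exp a * (Real.exp (ω z) * ψ z)) ∂(gI κ) = Real.exp a := by
      rw [integral_add (hωe.integrable.const_mul _) ((hωe.mul hψe).integrable.const_mul _),
        integral_const_mul, integral_const_mul, h1, ← ha]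
      ring
    rw [← h3]
    refine integral_mono ((hωe.integrable.const_mul _).add
      ((hωe.mul hψe).integrable.const_mul _)) hint2 fun z => ?_
    have h4 := Real.add_one_le_exp (ψ z - a)
    have h5 : Real.exp (Φ (tm c D z) - tx c D H z) =
        Real.exp (ω z) * (Real.exp a * Real.exp (ψ z - a)) := by
      rw [← Real.exp_add, ← Real.exp_add]
      congr 1
      simp only [hψ]
      ring
    simp only
    rw [h5]
    have h6 : 0 < Real.exp (ω z) * Real.exp a := by positivity
    nlinarith [mul_le_mul_of_nonneg_left h4 h6.le]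
  have h3 : 0 < ∫ z, Real.exp (Φ z) ∂(gI κ) := (Real.exp_pos a).trans_le (h2.trans hle2)
  rw [Real.le_log_iff_exp_le h3]
  exact h2.trans hle2

end Vale.Agent.P146.H785
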